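import Vale.Agent.P277Z.Slc.Defs
import Vale.Agent.P284.H451.D.Sard

/-!
# P277, block SLICE: almost all values are regular on all strata
-/

open scoped Manifold ContDiff Topology
open Set Filter MeasureTheory
open Vale.Agent.P272.K Vale.Agent.P285.H281.FD

noncomputable section

namespace Vale.Agent.P277Z.Slc

namespace Srd

theorem range_pi {n : ℕ} {α : Type} [Fintype α] {v : α → Cm n →L[ℂ] ℂ}
    (hv : LinearIndependent ℂ v) : (ContinuousLinearMap.pi v : Cm n →L[ℂ] α → ℂ).range = ⊤ := by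
  classical
  by_contra h
  obtain ⟨φ, h0, hφ⟩ := Submodule.exists_le_ker_of_lt_top _ (lt_top_iff_ne_top.2 h)
  have h1 : ∀ a, φ (fun j => if a = j then 1 else 0) = 0 :=
    Fintype.linearIndependent_iff.1 hv _ (ContinuousLinearMap.ext fun z => by
      have h2 : φ (fun a => v a z) = 0 := hφ ⟨z, rfl⟩
      rw [LinearMap.pi_apply_eq_sum_univ] at h2
      simpa [mul_comm] using h2)
  refine h0 (LinearMap.ext fun x => ?_)
  rw [LinearMap.pi_apply_eq_sum_univ]
  simp [h1]

/-- a holomorphic retraction onto the common zero set -/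
theorem retr {n : ℕ} {α : Type} [Fintype α] {h : α → Cm n → ℂ} {p : Cm n}
    (h1 : ∀ a, AnalyticAt ℂ (h a) p) (h2 : LinearIndependent ℂ fun a => fderiv ℂ (h a) p)
    (h3 : ∀ a, h a p = 0) : ∃ ρ : Cm n → Cm n, AnalyticAt ℂ ρ p ∧ ρ p = p ∧
      ∀ᶠ z in 𝓝 p, (∀ a, h a (ρ z) = 0) ∧ ((∀ a, h a z = 0) → ρ z = z) := by
  set D : Cm n →L[ℂ] α → ℂ := ContinuousLinearMap.pi fun a => fderiv ℂ (h a) p with hD
  obtain ⟨R, hR⟩ := D.exists_rightInverse_of_surjective (range_pi h2)
  have hR' : ∀ w, D (R w) = w := fun w => congrArg (fun f : (α → ℂ) →L[ℂ] α → ℂ => f w) hR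
  let Ψ : Cm n → Cm n := fun z => z - R (D z) + R fun a => h a z
  have hh : AnalyticAt ℂ (fun z a => h a z) p := analyticAt_pi_iff.2 h1
  have hΨ : AnalyticAt ℂ Ψ p := (analyticAt_id.sub ((R.comp D).analyticAt p)).add
    ((R.analyticAt _).comp hh)
  have hd : HasFDerivAt Ψ (ContinuousLinearEquiv.refl ℂ (Cm n) : Cm n →L[ℂ] Cm n) p := by
    have k : HasFDerivAt (fun z a => h a z) D p :=
      hasFDerivAt_pi.2 fun a => (h1 a).differentiableAt.hasFDerivAt
    have k' := ((hasFDerivAt_id p).sub (R.comp D).hasFDerivAt).add (R.hasFDerivAt.comp p k)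
    rw [sub_add_cancel] at k'
    exact k'
  have hc : ContDiffAt ℂ ω Ψ p := hΨ.contDiffAt
  have hs := hc.hasStrictFDerivAt' hd (by simp)
  have hDΨ : ∀ z, D (Ψ z) = fun a => h a z := fun z => by
    simp only [Ψ, map_add, map_sub, hR', sub_self, zero_add]
  have hp : Ψ p - R (D (Ψ p)) = Ψ p := by
    rw [hDΨ, show (fun a => h a p) = 0 from funext h3, map_zero, sub_zero]
  have hq : AnalyticAt ℂ (fun z => Ψ z - R (D (Ψ z))) p :=
    hΨ.sub (((R.comp D).analyticAt _).comp hΨ)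
  refine ⟨fun z => hc.localInverse hd (by simp) (Ψ z - R (D (Ψ z))),
    (hc.to_localInverse hd (by simp)).analyticAt.comp_of_eq hq hp, by
      simp only [hp]; exact hc.localInverse_apply_image hd _, ?_⟩
  have k1 := hq.continuousAt.eventually (by simpa only [hp] using hs.eventually_right_inverse)
  filter_upwards [k1, hs.eventually_left_inverse] with z k2 k3
  refine ⟨fun a => ?_, fun h0 => ?_⟩
  · have k4 := congrArg D k2
    rw [hDΨ, map_sub, hR', sub_self] at k4
    exact congrFun k4 a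
  · rw [hDΨ, show (fun a => h a z) = 0 from funext h0, map_zero, sub_zero]
    exact k3

/-- the theorem of Sard on the common zero set -/
theorem loc {n m : ℕ} {α : Type} [Fintype α] {h : α → Cm n → ℂ} {p : Cm n} {T : Cm n → Cm m}
    (h1 : ∀ a, AnalyticAt ℂ (h a) p) (h2 : LinearIndependent ℂ fun a => fderiv ℂ (h a) p)
    (h3 : ∀ a, h a p = 0) (hT : AnalyticAt ℂ T p) : ∃ U ∈ 𝓝 p, ∀ᵐ s : Cm m, ∀ z ∈ U,
      (∀ a, h a z = 0) → T z = s → LinearIndependent ℂ
        (Sum.elim (fun a => fderiv ℂ (h a) z) fun i : Fin m => fderiv ℂ (fun z => T z i) z) := by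
  obtain ⟨ρ, hρ, hp, h4⟩ := retr h1 h2 h3
  have h5 : ∀ᶠ z in 𝓝 p, LinearIndependent ℂ fun a => fderiv ℂ (h a) z :=
    (continuousAt_pi.2 fun a => (h1 a).fderiv.continuousAt).eventually h2.eventually
  have h6 := (hT.comp_of_eq hρ hp).eventually_analyticAt.and (hρ.eventually_analyticAt.and
    (hT.eventually_analyticAt.and ((eventually_all.2 fun a => (h1 a).eventually_analyticAt).and
      (h5.and h4.eventually_nhds))))
  obtain ⟨U, hU, hUo, hpU⟩ := eventually_nhds_iff.1 h6
  refine ⟨U, hUo.mem_nhds hpU, ?_⟩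
  filter_upwards [Vale.Agent.P284.H451.D.sard_ae hUo fun z hz => (hU z hz).1] with s hs z hz h0 e
  obtain ⟨-, k1, k2, k3, k4, k5⟩ := hU z hz
  have k6 : ρ z = z := k5.self_of_nhds.2 h0
  have k7 := hs z hz (by rw [Function.comp_apply, k6, e])
  rw [fderiv_comp z (k6.symm ▸ k2.differentiableAt) k1.differentiableAt, k6] at k7
  have k8 : ∀ a v, fderiv ℂ (h a) z (fderiv ℂ ρ z v) = 0 := fun a v => by
    have j1 : fderiv ℂ (h a ∘ ρ) z = fderiv ℂ (fun _ => (0 : ℂ)) z :=
      EventuallyEq.fderiv_eq (k5.mono fun y hy => hy.1 a)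
    rw [fderiv_comp z (k6.symm ▸ (k3 a).differentiableAt) k1.differentiableAt, k6] at j1
    simpa using congrArg (fun f : Cm n →L[ℂ] ℂ => f v) j1
  have k9 : ∀ i v, fderiv ℂ (fun z => T z i) z v = fderiv ℂ T z v i := fun i v => by
    rw [fderiv_apply k2.differentiableAt]
    rfl
  refine Fintype.linearIndependent_iff.2 fun c hc => ?_
  rw [Fintype.sum_sum_type] at hc
  have j2 : ∀ i, c (Sum.inr i) = 0 := fun i => by
    obtain ⟨v, hv⟩ := k7 (Pi.single i 1)
    have j3 := congrArg (fun f : Cm n →L[ℂ] ℂ => f (fderiv ℂ ρ z v)) hc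
    have j4 : fderiv ℂ T z (fderiv ℂ ρ z v) = Pi.single i 1 := hv
    simpa [k8, k9, j4, Pi.single_apply] using j3
  rintro (a | i)
  · refine Fintype.linearIndependent_iff.1 k4 (fun a => c (Sum.inl a))
      (ContinuousLinearMap.ext fun v => ?_) a
    simpa [j2] using congrArg (fun f : Cm n →L[ℂ] ℂ => f v) hc
  · exact j2 i

variable {n : ℕ} {W : Type} [TopologicalSpace W] [ChartedSpace (Cm n) W]

theorem ev_symm {e : Chart n W} {x : W} (he : At e x) {P : W → Prop} (h : ∀ᶠ y in 𝓝 x, P y) :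
    ∀ᶠ z in 𝓝 (e x), P (e.symm z) := by
  have c := e.continuousAt_symm (e.map_source he.2)
  rw [ContinuousAt, e.left_inv he.2] at c
  exact c.eventually h

theorem dd_unit {e : Chart n W} {x : W} (he : At e x) {ζ ζ' u : W → ℂ} (hu : Hol n u x)
    (hζ : Hol n ζ x) (h0 : ζ x = 0) (h : ∀ᶠ y in 𝓝 x, ζ' y = u y * ζ y) :
    dd ζ' e x = u x • dd ζ e x := by
  have h1 : (fun z => ζ' (e.symm z)) =ᶠ[𝓝 (e x)] fun z => u (e.symm z) * ζ (e.symm z) :=
    ev_symm he h
  rw [dd, h1.fderiv_eq,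
    fderiv_fun_mul (hu e he).differentiableAt (hζ e he).differentiableAt, e.left_inv he.2, h0]
  exact ContinuousLinearMap.ext fun v => by simp [dd]

variable [IsManifold 𝓘(ℂ, Cm n) ω W]

theorem dd_chart {e e' : Chart n W} {x : W} (he : At e x) (he' : At e' x) {a : W → ℂ}
    (ha : Hol n a x) : dd a e x = (dd a e' x).comp (fderiv ℂ (fun z => e' (e.symm z)) (e x)) := by
  have h1 : (fun z => a (e.symm z)) =ᶠ[𝓝 (e x)]
      (fun z => a (e'.symm z)) ∘ fun z => e' (e.symm z) := by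
    filter_upwards [ev_symm he (e'.open_source.mem_nhds he'.2)] with z hz
    simp [e'.left_inv hz]
  rw [dd, h1.fderiv_eq, fderiv_comp _ (by rw [e.left_inv he.2]; exact (ha e' he').differentiableAt)
    (trans_an he' he).differentiableAt, e.left_inv he.2, dd]

theorem ind_of {α : Type} {h : α → W → ℂ} {x : W} (h1 : ∀ a, Hol n (h a) x) {e : Chart n W}
    (he : At e x) (h2 : LinearIndependent ℂ fun a => dd (h a) e x) : Ind n h x := by
  refine ⟨h1, fun e' he' => LinearIndependent.of_comp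
    ((ContinuousLinearMap.compL ℂ (Cm n) (Cm n) ℂ).flip
      (fderiv ℂ (fun z => e' (e.symm z)) (e x))).toLinearMap ?_⟩
  have h3 : (fun a => dd (h a) e x) = _ := funext fun a => dd_chart he he' (h1 a)
  rw [h3] at h2
  exact h2

omit [IsManifold 𝓘(ℂ, Cm n) ω W] in
theorem cont {a : W → ℂ} {x : W} (h : Hol n a x) : ContinuousAt a x := by
  have he : At (chartAt (Cm n) x) x := ⟨chart_mem_atlas _ _, mem_chart_source _ _⟩
  refine ((h _ he).continuousAt.comp ((chartAt (Cm n) x).continuousAt he.2)).congr ?_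
  filter_upwards [(chartAt (Cm n) x).open_source.mem_nhds he.2] with y hy
  simp [(chartAt (Cm n) x).left_inv hy]

theorem leq_near {G : Set W} {x : W} {ζ : W → ℂ} (h : LEq n G x ζ) :
    ∀ᶠ y in 𝓝 x, LEq n G y ζ := by
  have he : At (chartAt (Cm n) x) x := ⟨chart_mem_atlas _ _, mem_chart_source _ _⟩
  have h1 : Hol n ζ x := fun e he => (h.2 e he).1
  have h2 : ∀ᶠ y in 𝓝 x, ζ y = 0 → dd ζ (chartAt (Cm n) x) y ≠ 0 := by
    by_cases h0 : ζ x = 0
    · exact (((h1 _ he).fderiv.continuousAt.comp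
        ((chartAt (Cm n) x).continuousAt he.2)).eventually_ne ((h.2 _ he).2 h0)).mono
          fun y hy _ => hy
    · exact ((cont h1).eventually_ne h0).mono fun y hy h => (hy h).elim
  filter_upwards [h.1.eventually_nhds, h1.near, h2,
    (chartAt (Cm n) x).open_source.mem_nhds he.2] with y k1 k2 k3 k4
  refine ⟨k1, fun e he' => ⟨k2 e he', fun h0 h3 => k3 h0 ?_⟩⟩
  rw [dd_chart ⟨he.1, k4⟩ he' k2, show dd ζ e y = 0 from h3, ContinuousLinearMap.zero_comp]

end Srd

open Srd in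
theorem stSard_of (hU : StUnit) : StSard := by
  intro n W _ _ _ _ _ κ _ G V m F hG hV hF
  have key : ∀ x0 ∈ V, ∃ N ∈ 𝓝 x0, ∀ᵐ s : Cm m, Reg n G N F s := by
    intro x0 hx0
    obtain ⟨ζ, h1, h2⟩ := hG x0
    have he : At (chartAt (Cm n) x0) x0 := ⟨chart_mem_atlas _ _, mem_chart_source _ _⟩
    set e := chartAt (Cm n) x0
    have h3 : ∀ A : Set κ, ∃ U ∈ 𝓝 (e x0), ∀ᵐ s : Cm m, (∀ l ∈ A, x0 ∈ G l) → ∀ z ∈ U,
        (∀ a : A, ζ a (e.symm z) = 0) → F (e.symm z) = s → LinearIndependent ℂ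
          (Sum.elim (fun a : A => fderiv ℂ (fun z => ζ a (e.symm z)) z)
            fun i : Fin m => fderiv ℂ (fun z => F (e.symm z) i) z) := fun A => by
      by_cases hA : ∀ l ∈ A, x0 ∈ G l
      · have : Fintype A := Fintype.ofFinite A
        obtain ⟨U, k1, k2⟩ := loc (h := fun (a : A) z => ζ a (e.symm z))
          (T := fun z => F (e.symm z)) (fun a => ((h1 a).2 e he).1)
          ((h2.2 e he).comp (fun a : A => ⟨a, hA a a.2⟩) fun a b h =>
            Subtype.ext (congrArg (fun l : {l // x0 ∈ G l} => l.1) h))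
          (fun a => by rw [e.left_inv he.2]; exact (h1 a).1.self_of_nhds.2 (hA a a.2))
          (analyticAt_pi_iff.2 fun i => hF x0 hx0 i e he)
        exact ⟨U, k1, k2.mono fun s hs _ => hs⟩
      · exact ⟨univ, univ_mem, Eventually.of_forall fun s h => (hA h).elim⟩
    choose U h4 h5 using h3
    have h6 : ∀ l, ∀ᶠ y in 𝓝 x0, y ∈ G l → x0 ∈ G l := fun l => by
      by_cases hl : x0 ∈ G l
      · exact Eventually.of_forall fun _ _ => hl
      · filter_upwards [(h1 l).1, (cont fun e he => ((h1 l).2 e he).1).eventually_ne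
          fun h => hl ((h1 l).1.self_of_nhds.1 h)] with y k1 k2 k3 using (k2 (k1.2 k3)).elim
    have h7 := (eventually_all.2 h6).and ((eventually_all.2 fun l => leq_near (h1 l)).and
      ((eventually_all.2 fun A => (e.continuousAt he.2).eventually (h4 A)).and
        (inter_mem (e.open_source.mem_nhds he.2) (hV.mem_nhds hx0))))
    refine ⟨_, h7, ?_⟩
    filter_upwards [ae_all_iff.2 h5] with s hs y ⟨k1, k2, k3, k4, k5⟩ hy ζ' k6
    have he' : At e y := ⟨he.1, k4⟩
    have j0 : ∀ a : {l | y ∈ G l}, ζ a y = 0 := fun a => (k2 a).1.self_of_nhds.2 a.2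
    have j1 := hs {l | y ∈ G l} (fun l hl => k1 l hl) (e y) (k3 _)
      (fun a => by rw [e.left_inv k4]; exact j0 a) (by rw [e.left_inv k4, hy])
    choose u j2 j3 j4 using fun l => hU n W (G l) y (ζ l) (ζ' l) (k2 l) (k6 l)
    refine ind_of ?_ he' ?_
    · rintro (a | i)
      · exact fun e he => ((k6 a).2 e he).1
      · exact fun e he => (hF y k5 i e he).sub analyticAt_const
    · have j5 := j1.units_smul (Sum.elim (fun a => Units.mk0 (u a y) (j3 a)) fun _ => 1)
      refine (congrArg (fun v => LinearIndependent ℂ v) (funext ?_)).mp j5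
      rintro (a | i)
      · exact (dd_unit he' (j2 a) (fun e he => ((k2 a).2 e he).1) (j0 a) (j4 a)).symm
      · simp [dd, fderiv_sub_const]
  choose! N h1 h2 using key
  obtain ⟨T, h3, h4, h5⟩ := TopologicalSpace.countable_cover_nhdsWithin (f := N) (s := V)
    fun x hx => mem_nhdsWithin_of_mem_nhds (h1 x hx)
  filter_upwards [(ae_ball_iff h4).2 fun x hx => h2 x (h3 hx)] with s hs x hx
  obtain ⟨y, hy, hxy⟩ := mem_iUnion₂.1 (h5 hx)
  exact hs y hy x hxy

end Vale.Agent.P277Z.Slc
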