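import Vale.Agent.P277Z.Slc.Defs
import Vale.Agent.P277.H762.CL1

/-!
# P277, block SLICE: local equations are unique up to units
-/

open scoped Manifold ContDiff Topology
open Set Filter
open Vale.Agent.P272.K

noncomputable section

namespace Vale.Agent.P277Z.Slc

namespace Un

variable {n : ℕ} {W : Type} [TopologicalSpace W] [ChartedSpace (Cm n) W] {e : Chart n W} {x : W}

theorem at_self (n : ℕ) [ChartedSpace (Cm n) W] (x : W) : At (chartAt (Cm n) x) x :=
  ⟨chart_mem_atlas _ x, mem_chart_source _ x⟩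

theorem ev_ch (he : At e x) {P : W → Prop} (h : ∀ᶠ y in 𝓝 x, P y) :
    ∀ᶠ z in 𝓝 (e x), P (e.symm z) :=
  (e.continuousAt_symm (e.map_source he.2)).eventually (by rwa [e.left_inv he.2])

theorem ev_of (he : At e x) {P : W → Prop} (h : ∀ᶠ z in 𝓝 (e x), P (e.symm z)) :
    ∀ᶠ y in 𝓝 x, P y := by
  filter_upwards [(e.continuousAt he.2).eventually h, e.open_source.mem_nhds he.2] with y h1 h2
  rwa [e.left_inv h2] at h1

theorem cont {a : W → ℂ} (h : Hol n a x) : ContinuousAt a x := by
  have he := at_self n x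
  refine ((h _ he).continuousAt.comp (f := chartAt (Cm n) x)
    ((chartAt (Cm n) x).continuousAt he.2)).congr ?_
  filter_upwards [(chartAt (Cm n) x).open_source.mem_nhds he.2] with y hy
  simp only [Function.comp, (chartAt (Cm n) x).left_inv hy]

theorem hol {G : Set W} {ζ : W → ℂ} (h : LEq n G x ζ) : Hol n ζ x := fun e he => (h.2 e he).1

end Un

open Un in
theorem stUnit : StUnit := by
  intro n W _ _ _ _ _ G x ζ ζ' h h'
  have hiff : ζ x = 0 ↔ ζ' x = 0 := h.1.self_of_nhds.trans h'.1.self_of_nhds.symm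
  by_cases h0 : ζ x = 0
  · have he := at_self n x
    set e := chartAt (Cm n) x
    have hd := (h.2 e he).2 h0
    obtain ⟨m, hm⟩ : ∃ m, Module.finrank ℂ (Cm n) = m + 1 := by
      refine Nat.exists_eq_succ_of_ne_zero fun h1 => hd ?_
      have := Module.finrank_zero_iff.1 h1
      exact Subsingleton.elim _ _
    obtain ⟨U, h1, h2, h3⟩ := P277.H762.exists_div_unit hm (h.2 e he).1 hd
      (by rwa [e.left_inv he.2]) (h'.2 e he).1 ((h'.2 e he).2 (hiff.1 h0))
      ((ev_ch he (h.1.and h'.1)).mono fun z hz h4 => hz.2.2 (hz.1.1 h4))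
    refine ⟨fun y => U (e y), Hol.of_chart he (h1.congr ?_), h2, ev_of he ?_⟩
    · filter_upwards [e.open_target.mem_nhds (e.map_source he.2)] with z hz
      rw [e.right_inv hz]
    · filter_upwards [h3, e.open_target.mem_nhds (e.map_source he.2)] with z h4 hz
      rw [e.right_inv hz, h4, mul_comm]
  · refine ⟨fun y => ζ' y / ζ y, fun e he => (hol h' e he).div (hol h e he)
      (by rwa [e.left_inv he.2]), div_ne_zero (mt hiff.2 h0) h0, ?_⟩
    filter_upwards [(cont (hol h)).eventually_ne h0] with y hy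
    rw [div_mul_cancel₀ _ hy]

end Vale.Agent.P277Z.Slc
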