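import Vale.Agent.P277Z.Slc.Div

/-!
# P277, block SLICE: degrees of linearly equivalent line bundles
-/

open scoped Manifold ContDiff Topology
open Set Filter
open Vale.Agent.P272.K Vale.Agent.P285.H281.FD
open Vale.Agent.P277.HD (pull)

noncomputable section

namespace Vale.Agent.P277Z.Slc

namespace Cp

variable {n : ℕ} {W : Type} [TopologicalSpace W] [ChartedSpace (Cm n) W] {x : W} {κ : Type}

theorem g_inv {L : Bd W} (h : IsLB n L) {i j : L.ι} (hi : x ∈ L.U i) (hj : x ∈ L.U j) :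
    L.g j i x = (L.g i j x)⁻¹ := by
  refine eq_inv_of_mul_eq_one_right (mul_left_cancel₀ (h.ne_zero i i x hi hi) ?_)
  rw [h.cocycle i j i x hi hj hi, h.cocycle i i i x hi hi hi, mul_one]

theorem hol_prod [Fintype κ] {w : κ → W → ℂ} (h : ∀ l, Hol n (w l) x) (h0 : ∀ l, w l x ≠ 0)
    (ν : κ → ℤ) : Hol n (fun y => ∏ l, w l y ^ ν l) x := fun e he =>
  Finset.analyticAt_fun_prod _ fun l _ => (h l e he).zpow (by rw [e.left_inv he.2]; exact h0 l)

theorem dense_iUnion [Finite κ] {G : κ → Set W} (h : ∀ l x, ∃ ζ, LEq n (G l) x ζ) :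
    Dense (⋃ l, G l)ᶜ := by
  rw [compl_iUnion, ← sInter_range]
  refine (finite_range _).dense_sInter ?_ ?_
  · rintro _ ⟨l, rfl⟩
    exact (isClosed_of_leq (h l)).isOpen_compl
  · rintro _ ⟨l, rfl⟩
    exact Dv.dense_compl (h l)

end Cp

open Dv Cp in
theorem stCmp : StCmp := by
  intro deg hdeg n W _ _ _ _ _ κ _ G O σ V L N ν t hO hV hL hN h1 h2 c hc
  have hD := dense_iUnion fun l => (hO l).ex
  let B : Option (Option κ) → Bd W := fun a => a.elim N fun a => a.elim L O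
  let m : Option (Option κ) → ℤ := fun a => a.elim 1 fun a => a.elim (-1) fun l => -ν l
  have hB : ∀ a, IsLB n (B a) := by
    rintro (_ | _ | l)
    exacts [hN, hL, (hO l).lb]
  let f : (∀ a, (B a).ι) → W → ℂ := fun I y =>
    t (I (some none)) (I none) y * ∏ l, σ l (I (some (some l))) y ^ (-ν l)
  have hσ : ∀ l k y, y ∈ (O l).U k → y ∉ ⋃ l, G l → σ l k y ≠ 0 := fun l k y hk hy h =>
    hy (mem_iUnion.2 ⟨l, ((hO l).leq k y hk).mem.1 h⟩)
  have hU : ∀ (I : ∀ a, (B a).ι) y, (∀ a, y ∈ (B a).U (I a)) →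
      ∀ᶠ y' in 𝓝 y, ∀ a, y' ∈ (B a).U (I a) := fun I y hy =>
    eventually_all.2 fun a => ((hB a).isOpen _).mem_nhds (hy a)
  have key : ∀ I, ∀ y ∈ V, (∀ a, y ∈ (B a).U (I a)) → ∃ u, Hol n u y ∧ u y ≠ 0 ∧
      ∀ᶠ y' in 𝓝 y, y' ∈ (⋃ l, G l)ᶜ → f I y' = u y' := by
    intro I y hy hI
    obtain ⟨ζ, hζ, h3⟩ := h1 y hy
    obtain ⟨u, hu0, hu, h4⟩ := h3 _ _ (hI (some none)) (hI none)
    choose w hw hw0 h5 using fun l =>
      stUnit n W (G l) y _ _ ((hO l).leq _ y (hI (some (some l)))) (hζ l)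
    refine ⟨fun y => u y * ∏ l, w l y ^ ν l, fun e he => (hu e he).mul (hol_prod hw hw0 ν e he),
      mul_ne_zero hu0 (Finset.prod_ne_zero_iff.2 fun l _ => zpow_ne_zero _ (hw0 l)), ?_⟩
    filter_upwards [h4, eventually_all.2 h5, hU I y hI] with y' a1 a2 a3 a4
    simp only [f]
    rw [a1 a4, mul_assoc, ← Finset.prod_mul_distrib]
    refine congrArg _ (Finset.prod_congr rfl fun l _ => ?_)
    rw [a2 l, mul_zpow, zpow_neg,
      mul_inv_cancel_right₀ (zpow_ne_zero _ (hσ l _ y' (a3 (some (some l))) a4))]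
  have hV' : ∀ p, c.ι p ∈ V := fun p => hc (mem_range_self p)
  have h6 := hdeg.rel c.toRS (Option (Option κ)) (fun a => pull c.ι (B a)) m
    (fun I p => ext (⋃ l, G l)ᶜ (f I) (c.ι p)) (fun a => isLB_pull c (hB a))
    ⟨fun I k p hk hI => ?_, fun I J p hI hJ => ?_⟩ fun p I hI => ?_
  · rw [Fintype.sum_option, Fintype.sum_option] at h6
    simp only [m, B, Option.elim, one_mul, neg_mul, Finset.sum_neg_distrib] at h6
    unfold dg
    linarith
  · obtain ⟨u, hu, -, h3⟩ := key I _ (hV' p) hI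
    exact (c.hol (hu.congr (ext_eq hD hu h3)) k hk).contDiffAt
  · obtain ⟨u, hu, -, h3⟩ := key J _ (hV' p) hJ
    have hg := hol_prod (w := fun a => (B a).g (I a) (J a))
      (fun a e he => ((hB a).holo _ _ e _ he (hI a) (hJ a)).analyticAt)
      (fun a => (hB a).ne_zero _ _ _ (hI a) (hJ a)) m
    rw [ext_at hD hu.continuousAt' h3]
    refine ext_at hD (hg.continuousAt'.mul hu.continuousAt') ?_
    filter_upwards [h3, hU I _ hI, hU J _ hJ, hV.mem_nhds (hV' p)] with y a1 a2 a3 a4 a5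
    rw [Pi.mul_apply, ← a1 a5, Fintype.prod_option, Fintype.prod_option]
    simp only [f, m, B, Option.elim, zpow_one, zpow_neg_one]
    rw [h2 y a4 _ _ _ _ a5 (a3 (some none)) (a2 (some none)) (a3 none) (a2 none),
      g_inv hL (a2 (some none)) (a3 (some none)),
      Finset.prod_congr rfl fun l _ => congrArg (· ^ (-ν l))
        ((hO l).sec.change _ _ y (a2 (some (some l))) (a3 (some (some l))))]
    simp only [mul_zpow, Finset.prod_mul_distrib]
    ring
  · obtain ⟨u, hu, h0, h3⟩ := key I _ (hV' p) hI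
    exact fun h4 => h0 ((ext_at hD hu.continuousAt' h3).symm.trans h4)

end Vale.Agent.P277Z.Slc
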