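import Vale.Agent.P277Z.Slc.Defs
import Vale.Agent.P272.K.Inv.Chart
import Mathlib.Analysis.Calculus.InverseFunctionTheorem.ContDiff
import Mathlib.Analysis.Normed.Module.FiniteDimension

/-!
# P277, block SLICE: basic facts
-/

open scoped Manifold ContDiff Topology
open Set Filter
open Vale.Agent.P272.K Vale.Agent.P285.H281.FD
open Vale.Agent.P277.HD (pull)

set_option linter.unusedSectionVars false

noncomputable section

namespace Vale.Agent.P277Z.Slc

theorem ind_iff_surj {E α : Type} [NormedAddCommGroup E] [NormedSpace ℂ E] [Fintype α]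
    (f : α → E →L[ℂ] ℂ) :
    LinearIndependent ℂ f ↔ Function.Surjective (ContinuousLinearMap.pi f) := by
  classical
  constructor
  · intro h
    by_contra hs
    have h1 : (ContinuousLinearMap.pi f : E →ₗ[ℂ] α → ℂ).range < ⊤ :=
      lt_top_iff_ne_top.2 fun k => hs (LinearMap.range_eq_top.1 k)
    obtain ⟨φ, h0, h2⟩ := Submodule.exists_le_ker_of_lt_top _ h1
    refine h0 (LinearMap.pi_ext' fun a => LinearMap.ext_ring ?_)
    refine Fintype.linearIndependent_iff.1 h (fun a => φ (Pi.single a 1)) ?_ a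
    ext v
    have h3 : φ (fun a => f a v) = 0 := h2 ⟨v, rfl⟩
    rw [LinearMap.pi_apply_eq_sum_univ] at h3
    simp only [FunLike.coe_sum, Finset.sum_apply, smul_apply, smul_eq_mul, zero_apply]
    rw [← h3]
    refine Finset.sum_congr rfl fun a _ => ?_
    rw [smul_eq_mul, mul_comm]
    congr 2
    funext j
    simp [Pi.single_apply, eq_comm]
  · intro h
    refine Fintype.linearIndependent_iff.2 fun c hc a => ?_
    obtain ⟨v, hv⟩ := h (Pi.single a 1)
    have h1 := congrArg (fun L : E →L[ℂ] ℂ => L v) hc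
    have h2 : ∀ b, f b v = (Pi.single a 1 : α → ℂ) b := fun b => congrFun hv b
    simpa [h2, Pi.single_apply] using h1

/-- local coordinates whose first part is a given submersion -/
theorem par {n d : ℕ} {E : Type} [NormedAddCommGroup E] [NormedSpace ℂ E] [FiniteDimensional ℂ E]
    {h : Cm n → E} {z : Cm n} (ha : AnalyticAt ℂ h z) (hs : Function.Surjective (fderiv ℂ h z))
    (hd : Module.finrank ℂ E + d = n) :
    ∃ (Φ : OpenPartialHomeomorph (Cm n) (E × Cm d)) (P : Cm n →L[ℂ] Cm d), z ∈ Φ.source ∧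
      (∀ w, Φ w = (h w, P w)) ∧ (∀ w ∈ Φ.source, AnalyticAt ℂ h w) ∧
      ∀ v ∈ Φ.target, AnalyticAt ℂ Φ.symm v := by
  have : CompleteSpace E := FiniteDimensional.complete ℂ E
  set A : Cm n →ₗ[ℂ] E := (fderiv ℂ h z).toLinearMap with hA
  have hk : Module.finrank ℂ A.ker = d := by
    have h1 := A.finrank_range_add_finrank_ker
    rw [LinearMap.range_eq_top.2 hs, finrank_top] at h1
    simp only [Module.finrank_fin_fun] at h1
    omega
  obtain ⟨Q, hQ⟩ := A.ker.exists_isCompl
  let ε : A.ker ≃ₗ[ℂ] Cm d := LinearEquiv.ofFinrankEq _ _ (by simp [hk])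
  let P : Cm n →L[ℂ] Cm d := LinearMap.toContinuousLinearMap
    (ε.toLinearMap ∘ₗ A.ker.projectionOnto Q hQ)
  let T : Cm n →ₗ[ℂ] E × Cm d := A.prod P
  have hi : Function.Injective T := by
    refine (injective_iff_map_eq_zero T).2 fun v hv => ?_
    have h1 : v ∈ A.ker := congrArg Prod.fst hv
    have h2 : ε (A.ker.projectionOnto Q hQ v) = 0 := congrArg Prod.snd hv
    rw [ε.map_eq_zero_iff, show v = ((⟨v, h1⟩ : A.ker) : Cm n) from rfl,
      Submodule.projectionOnto_apply_left] at h2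
    exact congrArg Subtype.val h2
  let T' : Cm n ≃L[ℂ] E × Cm d := (LinearMap.linearEquivOfInjective T hi
    (by simp [hd])).toContinuousLinearEquiv
  have h1 : AnalyticAt ℂ (fun w => (h w, P w)) z := ha.prod (P.analyticAt z)
  have h2 : HasFDerivAt (fun w => (h w, P w)) (T' : Cm n →L[ℂ] E × Cm d) z := by
    have h0 : (T' : Cm n →L[ℂ] E × Cm d) = (fderiv ℂ h z).prod P := ContinuousLinearMap.ext fun _ => rfl
    rw [h0]
    exact ha.differentiableAt.hasFDerivAt.prodMk P.hasFDerivAt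
  have h3 : ContDiffAt ℂ ω (fun w => (h w, P w)) z := h1.contDiffAt
  set Θ := h3.toOpenPartialHomeomorph _ h2 (by simp) with hΘ
  have hsrc : z ∈ Θ.source := h3.mem_toOpenPartialHomeomorph_source h2 (by simp)
  have h4 : AnalyticAt ℂ Θ.symm (Θ z) :=
    (show ContDiffAt ℂ ω Θ.symm (h z, P z) from h3.to_localInverse h2 (by simp)).analyticAt
  have h5 : ∀ᶠ w in 𝓝 z, AnalyticAt ℂ h w ∧ AnalyticAt ℂ Θ.symm (Θ w) :=
    ha.eventually_analyticAt.and ((Θ.continuousAt hsrc).eventually h4.eventually_analyticAt)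
  obtain ⟨U, hU, hUo, hz⟩ := eventually_nhds_iff.1 h5
  refine ⟨Θ.restrOpen U hUo, P, ⟨hsrc, hz⟩, fun _ => rfl, fun w hw => (hU w hw.2).1, fun v hv => ?_⟩
  have h6 := (hU _ hv.2).2
  have h7 : Θ ((Θ.symm : E × Cm d → Cm n) v) = v := Θ.right_inv hv.1
  change AnalyticAt ℂ Θ.symm (Θ (Θ.symm v)) at h6
  rw [h7] at h6
  exact h6

variable {n : ℕ} {W : Type} [TopologicalSpace W] [ChartedSpace (Cm n) W]

theorem at_chartAt (x : W) : At (chartAt (Cm n) x) x := ⟨chart_mem_atlas _ _, mem_chart_source _ _⟩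

theorem tendsto_symm {e : Chart n W} {x : W} (he : At e x) : Tendsto e.symm (𝓝 (e x)) (𝓝 x) := by
  have := e.continuousAt_symm (e.map_source he.2)
  rwa [ContinuousAt, e.left_inv he.2] at this

theorem At.near {e : Chart n W} {x : W} (he : At e x) : ∀ᶠ y in 𝓝 x, At e y := by
  filter_upwards [e.open_source.mem_nhds he.2] with y hy using ⟨he.1, hy⟩

theorem _root_.Vale.Agent.P277Z.Hol.continuousAt' {a : W → ℂ} {x : W} (h : Hol n a x) :
    ContinuousAt a x := by
  have he := at_chartAt (n := n) x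
  have h1 := (h _ he).continuousAt.comp ((chartAt (Cm n) x).continuousAt he.2)
  refine h1.congr ?_
  filter_upwards [At.near he] with y hy
  simp [(chartAt (Cm n) x).left_inv hy.2]

theorem _root_.Vale.Agent.P277Z.Hol.continuousAt {a : W → ℂ} {x : W} (h : Hol n a x) :
    ContinuousAt a x := h.continuousAt'

theorem dd_congr {a b : W → ℂ} {x : W} (h : ∀ᶠ y in 𝓝 x, a y = b y) {e : Chart n W}
    (he : At e x) : dd a e x = dd b e x :=
  Filter.EventuallyEq.fderiv_eq ((tendsto_symm he).eventually h)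

theorem dd_mul {u a : W → ℂ} {x : W} (hu : Hol n u x) (ha : Hol n a x) (h0 : a x = 0)
    {e : Chart n W} (he : At e x) : dd (fun y => u y * a y) e x = u x • dd a e x := by
  unfold dd
  rw [fderiv_fun_mul (hu e he).differentiableAt (ha e he).differentiableAt, e.left_inv he.2, h0]
  ext v
  simp

theorem dd_sub_const (a : W → ℂ) (c : ℂ) (e : Chart n W) (x : W) :
    dd (fun y => a y - c) e x = dd a e x := by
  unfold dd
  exact fderiv_sub_const c

theorem LEq.hol {G : Set W} {x : W} {ζ : W → ℂ} (h : LEq n G x ζ) : Hol n ζ x :=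
  fun e he => (h.2 e he).1

theorem LEq.mem {G : Set W} {x : W} {ζ : W → ℂ} (h : LEq n G x ζ) : ζ x = 0 ↔ x ∈ G :=
  h.1.self_of_nhds

theorem LEq.not_mem_near {G : Set W} {x : W} {ζ : W → ℂ} (h : LEq n G x ζ) (hx : x ∉ G) :
    ∀ᶠ y in 𝓝 x, y ∉ G := by
  filter_upwards [h.1, h.hol.continuousAt'.eventually_ne (mt h.mem.1 hx)] with y h1 h2 h3
    using h2 (h1.2 h3)

theorem isClosed_of_leq {G : Set W} (h : ∀ x, ∃ ζ, LEq n G x ζ) : IsClosed G :=
  isOpen_compl_iff.1 (isOpen_iff_mem_nhds.2 fun x hx => (h x).choose_spec.not_mem_near hx)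

theorem IsDiv.ex {G : Set W} {O : Bd W} {σ : O.ι → W → ℂ} (h : IsDiv n G O σ) (x : W) :
    ∃ ζ, LEq n G x ζ :=
  let ⟨i, hi⟩ := h.lb.cover x
  ⟨σ i, h.leq i x hi⟩

theorem IsDiv.closed {G : Set W} {O : Bd W} {σ : O.ι → W → ℂ} (h : IsDiv n G O σ) : IsClosed G :=
  isClosed_of_leq h.ex

theorem Ind.comp {α β : Type} {h : α → W → ℂ} {x : W} (hi : Ind n h x) (f : β → α)
    (hf : Function.Injective f) : Ind n (fun b => h (f b)) x :=
  ⟨fun b => hi.1 (f b), fun e he => (hi.2 e he).comp f hf⟩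

/-- the trivial bundle -/
def triv (X : Type) : Bd X where
  ι := Unit
  U _ := univ
  g _ _ _ := 1

theorem isLB_triv : IsLB n (triv W) where
  isOpen _ := isOpen_univ
  cover _ := ⟨(), trivial⟩
  holo _ _ _ _ _ _ _ := contDiffAt_const
  ne_zero _ _ _ _ _ := one_ne_zero
  cocycle _ _ _ _ _ _ _ := one_mul _

theorem dg_triv {deg : ∀ R : RS, Bd R.C → ℤ} (hd : IsDeg deg) (c : Crv n W) :
    dg deg c (triv W) = 0 := by
  have := hd.rel c.toRS Unit (fun _ => triv c.C) (fun _ => 1) (fun _ _ => 1) (fun _ => isLB_triv)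
    ⟨fun _ _ _ _ _ => contDiffAt_const, fun _ _ _ _ _ => by simp [lin, triv]⟩
    (fun _ _ _ => one_ne_zero)
  rw [Fintype.sum_unique, one_mul] at this
  exact this

theorem Crv.comp_eq (c : Crv n W) (a : W → ℂ) {p : c.C} {k : Chart 1 c.C} {e : Chart n W}
    (hk : At k p) (he : At e (c.ι p)) : (fun z => a (c.ι (k.symm z))) =ᶠ[𝓝 (k p)]
      fun z => a (e.symm (e (c.ι (k.symm z)))) := by
  filter_upwards [((c.cont.tendsto p).comp (tendsto_symm hk)).eventually (At.near he)] with z hz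
  exact congrArg a (e.left_inv hz.2).symm

theorem Crv.hol (c : Crv n W) {a : W → ℂ} {p : c.C} (h : Hol n a (c.ι p)) :
    Hol 1 (fun p => a (c.ι p)) p := fun k hk => by
  have he := at_chartAt (n := n) (c.ι p)
  refine AnalyticAt.congr ?_ (c.comp_eq a hk he).symm
  refine AnalyticAt.fun_comp (g := fun z => a ((chartAt (Cm n) (c.ι p)).symm z)) ?_
    (c.holo p k _ hk he).1
  rw [k.left_inv hk.2]
  exact h _ he

theorem Crv.dd_comp (c : Crv n W) {a : W → ℂ} {p : c.C} (h : Hol n a (c.ι p)) {k : Chart 1 c.C}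
    {e : Chart n W} (hk : At k p) (he : At e (c.ι p)) : dd (fun p => a (c.ι p)) k p =
      (dd a e (c.ι p)).comp (fderiv ℂ (fun z => e (c.ι (k.symm z))) (k p)) := by
  unfold dd
  rw [(c.comp_eq a hk he).fderiv_eq]
  have h1 : DifferentiableAt ℂ (fun z => a (e.symm z)) (e (c.ι (k.symm (k p)))) := by
    rw [k.left_inv hk.2]
    exact (h e he).differentiableAt
  have := fderiv_fun_comp (k p) h1 (c.holo p k e hk he).1.differentiableAt
  rw [this, k.left_inv hk.2]

theorem isLB_pull (c : Crv n W) {L : Bd W} (h : IsLB n L) : IsLB 1 (pull c.ι L) where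
  isOpen i := (h.isOpen i).preimage c.cont
  cover p := h.cover (c.ι p)
  holo i j k _ hk hi hj :=
    (c.hol (a := L.g i j) (fun e he => (h.holo i j e _ he hi hj).analyticAt) k hk).contDiffAt
  ne_zero i j p := h.ne_zero i j (c.ι p)
  cocycle i j k p := h.cocycle i j k (c.ι p)

variable [IsManifold 𝓘(ℂ, Cm n) ω W]

/-- the derivative of the change of charts -/
def tr (e e' : Chart n W) (x : W) : Cm n →L[ℂ] Cm n := fderiv ℂ (fun z => e (e'.symm z)) (e' x)

theorem dd_chart {a : W → ℂ} {x : W} (h : Hol n a x) {e e' : Chart n W} (he : At e x)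
    (he' : At e' x) : dd a e' x = (dd a e x).comp (tr e e' x) := by
  unfold dd tr
  have h0 : (fun z => a (e'.symm z)) =ᶠ[𝓝 (e' x)] fun z => a (e.symm (e (e'.symm z))) := by
    filter_upwards [(tendsto_symm he').eventually (At.near he)] with z hz
    rw [e.left_inv hz.2]
  have h1 : DifferentiableAt ℂ (fun z => a (e.symm z)) (e (e'.symm (e' x))) := by
    rw [e'.left_inv he'.2]
    exact (h e he).differentiableAt
  have := fderiv_fun_comp (e' x) h1 (trans_an he he').differentiableAt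
  rw [h0.fderiv_eq, this, e'.left_inv he'.2]

theorem tr_comp {x : W} {e e' : Chart n W} (he : At e x) (he' : At e' x) :
    (tr e e' x).comp (tr e' e x) = ContinuousLinearMap.id ℂ (Cm n) := by
  unfold tr
  have h0 : (fun z => e (e'.symm (e' (e.symm z)))) =ᶠ[𝓝 (e x)] id := by
    filter_upwards [(tendsto_symm he).eventually (At.near he'), he.nhds_target] with z hz hz'
    rw [e'.left_inv hz.2, e.right_inv hz', id]
  have h1 : DifferentiableAt ℂ (fun z => e (e'.symm z)) (e' (e.symm (e x))) := by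
    rw [e.left_inv he.2]
    exact (trans_an he he').differentiableAt
  have := fderiv_fun_comp (e x) h1 (trans_an he' he).differentiableAt
  rw [h0.fderiv_eq, fderiv_id, e.left_inv he.2] at this
  exact this.symm

theorem tr_surj {x : W} {e e' : Chart n W} (he : At e x) (he' : At e' x) :
    Function.Surjective (tr e e' x) := fun v =>
  ⟨tr e' e x v, congrArg (fun L : Cm n →L[ℂ] Cm n => L v) (tr_comp he he')⟩

theorem Ind.of_chart {α : Type} {h : α → W → ℂ} {x : W} (hh : ∀ a, Hol n (h a) x) {e : Chart n W}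
    (he : At e x) (hi : LinearIndependent ℂ fun a => dd (h a) e x) : Ind n h x := by
  refine ⟨hh, fun e' he' => ?_⟩
  let T : (Cm n →L[ℂ] ℂ) →ₗ[ℂ] (Cm n →L[ℂ] ℂ) :=
    { toFun := fun L => L.comp (tr e e' x), map_add' := fun _ _ => rfl, map_smul' := fun _ _ => rfl }
  have hT : T.ker = ⊥ := LinearMap.ker_eq_bot'.2 fun L hL => by
    ext1 v
    obtain ⟨w, rfl⟩ := tr_surj he he' v
    exact congrArg (fun L : Cm n →L[ℂ] ℂ => L w) hL
  have h1 : (fun a => dd (h a) e' x) = T ∘ fun a => dd (h a) e x :=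
    funext fun a => dd_chart (hh a) he he'
  rw [h1]
  exact hi.map' T hT

theorem dd_cont {a : W → ℂ} {x : W} (h : Hol n a x) {e : Chart n W} (he : At e x) :
    ContinuousAt (fun y => dd a e y) x :=
  ContinuousAt.comp (g := fderiv ℂ fun z => a (e.symm z)) (h e he).fderiv.continuousAt
    (e.continuousAt he.2)

theorem Ind.near {α : Type} [Finite α] {h : α → W → ℂ} {x : W} (hi : Ind n h x) :
    ∀ᶠ y in 𝓝 x, Ind n h y := by
  have he := at_chartAt (n := n) x
  have h1 : ContinuousAt (fun y a => dd (h a) (chartAt (Cm n) x) y) x :=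
    continuousAt_pi.2 fun a => dd_cont (hi.1 a) he
  filter_upwards [h1.eventually (hi.2 _ he).eventually, At.near he,
    eventually_all.2 fun a => (hi.1 a).near] with y k1 k2 k3 using Ind.of_chart k3 k2 k1

theorem LEq.of_chart {G : Set W} {x : W} {ζ : W → ℂ} (h : ∀ᶠ y in 𝓝 x, ζ y = 0 ↔ y ∈ G)
    (hh : Hol n ζ x) {e : Chart n W} (he : At e x) (h0 : ζ x = 0 → dd ζ e x ≠ 0) : LEq n G x ζ := by
  refine ⟨h, fun e' he' => ⟨hh e' he', fun k1 k2 => h0 k1 ?_⟩⟩
  rw [dd_chart hh he' he, show dd ζ e' x = 0 from k2, ContinuousLinearMap.zero_comp]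

theorem LEq.near {G : Set W} {x : W} {ζ : W → ℂ} (h : LEq n G x ζ) :
    ∀ᶠ y in 𝓝 x, LEq n G y ζ := by
  have he := at_chartAt (n := n) x
  have h1 : ∀ᶠ y in 𝓝 x, ζ y = 0 → dd ζ (chartAt (Cm n) x) y ≠ 0 := by
    by_cases h0 : ζ x = 0
    · exact ((dd_cont h.hol he).eventually_ne ((h.2 _ he).2 h0)).mono fun _ k _ => k
    · exact (h.hol.continuousAt'.eventually_ne h0).mono fun _ k k' => absurd k' k
  filter_upwards [h.1.eventually_nhds, h.hol.near, At.near he, h1] with y k1 k2 k3 k4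
    using LEq.of_chart k1 k2 k3 k4

theorem isLB_can : IsLB n (Bd.can n W) where
  isOpen e := isOpen_iff_mem_nhds.2 fun _ hx => At.near hx
  cover x := ⟨_, at_chartAt x⟩
  holo i j e x he hi hj :=
    (Hol.of_chart (a := fun y => (jacM i j y).det) hi (jacM_det_holo hi hj).analyticAt e
      he).contDiffAt
  ne_zero i j x hi hj := jacM_det_ne_zero hi hj
  cocycle i j k x hi hj hk := by
    show (jacM i j x).det * (jacM j k x).det = (jacM i k x).det
    rw [jacM_comp hi hj hk, Matrix.det_mul, mul_comm]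

/-- local coordinates on `W` whose first part is a family with independent differentials -/
theorem Ind.par {α : Type} [Fintype α] {h : α → W → ℂ} {x : W} (hi : Ind n h x) {d : ℕ}
    (hd : Fintype.card α + d = n) {e : Chart n W} (he : At e x) :
    ∃ (Φ : OpenPartialHomeomorph (Cm n) ((α → ℂ) × Cm d)) (P : Cm n →L[ℂ] Cm d), e x ∈ Φ.source ∧
      (∀ w, Φ w = (fun a => h a (e.symm w), P w)) ∧
      (∀ w ∈ Φ.source, AnalyticAt ℂ (fun w a => h a (e.symm w)) w) ∧
      ∀ v ∈ Φ.target, AnalyticAt ℂ Φ.symm v := by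
  refine Slc.par (AnalyticAt.pi fun a => hi.1 a e he) ?_ (by simpa using hd)
  rw [fderiv_pi fun a => (hi.1 a e he).differentiableAt]
  exact (ind_iff_surj _).1 (hi.2 e he)

end Vale.Agent.P277Z.Slc
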