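import Vale.Agent.P277Z.Slc.Basic
import Vale.Agent.P277Z.Slc.Unit

/-!
# P277, block SLICE: the line bundle of a smooth hypersurface
-/

open scoped Manifold ContDiff Topology
open Set Filter
open Vale.Agent.P272.K Vale.Agent.P285.H281.FD

noncomputable section

namespace Vale.Agent.P277Z.Slc

namespace Dv

variable {n : ℕ} {W : Type} [TopologicalSpace W] [ChartedSpace (Cm n) W] {x : W} {D G : Set W}

/-- the extension of `f` from `D` by continuity -/
def ext (D : Set W) (f : W → ℂ) (y : W) : ℂ := limUnder (𝓝[D] y) f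

theorem dense_compl (h : ∀ x, ∃ ζ, LEq n G x ζ) : Dense Gᶜ := fun x => by
  obtain ⟨ζ, hζ⟩ := h x
  refine mem_closure_iff_frequently.2 fun h1 => ?_
  have h2 : ∀ᶠ y in 𝓝 x, ζ y = 0 := by
    filter_upwards [h1, hζ.1] with y h3 h4 using h4.2 (not_not.1 h3)
  have he := at_chartAt (n := n) x
  refine (hζ.2 _ he).2 h2.self_of_nhds ?_
  rw [Filter.EventuallyEq.fderiv_eq (f := fun _ => (0 : ℂ)) ((tendsto_symm he).eventually h2)]
  exact fderiv_const_apply 0

theorem eq_of_dense (hD : Dense D) {a b : W → ℂ} (ha : ContinuousAt a x) (hb : ContinuousAt b x)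
    (h : ∀ᶠ y in 𝓝 x, y ∈ D → a y = b y) : a x = b x :=
  tendsto_nhds_unique_of_frequently_eq ha hb
    (((mem_closure_iff_frequently.1 (hD x)).and_eventually h).mono fun _ hy => hy.2 hy.1)

theorem ext_at (hD : Dense D) {f u : W → ℂ} (hu : ContinuousAt u x)
    (h : ∀ᶠ y in 𝓝 x, y ∈ D → f y = u y) : ext D f x = u x := by
  have := mem_closure_iff_nhdsWithin_neBot.1 (hD x)
  refine Tendsto.limUnder_eq ((hu.tendsto.mono_left nhdsWithin_le_nhds).congr' ?_)
  filter_upwards [self_mem_nhdsWithin, mem_nhdsWithin_of_mem_nhds h] with y h1 h2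
    using (h2 h1).symm

variable [IsManifold 𝓘(ℂ, Cm n) ω W]

theorem ext_eq (hD : Dense D) {f u : W → ℂ} (hu : Hol n u x)
    (h : ∀ᶠ y in 𝓝 x, y ∈ D → f y = u y) : ∀ᶠ y in 𝓝 x, u y = ext D f y := by
  filter_upwards [hu.near, h.eventually_nhds] with y h1 h2 using (ext_at hD h1.continuousAt' h2).symm

end Dv

open Dv in
theorem stDiv : StDiv := by
  intro n W _ _ _ _ _ G hG
  have hD := dense_compl hG
  choose ζ hζ using hG
  have key : ∀ a b y, LEq n G y (ζ a) → LEq n G y (ζ b) →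
      Hol n (ext Gᶜ fun y => ζ a y / ζ b y) y ∧ ext Gᶜ (fun y => ζ a y / ζ b y) y ≠ 0 ∧
        ∀ᶠ y' in 𝓝 y, ζ a y' = ext Gᶜ (fun y => ζ a y / ζ b y) y' * ζ b y' := by
    intro a b y ha hb
    obtain ⟨u, h1, h2, h3⟩ := stUnit n W G y _ _ hb ha
    have h4 := ext_eq (f := fun y => ζ a y / ζ b y) hD h1 (by
      filter_upwards [h3, hb.1] with y' h5 h6 h7
      rw [h5, mul_div_cancel_right₀ _ (mt h6.1 h7)])
    refine ⟨h1.congr h4, h4.self_of_nhds ▸ h2, ?_⟩
    filter_upwards [h3, h4] with y' h5 h6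
    rw [← h6, h5]
  refine ⟨⟨W, fun a => {y | LEq n G y (ζ a)}, fun a b => ext Gᶜ fun y => ζ a y / ζ b y⟩, ζ,
    ⟨fun a => isOpen_iff_mem_nhds.2 fun y hy => LEq.near hy, fun x => ⟨x, hζ x⟩,
      fun a b e y he ha hb => ((key a b y ha hb).1 e he).contDiffAt,
      fun a b y ha hb => (key a b y ha hb).2.1, fun a b c y ha hb hc => ?_⟩,
    ⟨fun a e y he ha => (LEq.hol ha e he).contDiffAt,
      fun a b y ha hb => (key a b y ha hb).2.2.self_of_nhds⟩, fun _ _ h => h⟩
  refine (ext_at hD ((key a b y ha hb).1.continuousAt'.mul (key b c y hb hc).1.continuousAt') ?_).symm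
  filter_upwards [(key a b y ha hb).2.2, (key b c y hb hc).2.2, hc.1] with y' h1 h2 h3 h4
  rw [Pi.mul_apply, div_eq_iff (mt h3.1 h4), mul_assoc, ← h2, ← h1]

end Vale.Agent.P277Z.Slc
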