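import Vale.Agent.P277Z.Slc.Defs

/-!
# P277, block SLICE: a compact smooth set of dimension one is a finite disjoint union of curves
-/

open scoped Manifold ContDiff Topology
open Set Filter Function
open Vale.Agent.P272.K

noncomputable section

namespace Vale.Agent.P277Z.Slc

namespace Cv

theorem exists_equiv {n : ℕ} {α : Type} [Fintype α] (hα : Fintype.card α + 1 = n)
    {l : α → Cm n →L[ℂ] ℂ} (hl : LinearIndependent ℂ l) :
    ∃ (P : Cm n →L[ℂ] Cm 1) (L : Cm n ≃L[ℂ] (α → ℂ) × Cm 1),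
      (L : Cm n →L[ℂ] (α → ℂ) × Cm 1) = (ContinuousLinearMap.pi l).prod P := by
  have h1 : Module.finrank ℂ (Cm n →L[ℂ] ℂ) = n := by
    rw [← LinearMap.toContinuousLinearMap.finrank_eq, Module.finrank_linearMap]
    simp
  obtain ⟨P, -, hP⟩ := SetLike.exists_of_lt (lt_top_iff_ne_top.2 fun h :
      Submodule.span ℂ (range l) = ⊤ => by
    have := finrank_span_eq_card hl
    rw [h, finrank_top, h1] at this
    omega)
  have h2 := (hl.option hP).span_eq_top_of_card_eq_finrank' (by rw [h1, Fintype.card_option, hα])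
  let T := (ContinuousLinearMap.pi l).prod (ContinuousLinearMap.pi fun _ : Fin 1 => P)
  have h3 : Injective (T : Cm n →ₗ[ℂ] (α → ℂ) × Cm 1) := by
    refine (injective_iff_map_eq_zero _).2 fun v hv => funext fun i => ?_
    have h4 : (⊤ : Submodule ℂ (Cm n →L[ℂ] ℂ)) ≤
        LinearMap.ker (ContinuousLinearMap.apply ℂ ℂ v).toLinearMap := by
      rw [← h2, Submodule.span_le]
      rintro _ ⟨_ | a, rfl⟩
      exacts [congrFun (congrArg Prod.snd hv) 0, congrFun (congrArg Prod.fst hv) a]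
    exact h4 (x := ContinuousLinearMap.proj i) trivial
  exact ⟨_, (LinearMap.linearEquivOfInjective _ h3 (by simp [hα])).toContinuousLinearEquiv, rfl⟩

theorem slice {W A B : Type} [TopologicalSpace W] [TopologicalSpace A] [TopologicalSpace B]
    [Zero A] (Θ : OpenPartialHomeomorph W (A × B)) {Z : Set W}
    (hZ : ∀ y ∈ Θ.source, y ∈ Z ↔ (Θ y).1 = 0) (x : Z) :
    ∃ c : OpenPartialHomeomorph Z B, c.source = (↑) ⁻¹' Θ.source ∧
      ∀ s ∈ c.target, (0, s) ∈ Θ.target ∧ (c.symm s : W) = Θ.symm (0, s) := by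
  classical
  have h1 : ∀ s, (0, s) ∈ Θ.target → Θ.symm (0, s) ∈ Z := fun s hs =>
    (hZ _ (Θ.map_target hs)).2 (by rw [Θ.right_inv hs])
  have h2 : ∀ y : Z, ↑y ∈ Θ.source → (0, (Θ y).2) = Θ y := fun y hy =>
    Prod.ext ((hZ _ hy).1 y.2).symm rfl
  let g : B → Z := fun s => if hs : (0, s) ∈ Θ.target then ⟨_, h1 s hs⟩ else x
  have h3 : ∀ s, (0, s) ∈ Θ.target → (g s : W) = Θ.symm (0, s) := fun s hs => by
    simp only [g, dif_pos hs]
  have h4 : ∀ y : Z, ↑y ∈ Θ.source → (0, (Θ y).2) ∈ Θ.target := fun y hy =>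
    (h2 y hy).symm ▸ Θ.map_source hy
  exact ⟨{ toFun := fun y => (Θ y).2
           invFun := g
           source := Subtype.val ⁻¹' Θ.source
           target := {s | (0, s) ∈ Θ.target}
           map_source' := fun y hy => h4 y hy
           map_target' := fun s hs => show ↑(g s) ∈ Θ.source from (h3 s hs).symm ▸ Θ.map_target hs
           left_inv' := fun y hy => Subtype.ext (by rw [h3 _ (h4 y hy), h2 y hy, Θ.left_inv hy])
           right_inv' := fun s hs => by rw [h3 s hs, Θ.right_inv hs]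
           open_source := Θ.open_source.preimage continuous_subtype_val
           open_target := Θ.open_target.preimage (Continuous.prodMk_right 0)
           continuousOn_toFun :=
             (Θ.continuousOn.comp continuous_subtype_val.continuousOn fun _ h => h).snd
           continuousOn_invFun := Topology.IsInducing.subtypeVal.continuousOn_iff.2
             ((Θ.continuousOn_symm.comp (Continuous.prodMk_right 0).continuousOn
               fun _ h => h).congr h3) }, rfl, fun s hs => ⟨hs, h3 s hs⟩⟩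

theorem an_of_comp {n : ℕ} {g' g : Cm 1 → Cm n} {τ : Cm 1 → Cm 1} {z : Cm 1}
    (hg' : AnalyticAt ℂ g' (τ z)) (hinj : Injective (fderiv ℂ g' (τ z))) (hg : AnalyticAt ℂ g z)
    (hτ : ContinuousAt τ z) (h : ∀ᶠ y in 𝓝 z, g y = g' (τ y)) : ContDiffAt ℂ ω τ z := by
  obtain ⟨L, hL⟩ := (fderiv ℂ g' (τ z) : Cm 1 →ₗ[ℂ] Cm n).exists_leftInverse_of_injective
    (LinearMap.ker_eq_bot.2 hinj)
  let L' : Cm n →L[ℂ] Cm 1 := LinearMap.toContinuousLinearMap L
  have h1 : ContDiffAt ℂ ω (fun y => L' (g' y)) (τ z) :=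
    L'.contDiff.contDiffAt.comp _ hg'.contDiffAt
  have h2 : HasFDerivAt (fun y => L' (g' y))
      (ContinuousLinearEquiv.refl ℂ (Cm 1) : Cm 1 →L[ℂ] Cm 1) (τ z) :=
    (L'.hasFDerivAt.comp (τ z) hg'.differentiableAt.hasFDerivAt).congr_fderiv
      (ContinuousLinearMap.ext fun v => LinearMap.congr_fun hL v)
  have h4 := h1.to_localInverse h2 (by simp)
  rw [← h.self_of_nhds] at h4
  refine (h4.comp z (L'.contDiff.contDiffAt.comp z hg.contDiffAt)).congr_of_eventuallyEq ?_
  filter_upwards [h, hτ.eventually ((h1.toOpenPartialHomeomorph _ h2 (by simp)).eventually_left_inverse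
    (h1.mem_toOpenPartialHomeomorph_source h2 (by simp)))] with y k1 k2
  rw [comp_apply, comp_apply, k1]
  exact k2.symm

variable {n : ℕ} {W : Type} [TopologicalSpace W] [ChartedSpace (Cm n) W] {Z : Set W}

variable (n) in
/-- in the chart `c` the inclusion is a holomorphic immersion -/
def Imm (c : Chart 1 Z) : Prop :=
  ∀ z ∈ c.target, ∀ e : Chart n W, At e (c.symm z : W) →
    AnalyticAt ℂ (fun z' => e (c.symm z' : W)) z ∧
      Injective (fderiv ℂ (fun z' => e (c.symm z' : W)) z)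

/-- the complex structure -/
@[reducible] def cs (h : ∀ y : Z, ∃ c : Chart 1 Z, y ∈ c.source ∧ Imm n c) :
    ChartedSpace (Cm 1) Z where
  atlas := {c | Imm n c}
  chartAt y := (h y).choose
  mem_chart_source y := (h y).choose_spec.1
  chart_mem_atlas y := (h y).choose_spec.2

theorem isManifold (h : ∀ y : Z, ∃ c : Chart 1 Z, y ∈ c.source ∧ Imm n c) :
    @IsManifold ℂ _ (Cm 1) _ _ (Cm 1) _ 𝓘(ℂ, Cm 1) ω Z _ (cs h) := by
  let := cs h
  refine isManifold_of_contDiffOn 𝓘(ℂ, Cm 1) ω Z fun c c' hc hc' z hz => ?_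
  have hz' : z ∈ (c.symm ≫ₕ c').source := by simpa using hz.1
  have h1 : z ∈ c.target := hz'.1
  have h2 : c.symm z ∈ c'.source := hz'.2
  have hA : At (chartAt (Cm n) (c.symm z : W)) (c.symm z : W) :=
    ⟨chart_mem_atlas _ _, mem_chart_source _ _⟩
  have h3 := (hc' : Imm n c') _ (c'.map_source h2) (chartAt (Cm n) (c.symm z : W))
    (by rw [c'.left_inv h2]; exact hA)
  refine (an_of_comp (τ := fun z => c' (c.symm z)) h3.1 h3.2 ((hc : Imm n c) z h1 _ hA).1
    ((c'.continuousAt h2).comp (c.continuousAt_symm h1)) ?_).contDiffWithinAt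
  filter_upwards [(c.continuousAt_symm h1).eventually (c'.open_source.mem_nhds h2)] with y hy
  rw [c'.left_inv hy]

variable [IsManifold 𝓘(ℂ, Cm n) ω W] {α : Type} [Fintype α]

theorem chart (hα : Fintype.card α + 1 = n) (x : Z) {h : α → W → ℂ} (hh : Ind n h x)
    (hZ : ∀ᶠ y in 𝓝 (x : W), y ∈ Z ↔ ∀ a, h a y = 0) :
    ∃ c : Chart 1 Z, x ∈ c.source ∧ Imm n c := by
  set e := chartAt (Cm n) (x : W)
  have he : At e (x : W) := ⟨chart_mem_atlas _ _, mem_chart_source _ _⟩
  obtain ⟨P, L, hL⟩ := exists_equiv hα (hh.2 e he)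
  have h1 : ContDiffAt ℂ ω (fun z => (fun a => h a (e.symm z), P z)) (e x) :=
    (contDiffAt_pi.2 fun a => (hh.1 a e he).contDiffAt).prodMk P.contDiff.contDiffAt
  have h2 : HasFDerivAt (fun z => (fun a => h a (e.symm z), P z))
      (L : Cm n →L[ℂ] (α → ℂ) × Cm 1) (e x) :=
    hL ▸ (hasFDerivAt_pi.2 fun a => (hh.1 a e he).differentiableAt.hasFDerivAt).prodMk
      P.hasFDerivAt
  let Φ := h1.toOpenPartialHomeomorph _ h2 (by simp)
  have h3 : e x ∈ Φ.source := h1.mem_toOpenPartialHomeomorph_source h2 (by simp)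
  have h4 : AnalyticAt ℂ Φ.symm (Φ (e x)) := (h1.to_localInverse h2 (by simp)).analyticAt
  obtain ⟨O, h5, h6, h7⟩ := eventually_nhds_iff.1 (hZ.and
    (((Φ.continuousAt h3).comp (e.continuousAt he.2)).eventually h4.eventually_analyticAt))
  let Θ := (e ≫ₕ Φ).restrOpen O h6
  obtain ⟨c, k1, k2⟩ := slice Θ (Z := Z) (fun y hy => (h5 y hy.2).1.trans (by
    change _ ↔ (fun a => h a (e.symm (e y))) = 0
    rw [e.left_inv hy.1.1, funext_iff]
    rfl)) x
  refine ⟨c, k1 ▸ ⟨⟨he.2, h3⟩, h7⟩, fun s hs e' he' => ?_⟩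
  obtain ⟨k3, k4⟩ := k2 s hs
  have k5 := Θ.map_target k3
  rw [← k4] at k5
  have k6 : Φ (e (c.symm s)) = (0, s) := k4 ▸ Θ.right_inv k3
  have k7 : e (c.symm s) = Φ.symm (0, s) := k6 ▸ (Φ.left_inv k5.1.2).symm
  have k8 : AnalyticAt ℂ (fun s' => e' (c.symm s' : W)) s := by
    have k : AnalyticAt ℂ Φ.symm (0, s) := by
      rw [← k6]
      exact (h5 _ k5.2).2
    refine (((k7 ▸ trans_an he' ⟨he.1, k5.1.1⟩).comp k).comp (f := fun s' => (0, s'))
      (analyticAt_const.prod analyticAt_id)).congr ?_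
    filter_upwards [c.open_target.mem_nhds hs] with s' hs'
    rw [(k2 s' hs').2]
    rfl
  have k9 := (P.hasFDerivAt.comp _
    (trans_an ⟨he.1, k5.1.1⟩ he').differentiableAt.hasFDerivAt).comp s
    k8.differentiableAt.hasFDerivAt
  refine ⟨k8, LeftInverse.injective
    (g := P ∘L fderiv ℂ (fun z => e (e'.symm z)) (e' (c.symm s))) fun v => DFunLike.congr_fun
    (k9.unique ((hasFDerivAt_id s).congr_of_eventuallyEq ?_)) v⟩
  filter_upwards [c.open_target.mem_nhds hs, (continuous_subtype_val.continuousAt.comp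
    (c.continuousAt_symm hs)).eventually (e'.open_source.mem_nhds he'.2)] with s' l1 l2
  obtain ⟨l3, l4⟩ := k2 s' l1
  simp only [comp_apply] at l2 ⊢
  rw [e'.left_inv l2, l4]
  exact congrArg Prod.snd (Θ.right_inv l3)

theorem conn [T2Space W] (hα : Fintype.card α + 1 = n) (hc : IsCompact Z) (hp : IsConnected Z)
    (h : ∀ x ∈ Z, ∃ h : α → W → ℂ, Ind n h x ∧ ∀ᶠ y in 𝓝 x, y ∈ Z ↔ ∀ a, h a y = 0) :
    ∃ c : Crv n W, range c.ι = Z := by
  have h1 := fun x : Z => (h x x.2).elim fun _ k => chart hα x k.1 k.2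
  exact ⟨{ C := Z
           cpt := isCompact_iff_compactSpace.1 hc
           conn := isConnected_iff_connectedSpace.1 hp
           ch := cs h1
           mf := isManifold h1
           ι := (↑)
           cont := continuous_subtype_val
           inj := Subtype.val_injective
           holo := fun p k e hk he => (hk.1 : Imm n k) _ (k.map_source hk.2) e
             ((k.left_inv hk.2).symm ▸ he) }, Subtype.range_coe⟩

end Cv

open Cv

theorem stCrv : StCrv := by
  intro n W _ _ _ _ _ α _ Z hα hc h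
  let := cs fun x : Z => (h x x.2).elim fun _ k => chart hα x k.1 k.2
  have := ChartedSpace.locallyConnectedSpace (Cm 1) Z
  have := isCompact_iff_compactSpace.1 hc
  have h1 : ∀ j : ConnectedComponents Z, ∃ c : Crv n W,
      range c.ι = (↑) '' (ConnectedComponents.mk ⁻¹' {j}) := by
    intro j
    obtain ⟨x, rfl⟩ := ConnectedComponents.surjective_coe j
    rw [connectedComponents_preimage_singleton]
    refine conn hα (isClosed_connectedComponent.isCompact.image continuous_subtype_val)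
      (isConnected_connectedComponent.image _ continuous_subtype_val.continuousOn) ?_
    rintro _ ⟨y, hy, rfl⟩
    obtain ⟨g, k1, k2⟩ := h y y.2
    obtain ⟨U, k3, k4⟩ := isOpen_induced_iff.1 (isOpen_connectedComponent (x := x))
    refine ⟨g, k1, ?_⟩
    filter_upwards [k2, k3.mem_nhds (show ↑y ∈ U from (k4 ▸ hy : y ∈ (↑) ⁻¹' U))] with w l1 l2
    rw [← l1, ← k4, Subtype.image_preimage_coe]
    exact and_iff_left l2
  choose c hc' using h1
  refine ⟨_, Fintype.ofFinite _, c, ?_, fun a b hab => ?_⟩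
  · simp only [hc', ← image_iUnion, ← preimage_iUnion, iUnion_of_singleton,
      preimage_univ, image_univ, Subtype.range_coe]
  · rw [hc', hc', disjoint_image_iff Subtype.val_injective]
    exact (disjoint_singleton.2 hab).preimage _

end Vale.Agent.P277Z.Slc
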