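import Vale.Agent.P277Z.Slc.Cmp
import Vale.Agent.P277Z.Val.Mod

/-!
# P277, block SLICE: bridge to the block VAL
-/

open scoped Manifold ContDiff Topology
open Set Filter
open Vale.Agent.P272.K Vale.Agent.P285.H281.FD

noncomputable section

namespace Vale.Agent.P277Z.Slc

variable {n : ℕ} {W : Type} [TopologicalSpace W] [ChartedSpace (Cm n) W]

theorem ind_of_isCo {t : W → Cm n} {x : W} (h : Val.IsCo n t x) : Ind n (fun i y => t y i) x := by
  have h1 : ∀ i, Hol n (fun y => t y i) x := fun i e he => analyticAt_pi_iff.1 (h e he).1 i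
  refine ⟨h1, fun e he => (ind_iff_surj _).2 ?_⟩
  have h2 : (ContinuousLinearMap.pi fun i => dd (fun y => t y i) e x) =
      fderiv ℂ (fun z => t (e.symm z)) (e x) :=
    (fderiv_pi fun i => (h1 i e he).differentiableAt).symm
  rw [h2]
  exact (LinearMap.equivOfDetNeZero _ (h e he).2).surjective

theorem snc_of_isSnc {κ : Type} {G : κ → Set W} (h : Val.IsSnc n G) : Snc n G := by
  intro x
  obtain ⟨t, lab, h1, h2, h3⟩ := h x
  have h4 := ind_of_isCo h1
  refine ⟨fun l y => (lab l).elim 1 (t y), fun l => ⟨h3.mono fun y hy => ?_, fun e he => ?_⟩, ?_⟩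
  · rw [hy l]
    beta_reduce
    cases lab l <;> simp
  · beta_reduce
    cases lab l with
    | none => exact ⟨analyticAt_const, fun h => absurd h one_ne_zero⟩
    | some i => exact ⟨h4.1 i e he, fun _ => (h4.2 e he).ne_zero i⟩
  · choose i hi _ using fun l : {l // x ∈ G l} => (h3.self_of_nhds l).1 l.2
    simp only [hi]
    exact h4.comp i fun l l' h5 => Subtype.ext (h2 _ _ _ (hi l) (h5 ▸ hi l'))

theorem snc_lg (V : Val.Lg) : Snc 4 V.G := snc_of_isSnc V.snc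

/-- a section with the divisor `∑ l, c l • G l` -/
theorem dg_of_sec [T2Space W] [SecondCountableTopology W] [IsManifold 𝓘(ℂ, Cm n) ω W]
    {deg : ∀ R : RS, Bd R.C → ℤ} (hd : IsDeg deg) {κ : Type} [Fintype κ] {G : κ → Set W}
    {O : κ → Bd W} {σ : ∀ l, (O l).ι → W → ℂ} (hO : ∀ l, IsDiv n (G l) (O l) (σ l)) {L : Bd W}
    (hL : IsLB n L) {τ : L.ι → W → ℂ} {c : κ → ℕ} (hs : IsSec n L τ)
    (hτ : ∀ y i (ζ : κ → W → ℂ), y ∈ L.U i → (∀ l, LEq n (G l) y (ζ l)) → ∃ u : W → ℂ, Hol n u y ∧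
      u y ≠ 0 ∧ ∀ᶠ y' in 𝓝 y, τ i y' = u y' * ∏ l, ζ l y' ^ c l) (C : Crv n W) :
    dg deg C L = ∑ l, c l * dg deg C (O l) := by
  have h := stCmp deg hd n W κ G O σ univ (triv W) L (fun l => c l) (fun _ => τ) hO isOpen_univ
    isLB_triv hL (fun y _ => ?_) (fun y _ _ _ j j₁ _ _ _ hj hj₁ => ?_) C (subset_univ _)
  · rwa [dg_triv hd, zero_add] at h
  · choose ζ hζ using fun l => (hO l).ex y
    refine ⟨ζ, hζ, fun _ j _ hj => ?_⟩
    obtain ⟨u, h1, h2, h3⟩ := hτ y j ζ hj hζ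
    exact ⟨u, h2, h1, h3.mono fun y' h4 _ => by simpa only [zpow_natCast] using h4⟩
  · rw [hs.change j₁ j y hj₁ hj, mul_comm]
    exact congrArg (· * _) (one_mul _).symm

theorem dg_of_isDiv {deg : ∀ R : RS, Bd R.C → ℤ} (hd : IsDeg deg) {V : Val.Lg}
    {O : Fin V.r → Bd V.W} {σ : ∀ l, (O l).ι → V.W → ℂ} (hO : ∀ l, IsDiv 4 (V.G l) (O l) (σ l))
    {L : Bd V.W} (hL : IsLB 4 L) {τ : L.ι → V.W → ℂ} {c : Fin V.r → ℕ} (h : Val.IsDiv V L τ c)
    (C : Crv 4 V.W) : dg deg C L = ∑ l, c l * dg deg C (O l) :=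
  have := ChartedSpace.secondCountable_of_sigmaCompact (Cm 4) V.W
  dg_of_sec hd hO hL h.sec h.div C

/-- the line bundles of the components -/
theorem exists_div (V : Val.Lg) : ∃ (O : Fin V.r → Bd V.W) (σ : ∀ l, (O l).ι → V.W → ℂ),
    ∀ l, IsDiv 4 (V.G l) (O l) (σ l) := by
  have := ChartedSpace.secondCountable_of_sigmaCompact (Cm 4) V.W
  choose O σ h using fun l => stDiv 4 V.W (V.G l) fun x =>
    (snc_lg V x).elim fun ζ hζ => ⟨ζ l, hζ.1 l⟩
  exact ⟨O, σ, h⟩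

end Vale.Agent.P277Z.Slc
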