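import Vale.Agent.P277Z.Slc.Basic
import Mathlib.Analysis.Analytic.IsolatedZeros
import Mathlib.Analysis.Calculus.MeanValue

/-!
# P277, block SLICE: parametrisation of strata, and the alternative for a point of a fibre
-/

open scoped Manifold ContDiff Topology
open Set Filter
open Vale.Agent.P272.K Vale.Agent.P285.H281.FD

set_option linter.unusedSectionVars false

noncomputable section

namespace Vale.Agent.P277Z.Slc

theorem fderiv_symm {E E' : Type} [NormedAddCommGroup E] [NormedSpace ℂ E] [NormedAddCommGroup E']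
    [NormedSpace ℂ E'] {Φ : OpenPartialHomeomorph E E'} {w : E} (hw : w ∈ Φ.source)
    (h1 : DifferentiableAt ℂ Φ w) (h2 : DifferentiableAt ℂ Φ.symm (Φ w)) (v : E) :
    fderiv ℂ Φ.symm (Φ w) (fderiv ℂ Φ w v) = v := by
  have h0 : (fun z => Φ.symm (Φ z)) =ᶠ[𝓝 w] id := by
    filter_upwards [Φ.open_source.mem_nhds hw] with z hz using Φ.left_inv hz
  have := fderiv_fun_comp w h2 h1
  rw [h0.fderiv_eq, fderiv_id] at this
  exact (congrArg (fun L : E →L[ℂ] E => L v) this).symm

theorem flat {m N : ℕ} {T : Cm (m + 1) → Cm N} {φ : Cm N → Cm m} {w₀ : Cm (m + 1)}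
    (hT : AnalyticAt ℂ T w₀) (hφ : AnalyticAt ℂ φ (T w₀))
    (hs : Function.Surjective (fderiv ℂ (fun w => φ (T w)) w₀)) :
    (∀ᶠ w in 𝓝 w₀, φ (T w) = φ (T w₀) → T w = T w₀) ∨
      (∃ᶠ w in 𝓝 w₀, Function.Injective (fderiv ℂ T w)) ∧ ∀ᶠ w in 𝓝[≠] w₀, T w ≠ T w₀ := by
  obtain ⟨Φ, P, h0, hΦ, ha, hi⟩ := par (d := 1) (hφ.fun_comp hT) hs (by simp)
  let j : ℂ →L[ℂ] Cm m × Cm 1 := (ContinuousLinearMap.inr ℂ _ _).comp
    (ContinuousLinearMap.pi fun _ => ContinuousLinearMap.id ℂ ℂ)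
  let β : ℂ → Cm (m + 1) := fun r => Φ.symm ((φ (T w₀), 0) + j r)
  have hj : ∀ w, φ (T w) = φ (T w₀) → (φ (T w₀), 0) + j (P w 0) = Φ w := fun w hw => by
    rw [hΦ, hw]
    refine Prod.ext (by simp [j]) (funext fun i => ?_)
    simp [j, Subsingleton.elim i 0]
  have hβ : ∀ w ∈ Φ.source, φ (T w) = φ (T w₀) → β (P w 0) = w := fun w hw h => by
    simp only [β, hj w h, Φ.left_inv hw]
  have hb0 := hβ w₀ h0 rfl
  have hja : ∀ r, AnalyticAt ℂ (fun r => (φ (T w₀), 0) + j r) r := fun r =>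
    analyticAt_const.add (j.analyticAt r)
  have htg : ∀ᶠ r in 𝓝 (P w₀ 0), (φ (T w₀), 0) + j r ∈ Φ.target :=
    (hja _).continuousAt.eventually (Φ.open_target.mem_nhds (by
      simp only [hj w₀ rfl]; exact Φ.map_source h0))
  have hβa : AnalyticAt ℂ β (P w₀ 0) := AnalyticAt.fun_comp (g := Φ.symm)
    (f := fun r => (φ (T w₀), 0) + j r) (hi _ htg.self_of_nhds) (hja _)
  have hg : AnalyticAt ℂ (fun r => T (β r)) (P w₀ 0) := AnalyticAt.fun_comp (by rwa [hb0]) hβa
  have hP : Tendsto (fun w => P w 0) (𝓝 w₀) (𝓝 (P w₀ 0)) :=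
    ((continuous_apply 0).comp P.continuous).tendsto w₀
  have hβt : Tendsto β (𝓝 (P w₀ 0)) (𝓝 w₀) := by
    have := hβa.continuousAt
    rwa [ContinuousAt, hb0] at this
  rcases hg.eventually_eq_or_eventually_ne (analyticAt_const (v := T w₀)) with h | h
  · left
    filter_upwards [hP.eventually h, Φ.open_source.mem_nhds h0] with w h1 h2 h3
    rwa [hβ w h2 h3] at h1
  · refine Or.inr ⟨fun hn => ?_, ?_⟩
    · have h1 : ∀ᶠ r in 𝓝 (P w₀ 0), HasFDerivAt (fun r => T (β r)) (0 : ℂ →L[ℂ] Cm N) r := by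
        filter_upwards [htg, hβt.eventually hn, hβt.eventually hT.eventually_analyticAt,
          hβt.eventually (hT.continuousAt.eventually hφ.eventually_analyticAt)] with r k1 k2 k3 k4
        have k5 : β r ∈ Φ.source := Φ.map_target k1
        have k6 : Φ (β r) = (φ (T w₀), 0) + j r := Φ.right_inv k1
        have k7 : HasFDerivAt Φ ((fderiv ℂ (fun w => φ (T w)) (β r)).prod P) (β r) := by
          rw [show (Φ : _ → _) = fun w => (φ (T w), P w) from funext hΦ]
          exact (ha _ k5).differentiableAt.hasFDerivAt.prodMk P.hasFDerivAt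
        obtain ⟨v, hv, hv0⟩ : ∃ v, fderiv ℂ T (β r) v = 0 ∧ v ≠ 0 := by
          by_contra hc
          exact k2 ((injective_iff_map_eq_zero _).2 fun v hv => by
            by_contra h0
            exact hc ⟨v, hv, h0⟩)
        have k8 := fderiv_symm k5 k7.differentiableAt (k6 ▸ (hi _ k1).differentiableAt) v
        have k9 : fderiv ℂ Φ (β r) v = j (P v 0) := by
          rw [k7.fderiv]
          refine Prod.ext ?_ (funext fun i => by simp [j, Subsingleton.elim i 0])
          simp [j, fderiv_fun_comp _ k4.differentiableAt k3.differentiableAt, hv]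
        rw [k9, k6] at k8
        have k10 : HasFDerivAt β ((fderiv ℂ Φ.symm ((φ (T w₀), 0) + j r)).comp j) r :=
          (hi _ k1).differentiableAt.hasFDerivAt.comp r (j.hasFDerivAt.const_add _)
        have k11 : P v 0 ≠ 0 := fun h => hv0 (by rw [← k8, h]; simp)
        have k12 := k3.differentiableAt.hasFDerivAt.comp r k10
        have k13 : (fderiv ℂ T (β r)).comp ((fderiv ℂ Φ.symm ((φ (T w₀), 0) + j r)).comp j) = 0 := by
          ext1
          have : (1 : ℂ) = (P v 0)⁻¹ • P v 0 := by simp [k11]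
          rw [this, map_smul]
          simp [k8, hv]
        rwa [k13] at k12
      obtain ⟨ε, hε, hb⟩ := Metric.eventually_nhds_iff_ball.1 h1
      have h2 : ∀ᶠ r in 𝓝 (P w₀ 0), T (β r) = T w₀ := by
        filter_upwards [Metric.ball_mem_nhds _ hε] with r hr
        have := (convex_ball (P w₀ 0) ε).is_const_of_fderivWithin_eq_zero (𝕜 := ℂ)
          (f := fun r => T (β r)) (fun x hx => (hb x hx).differentiableAt.differentiableWithinAt)
          (fun x hx => by rw [fderivWithin_of_isOpen Metric.isOpen_ball hx, (hb x hx).fderiv])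
          hr (Metric.mem_ball_self hε)
        rwa [hb0] at this
      obtain ⟨r, k1, k2⟩ := (h.and (h2.filter_mono nhdsWithin_le_nhds)).exists
      exact k1 k2
    · rw [eventually_nhdsWithin_iff] at h ⊢
      filter_upwards [hP.eventually h, Φ.open_source.mem_nhds h0] with w h1 h2 h3 h4
      have h5 := hβ w h2 (by rw [h4])
      refine h1 (fun h6 => h3 ?_) (by rw [h5, h4])
      rw [← h5, show P w 0 = P w₀ 0 from h6, hb0]
      rfl

variable {n : ℕ} {W : Type} [TopologicalSpace W] [ChartedSpace (Cm n) W]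
  [IsManifold 𝓘(ℂ, Cm n) ω W]

/-- parametrisation of the common zeros of functions with independent differentials -/
theorem Ind.param {α : Type} [Fintype α] {h : α → W → ℂ} {x : W} (hi : Ind n h x)
    (h0 : ∀ a, h a x = 0) {d : ℕ} (hd : Fintype.card α + d = n) {e : Chart n W} (he : At e x) :
    ∃ (γ : Cm d → W) (π : W → Cm d), γ (π x) = x ∧ ContinuousAt π x ∧ ContinuousAt γ (π x) ∧
      (∀ᶠ w in 𝓝 (π x), ∀ a, h a (γ w) = 0) ∧ (∀ᶠ y in 𝓝 x, (∀ a, h a y = 0) → γ (π y) = y) ∧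
      (∀ f, Hol n f x → AnalyticAt ℂ (fun w => f (γ w)) (π x)) ∧
      ∀ v, (∀ a, dd (h a) e x v = 0) → ∃ u, ∀ f, Hol n f x →
        fderiv ℂ (fun w => f (γ w)) (π x) u = dd f e x v := by
  obtain ⟨Φ, P, k0, hΦ, ha, hs⟩ := hi.par hd he
  have k1 : ∀ y ∈ e.source, (∀ a, h a y = 0) → Φ (e y) = (0, P (e y)) := fun y hy hz => by
    rw [hΦ, e.left_inv hy]
    exact Prod.ext (funext hz) rfl
  have k2 := k1 x he.2 h0
  have k3 : (0, P (e x)) ∈ Φ.target := k2 ▸ Φ.map_source k0
  have k4 : Φ.symm (0, P (e x)) = e x := by rw [← k2, Φ.left_inv k0]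
  have k5 : AnalyticAt ℂ (fun w : Cm d => Φ.symm (0, w)) (P (e x)) :=
    AnalyticAt.fun_comp (g := Φ.symm) (f := fun w : Cm d => ((0 : α → ℂ), w)) (hs _ k3)
      (analyticAt_const.prod analyticAt_id)
  have k6 : Tendsto (fun w : Cm d => Φ.symm (0, w)) (𝓝 (P (e x))) (𝓝 (e x)) := by
    have := k5.continuousAt
    rwa [ContinuousAt, k4] at this
  refine ⟨fun w => e.symm (Φ.symm (0, w)), fun y => P (e y), by simp only [k4, e.left_inv he.2],
    P.continuous.continuousAt.comp (e.continuousAt he.2), ?_, ?_, ?_, fun f hf => ?_,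
    fun v hv => ⟨P v, fun f hf => ?_⟩⟩
  · simp only [ContinuousAt, k4, e.left_inv he.2]
    exact (tendsto_symm he).comp k6
  · have : ∀ᶠ w in 𝓝 (P (e x)), ((0 : α → ℂ), w) ∈ Φ.target :=
      (continuous_const.prodMk continuous_id).continuousAt.eventually (Φ.open_target.mem_nhds k3)
    filter_upwards [this] with w hw a
    have := Φ.right_inv hw
    rw [hΦ] at this
    exact congrFun (congrArg Prod.fst this) a
  · filter_upwards [At.near he, (e.continuousAt he.2).eventually (Φ.open_source.mem_nhds k0)]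
      with y h1 h2 h3
    rw [← k1 y h1.2 h3, Φ.left_inv h2, e.left_inv h1.2]
  · exact AnalyticAt.fun_comp (g := fun z => f (e.symm z)) (by rw [k4]; exact hf e he) k5
  · have k7 : HasFDerivAt Φ ((ContinuousLinearMap.pi fun a => dd (h a) e x).prod P) (e x) := by
      rw [show (Φ : _ → _) = fun w => (fun a => h a (e.symm w), P w) from funext hΦ]
      exact (hasFDerivAt_pi.2 fun a => (hi.1 a e he).differentiableAt.hasFDerivAt).prodMk
        P.hasFDerivAt
    have k8 := fderiv_symm k0 k7.differentiableAt (hs _ (Φ.map_source k0)).differentiableAt v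
    have k9 : fderiv ℂ Φ (e x) v = (0, P v) := by
      rw [k7.fderiv]
      exact Prod.ext (funext hv) rfl
    rw [k9, k2] at k8
    have k10 : HasFDerivAt (fun w : Cm d => Φ.symm (0, w))
        ((fderiv ℂ Φ.symm (0, P (e x))).comp (ContinuousLinearMap.inr ℂ _ _)) (P (e x)) :=
      HasFDerivAt.comp (g := Φ.symm) (f := fun w : Cm d => ((0 : α → ℂ), w)) _
        (hs _ k3).differentiableAt.hasFDerivAt (hasFDerivAt_prodMk_right _ _)
    have k11 : HasFDerivAt (fun z => f (e.symm z)) (dd f e x) (Φ.symm (0, P (e x))) := by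
      rw [k4]
      exact (hf e he).differentiableAt.hasFDerivAt
    have k12 := (HasFDerivAt.comp (g := fun z => f (e.symm z))
      (f := fun w : Cm d => Φ.symm (0, w)) _ k11 k10).fderiv
    have k13 : fderiv ℂ (fun w : Cm d => f (e.symm (Φ.symm (0, w)))) (P (e x)) = _ := k12
    rw [k13]
    simp [k8]

theorem Hol.comp_an {N : ℕ} {t : W → Cm N} {φ : Cm N → ℂ} {x : W}
    (ht : ∀ i, Hol n (fun z => t z i) x) (hφ : AnalyticAt ℂ φ (t x)) : Hol n (fun z => φ (t z)) x :=
  fun e he => AnalyticAt.fun_comp (g := φ) (f := fun z => t (e.symm z))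
    (by rwa [e.left_inv he.2]) (AnalyticAt.pi fun i => ht i e he)

/-- The alternative at a point `x` of a submanifold `S` of dimension `m + 1`, on which `φ ∘ t` is a
submersion. -/
theorem alt {α : Type} [Fintype α] {m N : ℕ} {h : α → W → ℂ} {x : W} {t : W → Cm N}
    {φ : Cm N → Cm m} {S : Set W} (hd : Fintype.card α + (m + 1) = n)
    (ht : ∀ i, Hol n (fun z => t z i) x) (hφ : AnalyticAt ℂ φ (t x))
    (hi : Ind n (Sum.elim h fun (i : Fin m) y => φ (t y) i - φ (t x) i) x) (hx : x ∈ S)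
    (hS : ∀ᶠ y in 𝓝 x, y ∈ S ↔ ∀ a, h a y = 0) :
    (∀ᶠ y in 𝓝 x, y ∈ S → φ (t y) = φ (t x) → t y = t x) ∨
      (∀ U ∈ 𝓝 x, Big (m + 1) (t '' (U ∩ S))) ∧ ∀ᶠ y in 𝓝[≠] x, y ∈ S → t y ≠ t x := by
  have he := at_chartAt (n := n) x
  obtain ⟨γ, π, k0, k1, k2, k3, k4, k5, k6⟩ :=
    (hi.comp Sum.inl Sum.inl_injective).param (hS.self_of_nhds.1 hx) hd he
  have hT : AnalyticAt ℂ (fun w => t (γ w)) (π x) := AnalyticAt.pi fun i => k5 _ (ht i)
  have hγ : Tendsto γ (𝓝 (π x)) (𝓝 x) := by rwa [ContinuousAt, k0] at k2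
  have hs : Function.Surjective (fderiv ℂ (fun w => φ (t (γ w))) (π x)) := fun u => by
    obtain ⟨v, hv⟩ := (ind_iff_surj _).1 (hi.2 _ he) (Sum.elim 0 u)
    obtain ⟨u', hu'⟩ := k6 v fun a => congrFun hv (Sum.inl a)
    refine ⟨u', funext fun i => ?_⟩
    have h1 : Hol n (fun y => φ (t y) i) x :=
      Hol.comp_an (φ := fun z => φ z i) ht (analyticAt_pi_iff.1 hφ i)
    have h2 : dd (fun y => φ (t y) i - φ (t x) i) _ x v = u i := congrFun hv (Sum.inr i)
    rw [dd_sub_const, ← hu' _ h1] at h2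
    rw [← h2, fderiv_pi (φ := fun i w => φ (t (γ w)) i) fun i => (k5 _ (Hol.comp_an
      (φ := fun z => φ z i) ht (analyticAt_pi_iff.1 hφ i))).differentiableAt]
    rfl
  rcases flat hT (by rwa [k0]) hs with h | ⟨h1, h2⟩
  · left
    filter_upwards [k1.eventually h, k4, hS] with y a1 a2 a3 a4
    rwa [a2 (a3.1 a4), k0] at a1
  · refine Or.inr ⟨fun U hU => ?_, ?_⟩
    · have h3 : ∀ᶠ w in 𝓝 (π x), t (γ w) ∈ t '' (U ∩ S) := by
        filter_upwards [k3, hγ.eventually hU, hγ.eventually hS] with w a1 a2 a3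
          using ⟨γ w, ⟨a2, a3.2 a1⟩, rfl⟩
      obtain ⟨w, a1, a2, a3⟩ :=
        (h1.and_eventually (h3.eventually_nhds.and hT.eventually_analyticAt)).exists
      exact ⟨_, w, a2, a3, a1⟩
    · rw [eventually_nhdsWithin_iff] at h2 ⊢
      filter_upwards [k1.eventually h2, k4, hS] with y a1 a2 a3 a4 a5
      have a6 := a2 (a3.1 a5)
      rw [a6, k0] at a1
      exact a1 fun a7 => a4 (by rw [← a6, show π y = π x from a7, k0]; rfl)

end Vale.Agent.P277Z.Slc
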