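import Vale.Agent.P277Z.Defs
import Vale.Agent.P277.HD.Klt
import Vale.Agent.P277Z.Glc.Lat

/-!
# P277, block SLICE: compact curves in general slices of a simple normal crossing divisor
-/

open scoped Manifold ContDiff Topology
open Set Filter MeasureTheory
open Vale.Agent.P272.K Vale.Agent.P285.H281.FD
open Vale.Agent.P277.HD (pull)

noncomputable section

namespace Vale.Agent.P277Z.Slc

/-- a compact connected Riemann surface -/
structure RS where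
  C : Type
  [top : TopologicalSpace C]
  [t2 : T2Space C]
  [cpt : CompactSpace C]
  [conn : ConnectedSpace C]
  [ch : ChartedSpace (Cm 1) C]
  [mf : IsManifold 𝓘(ℂ, Cm 1) ω C]

attribute [instance] RS.top RS.t2 RS.cpt RS.conn RS.ch RS.mf

/-- The line bundle `⊗ a, L a ^ n a` (for `α = Fin k` this is `HD.Bd.lin`). -/
def lin {X α : Type} [Fintype α] (L : α → Bd X) (n : α → ℤ) : Bd X where
  ι := ∀ a, (L a).ι
  U i := {x | ∀ a, x ∈ (L a).U (i a)}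
  g i j x := ∏ a, (L a).g (i a) (j a) x ^ n a

/-- what is used about the degree of line bundles -/
structure IsDeg (deg : ∀ R : RS, Bd R.C → ℤ) : Prop where
  rel : ∀ (R : RS) (α : Type) [Fintype α] (L : α → Bd R.C) (n : α → ℤ)
    (θ : (lin L n).ι → R.C → ℂ), (∀ a, IsLB 1 (L a)) → IsSec 1 (lin L n) θ →
    (∀ x, NZ (lin L n) θ x) → ∑ a, n a * deg R (L a) = 0
  sec : ∀ (R : RS) (L : Bd R.C) (s : L.ι → R.C → ℂ) (F : Finset R.C), IsLB 1 L → IsSec 1 L s →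
    (∀ i, ∀ x ∈ L.U i, s i x = 0 ↔ x ∈ F) →
    (∀ i, ∀ x ∈ L.U i, s i x = 0 → ∀ e : Chart 1 R.C, At e x →
      fderiv ℂ (fun z => s i (e.symm z)) (e x) ≠ 0) → deg R L = F.card
  can : ∀ R : RS, -2 ≤ deg R (Bd.can 1 R.C)

/-- a smooth compact connected curve in `W` -/
structure Crv (n : ℕ) (W : Type) [TopologicalSpace W] [ChartedSpace (Cm n) W] extends RS where
  ι : C → W
  cont : Continuous ι
  inj : Function.Injective ι
  holo : ∀ (p : C) (k : Chart 1 C) (e : Chart n W), At k p → At e (ι p) →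
    AnalyticAt ℂ (fun z => e (ι (k.symm z))) (k p) ∧
      Function.Injective (fderiv ℂ (fun z => e (ι (k.symm z))) (k p))

/-- `T` contains a piece of a submanifold of dimension `d` -/
def Big (d : ℕ) {N : ℕ} (T : Set (Cm N)) : Prop :=
  ∃ (g : Cm d → Cm N) (w : Cm d), (∀ᶠ w' in 𝓝 w, g w' ∈ T) ∧ AnalyticAt ℂ g w ∧
    Function.Injective (fderiv ℂ g w)

section

variable {n : ℕ} {W : Type} [TopologicalSpace W] [ChartedSpace (Cm n) W]

/-- the degree of `L` on the curve `c` -/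
def dg (deg : ∀ R : RS, Bd R.C → ℤ) (c : Crv n W) (L : Bd W) : ℤ := deg c.toRS (pull c.ι L)

/-- the differential of `a` at `x` in the chart `e` -/
def dd (a : W → ℂ) (e : Chart n W) (x : W) : Cm n →L[ℂ] ℂ :=
  fderiv ℂ (fun z => a (e.symm z)) (e x)

variable (n)

/-- the functions `h a` are holomorphic at `x`, with independent differentials -/
def Ind {α : Type} (h : α → W → ℂ) (x : W) : Prop :=
  (∀ a, Hol n (h a) x) ∧ ∀ e : Chart n W, At e x → LinearIndependent ℂ fun a => dd (h a) e x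

/-- `ζ` is a local equation of the smooth hypersurface `G` at `y` (for `n = 4` this is `HD.IsLEq`) -/
def LEq (G : Set W) (y : W) (ζ : W → ℂ) : Prop :=
  (∀ᶠ y' in 𝓝 y, (ζ y' = 0 ↔ y' ∈ G)) ∧ ∀ e : Chart n W, At e y →
    AnalyticAt ℂ (fun z => ζ (e.symm z)) (e y) ∧
      (ζ y = 0 → fderiv ℂ (fun z => ζ (e.symm z)) (e y) ≠ 0)

/-- simple normal crossings -/
def Snc {κ : Type} (G : κ → Set W) : Prop :=
  ∀ x, ∃ ζ : κ → W → ℂ, (∀ l, LEq n (G l) x (ζ l)) ∧ Ind n (fun l : {l // x ∈ G l} => ζ l) x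

/-- `O = 𝒪(G)`, with the canonical section `σ` -/
structure IsDiv (G : Set W) (O : Bd W) (σ : O.ι → W → ℂ) : Prop where
  lb : IsLB n O
  sec : IsSec n O σ
  leq : ∀ i, ∀ x ∈ O.U i, LEq n G x (σ i)

/-- `s` is a regular value of the restrictions of `F : V → ℂ^m` to all strata -/
def Reg {κ : Type} {m : ℕ} (G : κ → Set W) (V : Set W) (F : W → Cm m) (s : Cm m) : Prop :=
  ∀ x ∈ V, F x = s → ∀ ζ : κ → W → ℂ, (∀ l, LEq n (G l) x (ζ l)) →
    Ind n (Sum.elim (fun l : {l // x ∈ G l} => ζ l) fun (i : Fin m) y => F y i - s i) x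

variable {n}

/-- the stratum -/
def St {κ : Type} (G : κ → Set W) (I : Finset κ) : Set W := {x | ∀ l ∈ I, x ∈ G l}

/-- The curves `c a` are the compact curves in the fibre `V ∩ t⁻¹ y` of a slice, of dimension two, of
the stratum `St G I`; `c a` lies in `G (o a)`, `q` is the intersection form, `nn l a` is the
number of the other branches of `G l` which meet `c a`. -/
structure Sl (deg : ∀ R : RS, Bd R.C → ℤ) {κ : Type} [DecidableEq κ] (G : κ → Set W) (O : κ → Bd W)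
    (I : Finset κ) (m : ℕ) (V : Set W) {N : ℕ} (t : W → Cm N) (y : Cm N) {J : Type} [Fintype J]
    (c : J → Crv n W) (o : J → κ) (q : J → J → ℤ) (nn : κ → J → ℕ) : Prop where
  own : ∀ a, o a ∉ I
  sub : ∀ a p, (c a).ι p ∈ V ∧ t ((c a).ι p) = y ∧ (c a).ι p ∈ St G I ∧ (c a).ι p ∈ G (o a)
  fin : ∀ a, ∀ l ∉ I, l ≠ o a → (range (c a).ι ∩ G l).Finite ∧
    dg deg (c a) (O l) = (range (c a).ι ∩ G l).ncard
  disj : ∀ a b, a ≠ b → o a = o b → Disjoint (range (c a).ι) (range (c b).ι)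
  symm : ∀ a b, q a b = q b a
  off : ∀ a b, a ≠ b → q a b = (range (c a).ι ∩ range (c b).ι).ncard
  self : ∀ a, q a a = dg deg (c a) (O (o a))
  nn_eq : ∀ a, ∀ l ∉ I, nn l a = {x ∈ range (c a).ι ∩ G l | ∀ b, o b = l → x ∉ range (c b).ι}.ncard
  sum : ∀ a, ∀ l ∉ I, dg deg (c a) (O l) = ∑ b with o b = l, q b a + nn l a
  adj : ∀ a, -2 ≤ dg deg (c a) (Bd.can n W) + ∑ l ∈ I, dg deg (c a) (O l) + q a a
  cover : ∀ k ∉ I, ∀ x ∈ V, t x = y → x ∈ St G I → x ∈ G k →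
    (∃ a, o a = k ∧ x ∈ range (c a).ι) ∨
      (∀ U ∈ 𝓝 x, Big (m + 1) (t '' (U ∩ St G I ∩ G k))) ∧
        ∀ᶠ x' in 𝓝[≠] x, x' ∈ St G I → x' ∈ G k → t x' ≠ y

end

/-- A statement for all manifolds. -/
def ForW (P : ∀ (n : ℕ) (W : Type) [TopologicalSpace W] [ChartedSpace (Cm n) W], Prop) : Prop :=
  ∀ (n : ℕ) (W : Type) [TopologicalSpace W] [T2Space W] [SecondCountableTopology W]
    [ChartedSpace (Cm n) W] [IsManifold 𝓘(ℂ, Cm n) ω W], P n W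

/-- (UNIT) local equations are unique up to units -/
def StUnit : Prop := ForW fun n W _ _ => ∀ (G : Set W) (x : W) (ζ ζ' : W → ℂ), LEq n G x ζ →
  LEq n G x ζ' → ∃ u : W → ℂ, Hol n u x ∧ u x ≠ 0 ∧ ∀ᶠ y in 𝓝 x, ζ' y = u y * ζ y

/-- (DIV) the line bundle of a smooth hypersurface -/
def StDiv : Prop := ForW fun n W _ _ => ∀ G : Set W, (∀ x, ∃ ζ, LEq n G x ζ) →
  ∃ (O : Bd W) (σ : O.ι → W → ℂ), IsDiv n G O σ

/-- (CMP) `N = L + ∑ l, ν l • G l` (the hypotheses are those of `HD.IsCmpV`, over `V`) -/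
def StCmp : Prop := ∀ deg, IsDeg deg → ForW fun n W _ _ => ∀ (κ : Type) [Fintype κ]
  (G : κ → Set W) (O : κ → Bd W) (σ : ∀ l, (O l).ι → W → ℂ) (V : Set W) (L N : Bd W) (ν : κ → ℤ)
  (t : L.ι → N.ι → W → ℂ), (∀ l, IsDiv n (G l) (O l) (σ l)) → IsOpen V → IsLB n L → IsLB n N →
  (∀ y ∈ V, ∃ ζ : κ → W → ℂ, (∀ l, LEq n (G l) y (ζ l)) ∧ ∀ i j, y ∈ L.U i → y ∈ N.U j →
    ∃ u : W → ℂ, u y ≠ 0 ∧ Hol n u y ∧
      ∀ᶠ y' in 𝓝 y, y' ∉ ⋃ l, G l → t i j y' = u y' * ∏ l, ζ l y' ^ ν l) →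
  (∀ y ∈ V, ∀ i i₁ j j₁, y ∉ ⋃ l, G l → y ∈ L.U i → y ∈ L.U i₁ → y ∈ N.U j → y ∈ N.U j₁ →
    t i₁ j₁ y = L.g i i₁ y * t i j y * N.g j₁ j y) →
  ∀ c : Crv n W, range c.ι ⊆ V → dg deg c N = dg deg c L + ∑ l, ν l * dg deg c (O l)

/-- (SARD) almost all values are regular -/
def StSard : Prop := ForW fun n W _ _ => ∀ (κ : Type) [Fintype κ] (G : κ → Set W) (V : Set W)
  (m : ℕ) (F : W → Cm m), Snc n G → IsOpen V → (∀ x ∈ V, ∀ i, Hol n (fun y => F y i) x) →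
  ∀ᵐ s : Cm m, Reg n G V F s

/-- (CRV) a compact smooth set of dimension one is a finite disjoint union of curves -/
def StCrv : Prop := ForW fun n W _ _ => ∀ (α : Type) [Fintype α] (Z : Set W),
  Fintype.card α + 1 = n → IsCompact Z →
  (∀ x ∈ Z, ∃ h : α → W → ℂ, Ind n h x ∧ ∀ᶠ y in 𝓝 x, y ∈ Z ↔ ∀ a, h a y = 0) →
  ∃ (J : Type) (_ : Fintype J) (c : J → Crv n W), ⋃ a, range (c a).ι = Z ∧
    ∀ a b, a ≠ b → Disjoint (range (c a).ι) (range (c b).ι)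

/-- (ADJ) adjunction for a curve which is cut out by sections `β a` of `n - 1` line bundles -/
def StAdj : Prop := ∀ deg, IsDeg deg → ForW fun n W _ _ => ∀ (α : Type) [Fintype α]
  (B : α → Bd W) (β : ∀ a, (B a).ι → W → ℂ) (c : Crv n W), Fintype.card α + 1 = n →
  (∀ a, IsLB n (B a)) →
  (∀ a i j x, x ∈ (B a).U i → x ∈ (B a).U j → β a i x = (B a).g i j x * β a j x) →
  (∀ a i p, c.ι p ∈ (B a).U i → β a i (c.ι p) = 0) →
  (∀ (i : ∀ a, (B a).ι) p, (∀ a, c.ι p ∈ (B a).U (i a)) → Ind n (fun a => β a (i a)) (c.ι p)) →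
  deg c.toRS (Bd.can 1 c.C) = dg deg c (Bd.can n W) + ∑ a, dg deg c (B a)

/-- (SL) the slice -/
def StSl : Prop := ∀ deg, IsDeg deg → ForW fun n W _ _ => ∀ (κ : Type) [Fintype κ] [DecidableEq κ]
  (G : κ → Set W) (O : κ → Bd W) (σ : ∀ l, (O l).ι → W → ℂ) (I : Finset κ) (m N : ℕ) (V : Set W)
  (t : W → Cm N) (φ : Cm N → Cm m) (y : Cm N), (∀ l, IsDiv n (G l) (O l) (σ l)) →
  I.card + m + 2 = n → IsOpen V → (∀ x ∈ V, ∀ i, Hol n (fun z => t z i) x) →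
  (∀ x ∈ V, AnalyticAt ℂ φ (t x)) → IsCompact (V ∩ t ⁻¹' {y}) →
  Reg n G V (fun x => φ (t x)) (φ y) →
  ∃ (J : Type) (_ : Fintype J) (c : J → Crv n W) (o : J → κ) (q : J → J → ℤ) (nn : κ → J → ℕ),
    Sl deg G O I m V t y c o q nn

/-- the sets of the possible coefficients -/
def Sig (B : Set ℝ) : ℕ → Set ℝ
  | 0 => B
  | j + 1 => P277Z.Glc.step (Sig B j ∪ B)

/-- (DISC) the coefficients of the components which are not contracted on an lc stratum; `b l` is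
the coefficient of `G l` (one minus the log discrepancy), `ex` is the set of the `t`-exceptional
components -/
def StDisc : Prop := ∀ deg, IsDeg deg → ForW fun n W _ _ => ∀ (κ : Type) [Fintype κ]
  (G : κ → Set W) (O : κ → Bd W) (σ : ∀ l, (O l).ι → W → ℂ) (N : ℕ) (V : Set W)
  (t : W → Cm N) (b c : κ → ℝ) (ex : Set κ) (B : Set ℝ), Snc n G →
  (∀ l, IsDiv n (G l) (O l) (σ l)) → IsOpen V → (∀ x ∈ V, ∀ i, Hol n (fun z => t z i) x) →
  (∀ y, IsCompact (V ∩ t ⁻¹' {y})) → P277Z.Glc.Disc B → (∀ l, b l ≤ 1) →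
  (∀ l, 0 ≤ c l) → (∀ l, 0 < c l ↔ l ∈ ex) → (∀ l ∉ ex, b l ∈ B) →
  (∀ l ∈ ex, ∀ d, d + 1 = n → ¬ Big d (t '' (V ∩ G l))) →
  (∀ x ∈ V, ∀ x' ∈ V, (∀ l ∈ ex, x ∉ G l) → (∀ l ∈ ex, x' ∉ G l) → t x = t x' → x = x') →
  (∀ (C : Crv n W) (y : Cm N), (∀ p, C.ι p ∈ V ∧ t (C.ι p) = y) →
    (∃ μ ∈ AddSubmonoid.closure B,
      (dg deg C (Bd.can n W) : ℝ) + ∑ l, b l * dg deg C (O l) + μ = 0) ∧
    ∑ l, c l * dg deg C (O l) < 0) →
  ∀ (I : Finset κ) (k : κ) (d : ℕ), (∀ l ∈ I, b l = 1 ∧ l ∉ ex) → k ∉ I → I.card + d + 1 = n →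
    Big d (t '' (V ∩ St G I ∩ G k)) → b k ∈ Sig B I.card

end Vale.Agent.P277Z.Slc
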