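import Vale.Agent.P277Z.Slc.DegB
import Vale.Agent.P277Z.Slc.Defs
import Vale.Agent.P285Z.XMain

/-!
# P277Z: the degree is an integer, and the degree of the canonical bundle is at least `-2`
-/

set_option linter.all false

open scoped Manifold ContDiff ComplexOrder Topology
open MeasureTheory Filter Set

noncomputable section

namespace Vale.Agent.P277Z.Slc

open Vale.Agent.P272.K Vale.Agent.P301.H599 Vale.Agent.P285Z Vale.Agent.P285Z.Br
open Vale.Agent.P301.H98 (IsSection rform_curvature)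
open Vale.Agent.P301.H862 (powL)
open Vale.Agent.P285.H281.FD (Bd IsLB IsSec IsMet NZ Nef)

variable {C : Type} [TopologicalSpace C] [T2Space C] [CompactSpace C] [ChartedSpace (Cm 1) C]
  [IsManifold 𝓘(ℂ, Cm 1) ω C]

theorem isLB_lin {α : Type} [Fintype α] {L : α → Bd C} (hL : ∀ a, IsLB 1 (L a)) (n : α → ℤ) :
    IsLB 1 (lin L n) where
  isOpen i := by
    change IsOpen {x | ∀ e, x ∈ (L e).U (i e)}
    rw [setOf_forall]
    exact isOpen_iInter_of_finite fun a => (hL a).isOpen _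
  cover x := by
    choose j hj using fun a => (hL a).cover x
    exact ⟨j, hj⟩
  holo i j e x hx hi hj := (Finset.analyticAt_fun_prod Finset.univ fun a _ =>
    ((hL a).holo _ _ e x hx (hi a) (hj a)).analyticAt.fun_zpow (n := n a) (by
      rw [hx.left_inv]; exact (hL a).ne_zero _ _ x (hi a) (hj a))).contDiffAt
  ne_zero i j x hi hj := (Finset.prod_ne_zero_iff (s := Finset.univ)).2 fun a _ =>
    zpow_ne_zero (n a) ((hL a).ne_zero _ _ x (hi a) (hj a))
  cocycle i j l x hi hj hl := by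
    simp only [lin]
    rw [← Finset.prod_mul_distrib]
    exact Finset.prod_congr rfl fun a _ => by
      rw [← mul_zpow, (hL a).cocycle _ _ _ x (hi a) (hj a) (hl a)]

theorem deg_lin {α : Type} [Fintype α] {L : α → Bd C} (hL : ∀ a, IsLB 1 (L a)) (n : α → ℤ) :
    deg (lin L n) = ∑ a, n a * deg (L a) := by
  obtain ⟨ψ, hψ⟩ := ex_met (isLB_lin hL n)
  obtain ⟨D, -, hI, hE⟩ := deg_dens (isLB_lin hL n) hψ
  obtain ⟨D', -, hI', hE'⟩ := deg_comb L (fun a => n a) hL ψ hψ.smooth fun i j x hi hj => by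
    rw [hψ.change i j x hi hj]
    simp only [lin]
    rw [norm_prod, ← Finset.prod_pow, Real.log_prod fun a _ => pow_ne_zero 2
      (norm_ne_zero_iff.2 (zpow_ne_zero _ ((hL a).ne_zero _ _ x (hi a) (hj a))))]
    simp only [norm_zpow, Real.log_pow, Real.log_zpow, mul_left_comm]
  refine mul_left_cancel₀ c₀_pos.ne' ?_
  rw [← hI, ← hI']
  refine INT.intX_congr fun e x hx => ?_
  obtain ⟨i, hi⟩ := (isLB_lin hL n).cover x
  rw [hE i e x hx hi, hE' i e x hx hi]

variable [ConnectedSpace C]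

/-- a section which does not vanish at `p` -/
theorem ex_sec {η κ : Type} {H : LineBundle 1 C η} {ρH : η → C → ℝ} (hH : IsMetric H ρH)
    (hp : PD (curvature H ρH)) {p : C} {ψ : (OP p).ι → C → ℝ} (hψ : IsMetric (toLB _ (isLB_OP p)) ψ)
    (h0 : PSD (curvature (toLB _ (isLB_OP p)) ψ)) {N : LineBundle 1 C κ} {ρ : κ → C → ℝ}
    (hρ : IsMetric N ρ) (h : PSD fun e z => curvature N ρ e z - kc (curvature H ρH) e z -
      ((2 : ℝ) : ℂ) • curvature (toLB _ (isLB_OP p)) ψ e z) :
    ∃ F, IsSection N F ∧ ∃ i x, x ∈ N.U i ∧ F i x ≠ 0 := by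
  let _ : MeasurableSpace C := borel C
  have : BorelSpace C := ⟨rfl⟩
  have hw := isKahler_curvature hH hp
  have := AMP.isFiniteMeasure_volX hw.toIsHermitian
  have hσ := (same_toLB _ (isLB_OP p)).sec.2 (isSec_sP p)
  obtain ⟨y, hy⟩ := ex_ne p
  have z0 : ∀ (e : Chart 1 C) x, At e x → ddc (fun _ : C => (0 : ℝ)) e (e x) = 0 :=
    fun e x hx => ddc_const (d := 1) (X := C) 0 e x hx
  have hE := xS 1 C _ hw η H ρH hH hp _ _ _ _ _ ψ 1 _ _ ψ _ (trivB 1 C) (fun _ _ => 0)
    (fun _ _ => 1) 1 N ρ 1 hψ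
    (fun a _ => ⟨_, measure_ne_top (AMP.volX (curvature H ρH)) univ, fun ε hε => ⟨fun _ => 0,
      ⟨Smooth.const 0, fun _ => le_rfl, fun e x hx => by
        simpa only [z0 e x hx, add_zero] using (h0 e x hx).add (psd_smul (hp.psd e x hx) hε.le)⟩,
      by simp⟩⟩)
    le_rfl (isSection_pow hσ 1) ⟨false, y, hy, by simp [sP]⟩ hψ hσ ⟨false, y, hy, one_ne_zero⟩
    ⟨1, fun x i k e he hi hk => ⟨_, ((isLB_OP p).holo i k e x he hi hk).analyticAt, by
      filter_upwards [ev_U (isLB_OP p) he hi, ev_U (isLB_OP p) he hk] with z h1 h2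
      rw [pow_one, pow_one, sub_zero]
      exact (isSec_sP p).change i k _ h1 h2⟩⟩
    (isMetric_trivB (Smooth.const 0)) isSection_one ⟨(), p, trivial, one_ne_zero⟩ le_rfl
    ⟨2, by norm_num, by simp [nrm_one]⟩ hρ one_pos (h.congr fun e x hx => by
      have := (curvature_trivB (d := 1) (fun _ : C => (0 : ℝ)) e x hx).trans (z0 e x hx)
      simp only [this, smul_zero, sub_zero, Complex.ofReal_one, one_smul, Complex.ofReal_ofNat,
        two_smul, sub_sub, add_assoc])
  obtain ⟨i, hi⟩ := N.cover p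
  obtain ⟨F, hF, k⟩ := hE Unit (fun _ => N.U i) (fun _ j x => N.g j i x)
    ⟨fun _ => N.isOpen i, fun k x hk h1 => ⟨(), by
      by_contra h2
      exact sP_ne (fun h3 : x = p => h2 (h3 ▸ hi)) k hk h1⟩,
    fun _ j e x he hj hx => N.holo j i e x he hj hx,
    fun _ j l x hj hl hx => (N.cocycle j l i x hj hl hx).symm,
    fun _ _ x _ _ j k e _ _ _ => ⟨0, analyticAt_const, by simp⟩⟩
  obtain ⟨u, -, hu⟩ := k () p hi i true _ (at_ch p) hi (at_ch p).2
  have h1 := hu.self_of_nhds
  rw [(at_ch p).left_inv] at h1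
  refine ⟨F, hF, i, p, hi, fun h2 => N.ne_zero i i p hi hi ?_⟩
  simpa [h2, sP, zc_self] using h1

/-- the degree of the canonical bundle -/
theorem deg_can : -2 ≤ deg (Bd.can 1 C) := by
  obtain ⟨H, hH, ρ, -, h1, h2, -⟩ := exists_pos (C := C)
  obtain ⟨p⟩ : Nonempty C := inferInstance
  obtain ⟨ψ, hψ, h3, -⟩ := met_OP p
  have hw := (isKahler_curvature h1 h2).toIsHermitian
  have k1 := isMetric_canB hw
  have k2 := isMetric_pow hψ 2
  obtain ⟨F, hF, h4⟩ := ex_sec h1 h2 hψ (psd_cv hψ h3) (isMetric_mulB k1 k2) fun e x hx => by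
    have a := curvature_mulB k1 k2 e x hx
    have b := curvature_canB hw e x hx
    have c := curvature_pow hψ 2 e x hx
    simp only [] at a c ⊢
    rw [a, b, c]
    simpa using Matrix.PosSemidef.zero
  have hP := isLB_pow (isLB_OP p) 2
  have := deg_nonneg (isLB_mul isLB_can1 hP)
    ((same_can.mul ((same_toLB _ (isLB_OP p)).pow 2)).sec.1 hF) h4
  rw [deg_mul isLB_can1 hP, deg_pow (isLB_OP p), deg_OP] at this
  norm_num at this
  linarith

/-- the degree is an integer -/
theorem deg_int {L : Bd C} (hL : IsLB 1 L) : ∃ k : ℤ, deg L = k := by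
  obtain ⟨H, hH, ρ, n, h1, h2, hn⟩ := exists_pos (C := C)
  obtain ⟨p⟩ : Nonempty C := inferInstance
  obtain ⟨ψ, hψ, h3, -⟩ := met_OP p
  obtain ⟨σ, hσ⟩ := P301.H450.exists_metric (toLB L hL)
  have hw := (isKahler_curvature h1 h2).toIsHermitian
  obtain ⟨a, -, ha⟩ := exists_curv_ge hw hσ
  obtain ⟨b, -, hb⟩ := exists_kc_le hw hw
  obtain ⟨c, -, hc⟩ := exists_curv_le hw hψ
  obtain ⟨m, hm⟩ := exists_nat_ge (a + b + 2 * c)
  have k2 := isMetric_pow h1 m
  obtain ⟨F, hF, h4⟩ := ex_sec h1 h2 hψ (psd_cv hψ h3) (isMetric_mulB hσ k2)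
    ((((ha.add hb).add (hc.smul zero_le_two)).add (h2.psd.smul (sub_nonneg.2 hm))).congr
      fun e x hx => by
        have a := curvature_mulB hσ k2 e x hx
        have c := curvature_pow h1 m e x hx
        simp only [] at a c ⊢
        rw [a, c]
        ext i j
        simp only [Matrix.add_apply, Matrix.sub_apply, Matrix.smul_apply, smul_eq_mul]
        push_cast
        ring)
  have hP := isLB_pow hH m
  obtain ⟨k, hk, -⟩ := deg_nat (isLB_mul hL hP)
    (((same_toLB L hL).mul ((same_toLB H hH).pow m)).sec.1 hF) h4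
  rw [deg_mul hL hP, deg_pow hH, hn] at hk
  exact ⟨k - m * n, by push_cast; linarith⟩

/-- the degree as an integer -/
def degZ (L : Bd C) : ℤ := ⌊deg L⌋

theorem degZ_cast {L : Bd C} (hL : IsLB 1 L) : (degZ L : ℝ) = deg L := by
  obtain ⟨k, hk⟩ := deg_int hL
  rw [degZ, hk, Int.floor_intCast]

/-- the degree on Riemann surfaces -/
def dZ (R : RS) (L : Bd R.C) : ℤ := degZ L

theorem isDeg : IsDeg dZ where
  rel R α _ L n θ hL hs h0 := by
    have := deg_zero (isLB_lin hL n) hs h0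
    rw [deg_lin hL] at this
    exact_mod_cast (show ∑ a, (n a : ℝ) * (dZ R (L a) : ℝ) = 0 by
      simpa only [dZ, degZ_cast (hL _)] using this)
  sec R L s F hL hs h0 h1 := by
    have := deg_simple hL hs F h0 h1
    rw [← degZ_cast hL] at this
    exact_mod_cast this
  can R := by
    have := deg_can (C := R.C)
    rw [← degZ_cast isLB_can1] at this
    exact_mod_cast this

end Vale.Agent.P277Z.Slc
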