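import Vale.Agent.P277Z.Slc.Deg
import Vale.Agent.P277Z.Slc.Basic
import Vale.Agent.P272.K.QN.H705.Pull
import Vale.Agent.P277.H60.Z.XH

/-!
# P277Z: the sign of the degree on a curve
-/

set_option linter.all false

open scoped Manifold ContDiff ComplexOrder Topology
open Filter Set

noncomputable section

namespace Vale.Agent.P277Z.Slc

open Vale.Agent.P272.K Vale.Agent.P285.H281.FD
open Vale.Agent.P272.K.QN (jm jm_holo jm_apply dz_comp_F dzb_comp_F pb pb_apply isSemi_pb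
  posSemidefR loc loc_apply)
open Vale.Agent.P277.HD (pull)

theorem cHess_comp_F {N n : ℕ} {Φ : Cm N → Cm n} {z : Cm N} {g : Cm n → ℝ}
    (hg : ContDiffAt ℝ 2 g (Φ z)) (h : ContDiffAt ℂ ω Φ z) : cHess (fun y => g (Φ y)) z =
      (jm Φ z).transpose * cHess g (Φ z) * (jm Φ z).map (starRingEnd ℂ) := by
  have hF : ContDiffAt ℝ 2 (fun y => (g y : ℂ)) (Φ z) := ofReal_contDiffAt hg
  have hev : ∀ᶠ y in 𝓝 z, ContDiffAt ℂ ω Φ y := h.eventually (by simp)
  have hev2 : ∀ᶠ y in 𝓝 z, ContDiffAt ℝ 2 (fun y => (g y : ℂ)) (Φ y) :=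
    h.continuousAt.eventually (hF.eventually (by simp))
  ext j k
  rw [cHess_apply]
  have h1 : dzb k (fun y => ((g (Φ y) : ℝ) : ℂ)) =ᶠ[𝓝 z]
      fun y => ∑ q, dzb q (fun y => (g y : ℂ)) (Φ y) * cj (jm Φ y q k) := by
    filter_upwards [hev, hev2] with y hy hy2
    exact dzb_comp_F (f := fun y => (g y : ℂ)) (hy2.differentiableAt (by norm_num))
      (hy.differentiableAt (by simp))
  rw [dz_congr h1]
  have hd1 : ∀ q, DifferentiableAt ℝ (fun y => dzb q (fun y => (g y : ℂ)) (Φ y)) z := fun q =>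
    (differentiableAt_dzb hF).comp z ((h.differentiableAt (by simp)).restrictScalars ℝ)
  have hd2 : ∀ q, DifferentiableAt ℝ (fun y => jm Φ y q k) z := fun q =>
    ((jm_holo h q k).differentiableAt (by simp)).restrictScalars ℝ
  have hd3 : ∀ q, DifferentiableAt ℝ (fun y => cj (jm Φ y q k)) z := fun q =>
    Complex.conjCLE.differentiableAt.comp z (hd2 q)
  rw [dz_sum (F := fun q y => dzb q (fun y => (g y : ℂ)) (Φ y) * cj (jm Φ y q k)) Finset.univ
    fun q _ => (hd1 q).mul (hd3 q)]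
  have h2 : ∀ q, dz j (fun y => dzb q (fun y => (g y : ℂ)) (Φ y) * cj (jm Φ y q k)) z =
      ∑ p, jm Φ z p j * cHess g (Φ z) p q * cj (jm Φ z q k) := by
    intro q
    rw [dz_mul (hd1 q) (hd3 q), dz_cj (hd2 q),
      dzb_of_holo ((jm_holo h q k).differentiableAt (by simp)),
      dz_comp_F (differentiableAt_dzb hF) (h.differentiableAt (by simp))]
    simp only [cj, map_zero, mul_zero, add_zero]
    rw [Finset.sum_mul]
    refine Finset.sum_congr rfl fun p _ => ?_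
    rw [cHess_apply]; ring
  rw [Finset.sum_congr rfl fun q _ => h2 q]
  simp only [Matrix.mul_apply, Matrix.transpose_apply, Matrix.map_apply, Finset.sum_mul]

variable {n : ℕ} {W : Type} [TopologicalSpace W] [ChartedSpace (Cm n) W] (c : Crv n W)

theorem dg_cast {L : Bd W} (h : IsLB 1 (pull c.ι L)) : (dg dZ c L : ℝ) = deg (pull c.ι L) :=
  degZ_cast h

theorem Crv.mdiff : ContMDiff 𝓘(ℂ, Cm 1) 𝓘(ℂ, Cm n) ω c.ι := fun p => by
  rw [contMDiffAt_iff]
  refine ⟨c.cont.continuousAt, ?_⟩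
  simpa [Function.comp_def, contDiffWithinAt_univ] using
    (c.holo p _ _ (at_chartAt p) (at_chartAt _)).1.contDiffAt (n := ω)

theorem Crv.cHess_comp {f : W → ℝ} {p : c.C} {k : Chart 1 c.C} {e : Chart n W} (hk : At k p)
    (he : At e (c.ι p)) (hf : ContDiffAt ℝ ∞ (fun z => f (e.symm z)) (e (c.ι p))) :
    ContDiffAt ℝ ∞ (fun z => f (c.ι (k.symm z))) (k p) ∧
      cHess (fun z => f (c.ι (k.symm z))) (k p) = (jm (loc c.ι k e) (k p)).transpose *
        cHess (fun z => f (e.symm z)) (e (c.ι p)) *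
          (jm (loc c.ι k e) (k p)).map (starRingEnd ℂ) := by
  have h0 : (fun z => f (c.ι (k.symm z))) =ᶠ[𝓝 (k p)] fun z => f (e.symm (loc c.ι k e z)) := by
    filter_upwards [((c.cont.tendsto p).comp (tendsto_symm hk)).eventually (At.near he)] with z hz
    exact congrArg f (e.left_inv hz.2).symm
  have h1 : ContDiffAt ℂ ω (loc c.ι k e) (k p) := (c.holo p k e hk he).1.contDiffAt
  rw [← show loc c.ι k e (k p) = e (c.ι p) from congrArg (fun x => e (c.ι x)) hk.left_inv] at hf ⊢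
  exact ⟨(hf.comp _ ((h1.restrict_scalars ℝ).of_le le_top)).congr_of_eventuallyEq h0, by
    rw [cHess_congr h0, cHess_comp_F (g := fun z => f (e.symm z)) (hf.of_le INT.two_le_inf) h1]⟩

theorem Crv.posDef {p : c.C} {k : Chart 1 c.C} {e : Chart n W} (hk : At k p) (he : At e (c.ι p))
    {M : Matrix (Fin n) (Fin n) ℂ} (h : M.PosDef) : ((jm (loc c.ι k e) (k p)).transpose * M *
      (jm (loc c.ι k e) (k p)).map (starRingEnd ℂ)).PosDef := by
  obtain ⟨h1, h2⟩ := c.holo p k e hk he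
  have h3 : ((jm (loc c.ι k e) (k p)).map (starRingEnd ℂ)).conjTranspose =
      (jm (loc c.ι k e) (k p)).transpose := by
    ext i j
    simp [Matrix.conjTranspose_apply]
  rw [← h3]
  refine h.conjTranspose_mul_mul_same ((injective_iff_map_eq_zero
    (Matrix.mulVecLin _)).2 fun v hv => funext fun i => by_contra fun k0 => ?_)
  rw [Subsingleton.elim i 0] at k0
  refine (one_ne_zero : (1 : ℂ) ≠ 0) (by
    simpa using congrFun (h2 (a₁ := Pi.single 0 1) (a₂ := 0) (funext fun q => ?_)) 0)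
  have h4 := congrFun hv q
  rw [← jm_apply h1.differentiableAt, map_zero]
  change jm (loc c.ι k e) (k p) q 0 = 0
  simpa [Matrix.mulVec, dotProduct, show v 0 ≠ 0 from k0] using h4

/-- a real combination of line bundles with a semipositive metric along the curve -/
theorem dg_real {κ : Type} [Fintype κ] (L : κ → Bd W) (a : κ → ℝ)
    (hL : ∀ k, IsLB 1 (pull c.ι (L k))) (P : (∀ k, (L k).ι) → W → ℝ)
    (hs : ∀ i p (e : Chart n W), At e (c.ι p) → (∀ k, c.ι p ∈ (L k).U (i k)) →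
      ContDiffAt ℝ ∞ (fun z => P i (e.symm z)) (e (c.ι p)) ∧
        (cHess (fun z => P i (e.symm z)) (e (c.ι p))).PosSemidef)
    (hc : ∀ i j p, (∀ k, c.ι p ∈ (L k).U (i k)) → (∀ k, c.ι p ∈ (L k).U (j k)) → P i (c.ι p) =
      P j (c.ι p) + ∑ k, a k * Real.log (‖(L k).g (i k) (j k) (c.ι p)‖ ^ 2)) :
    0 ≤ ∑ k, a k * dg dZ c (L k) ∧ ((∃ i p, ∃ e : Chart n W, At e (c.ι p) ∧
      (∀ k, c.ι p ∈ (L k).U (i k)) ∧ (cHess (fun z => P i (e.symm z)) (e (c.ι p))).PosDef) →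
      0 < ∑ k, a k * dg dZ c (L k)) := by
  simp only [dg_cast c (hL _)]
  obtain ⟨h1, h2⟩ := deg_real (fun k => pull c.ι (L k)) a hL (fun i p => P i (c.ι p))
    (fun i k p hk hi => (c.cHess_comp hk (at_chartAt _) (hs i p _ (at_chartAt _) hi).1).1) hc
    fun i k p hk hi => by
      rw [(c.cHess_comp hk (at_chartAt _) (hs i p _ (at_chartAt _) hi).1).2]
      exact posSemidefR (hs i p _ (at_chartAt _) hi).2 _
  refine ⟨h1, fun ⟨i, p, e, he, hi, k⟩ => h2 ⟨i, _, p, at_chartAt p, hi, ?_⟩⟩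
  rw [(c.cHess_comp (at_chartAt p) he (hs i p e he hi).1).2]
  exact c.posDef (at_chartAt p) he k

/-- a real combination of line bundles with a positive metric along the curve -/
theorem dg_spsh {κ : Type} [Fintype κ] (L : κ → Bd W) (a : κ → ℝ)
    (hL : ∀ k, IsLB 1 (pull c.ι (L k))) (P : (∀ k, (L k).ι) → W → ℝ)
    (hs : ∀ i p, (∀ k, c.ι p ∈ (L k).U (i k)) → Spsh n (P i) (c.ι p))
    (hc : ∀ i j p, (∀ k, c.ι p ∈ (L k).U (i k)) → (∀ k, c.ι p ∈ (L k).U (j k)) → P i (c.ι p) =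
      P j (c.ι p) + ∑ k, a k * Real.log (‖(L k).g (i k) (j k) (c.ι p)‖ ^ 2)) :
    0 < ∑ k, a k * dg dZ c (L k) := by
  obtain ⟨p⟩ : Nonempty c.C := inferInstance
  choose i hi using fun k => (hL k).cover p
  exact (dg_real c L a hL P (fun i p e he hi => (hs i p hi e he).imp_right (·.posSemidef)) hc).2
    ⟨i, p, _, at_chartAt _, hi, (hs i p hi _ (at_chartAt _)).2⟩

/-- a line bundle with a positive metric along the curve -/
theorem dg_pos {L : Bd W} (hL : IsLB 1 (pull c.ι L)) (ψ : L.ι → W → ℝ)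
    (hs : ∀ i p, c.ι p ∈ L.U i → Spsh n (ψ i) (c.ι p))
    (hc : ∀ i j p, c.ι p ∈ L.U i → c.ι p ∈ L.U j →
      ψ i (c.ι p) = ψ j (c.ι p) + Real.log (‖L.g i j (c.ι p)‖ ^ 2)) : 0 < dg dZ c L := by
  have := dg_spsh c (fun _ : Unit => L) 1 (fun _ => hL) (fun i => ψ (i ()))
    (fun i p hi => hs _ p (hi ())) fun i j p hi hj => by simpa using hc _ _ p (hi ()) (hj ())
  simpa using this

/-- nef line bundles -/
theorem dg_nef [IsManifold 𝓘(ℂ, Cm n) ω W] {w : Chart n W → Cm n → Matrix (Fin n) (Fin n) ℂ}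
    (hw : IsHermitian w) {M : Bd W} (hM : IsLB n M) (hn : Nef w M) : 0 ≤ dg dZ c M := by
  have hL := isLB_pull c hM
  have hs := isSemi_pb c.mdiff hw
  have hD' : INT.IsDensity (dn (pb c.ι w)) := dn_det (pb c.ι w) ▸ INT.isDensity_det hs.change hs.smooth
  have key : ∀ δ : ℝ, 0 < δ → 0 ≤ c₀ * deg (pull c.ι M) + δ * INT.intX (dn (pb c.ι w)) := by
    intro δ hδ
    obtain ⟨ψ, hψ, hp⟩ := hn δ hδ
    obtain ⟨D, hD, hI, hE⟩ := deg_dens hL (ψ := fun i p => ψ i (c.ι p))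
      ⟨fun i k p hk hi => (c.cHess_comp hk (at_chartAt _) (hψ.smooth i _ _ (at_chartAt _) hi)).1,
        fun i j p => hψ.change i j _⟩
    rw [← hI, ← INT.intX_const_mul, ← INT.intX_add hD (hD'.const_mul δ)]
    refine INT.intX_nonneg fun k p hk => ?_
    obtain ⟨i, hi⟩ := hM.cover (c.ι p)
    have he := at_chartAt (n := n) (c.ι p)
    have h1 := re_nonneg (posSemidefR (hp i _ _ he hi) 
      (jm (loc c.ι k (chartAt (Cm n) (c.ι p))) (k p)))
    rw [Matrix.mul_add, Matrix.add_mul, ← (c.cHess_comp hk he (hψ.smooth i _ _ he hi)).2,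
      Matrix.mul_smul, Matrix.smul_mul, Matrix.add_apply, Complex.add_re, Matrix.smul_apply,
      smul_eq_mul, Complex.re_ofReal_mul] at h1
    rw [hE i k p hk hi, dn, pb_apply c.mdiff hw hk he, QN.pl, loc_apply hk]
    exact h1
  have h1 : Tendsto (fun δ : ℝ => c₀ * deg (pull c.ι M) + δ * INT.intX (dn (pb c.ι w))) (𝓝[>] 0)
      (𝓝 (c₀ * deg (pull c.ι M) + 0 * INT.intX (dn (pb c.ι w)))) :=
    (Continuous.tendsto (by fun_prop) 0).mono_left nhdsWithin_le_nhds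
  have h2 := ge_of_tendsto h1 (eventually_nhdsWithin_of_forall key)
  rw [zero_mul, add_zero, mul_nonneg_iff_of_pos_left c₀_pos, ← dg_cast c hL] at h2
  exact_mod_cast h2

/-- sections along the curve -/
theorem isSec_pull {L : Bd W} {s : L.ι → W → ℂ} (h1 : ∀ i p, c.ι p ∈ L.U i → Hol n (s i) (c.ι p))
    (h2 : ∀ i j p, c.ι p ∈ L.U i → c.ι p ∈ L.U j → s i (c.ι p) = L.g i j (c.ι p) * s j (c.ι p)) :
    IsSec 1 (pull c.ι L) fun i p => s i (c.ι p) :=
  ⟨fun i k p hk hi => (c.hol (h1 i p hi) k hk).contDiffAt, h2⟩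

/-- a section which does not vanish on the curve -/
theorem dg_nonneg {L : Bd W} (hL : IsLB 1 (pull c.ι L)) {s : L.ι → c.C → ℂ}
    (hs : IsSec 1 (pull c.ι L) s) (h : ∃ i p, c.ι p ∈ L.U i ∧ s i p ≠ 0) : 0 ≤ dg dZ c L := by
  have := deg_nonneg hL hs h
  rw [← dg_cast c hL] at this
  exact_mod_cast this

/-- sections of a power which separate two points -/
theorem dg_sep {L : Bd W} (hL : IsLB 1 (pull c.ι L)) {k : ℕ} {s t : L.ι → c.C → ℂ}
    (hs : IsSec 1 (pull c.ι (L.pow k)) s) (ht : IsSec 1 (pull c.ι (L.pow k)) t) {i j : L.ι}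
    {p q : c.C} (hi : c.ι p ∈ L.U i) (hj : c.ι q ∈ L.U j) (h : s i p * t j q ≠ t i p * s j q) :
    0 < dg dZ c L := by
  have h1 := deg_sep (isLB_pow hL k) hs ht hi hj h
  rw [deg_pow hL, ← dg_cast c hL] at h1
  have h2 : (0 : ℝ) < dg dZ c L := 
    pos_of_mul_pos_left ((zero_lt_one.trans_le h1).trans_eq (mul_comm _ _)) k.cast_nonneg
  exact_mod_cast h2

/-- relatively ample line bundles on contracted curves -/
theorem dg_relAmple [T2Space W] [CompactSpace W] [IsManifold 𝓘(ℂ, Cm n) ω W] {Z : P277.CSp}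
    {f : W → Z.pt} {L : Bd W} (hL : IsLB n L) (h : P277.RelAmple (P277.H60.Z.XH n W) Z f L)
    (hc : ∀ p q, f (c.ι p) = f (c.ι q)) : 0 < dg dZ c L := by
  obtain ⟨p⟩ : Nonempty c.C := inferInstance
  obtain ⟨q, hq⟩ := ex_ne p
  obtain ⟨V, k, N, s, -, hV, -, h1, -, h2, -⟩ := h (f (c.ι p))
  obtain ⟨i, hi⟩ := hL.cover (c.ι p)
  obtain ⟨j, hj⟩ := hL.cover (c.ι q)
  obtain ⟨l, m, h3⟩ := h2 _ _ i j hV (hc q p) (c.inj.ne hq) hi hj
  have k0 : ∀ r, f (c.ι r) ∈ V := fun r => hc r p ▸ hV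
  have k1 : ∀ l, IsSec 1 (pull c.ι (L.pow k)) fun i p => s l i (c.ι p) := fun l =>
    isSec_pull c (L := L.pow k) (fun i r hi => (h1 l).holo i _ (k0 r) hi)
      fun i j r => (h1 l).change i j _ (k0 r)
  exact dg_sep c (isLB_pull c hL) (k1 l) (k1 m) hi hj h3

/-- pull backs from a point -/
theorem dg_const {X : P277.CSp} {L : Bd X.pt} (hL : P277.IsLBx X L) {v : W → X.pt}
    (hc : ∀ p q, v (c.ι p) = v (c.ι q)) :
    IsLB 1 (pull c.ι (pull v L)) ∧ dg dZ c (pull v L) = 0 := by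
  obtain ⟨p⟩ : Nonempty c.C := inferInstance
  obtain ⟨i₀, h0⟩ := hL.cover (v (c.ι p))
  have k : ∀ (i j : L.ι) (e : Chart 1 c.C) x,
      ContDiffAt ℂ ω (fun z => L.g i j (v (c.ι (e.symm z)))) (e x) := fun i j e x => by
    simp only [hc _ p]
    exact contDiffAt_const
  have h1 : IsLB 1 (pull c.ι (pull v L)) :=
    ⟨fun i => isOpen_iff_mem_nhds.2 fun x hx => Eventually.of_forall fun y =>
      show v (c.ι y) ∈ L.U i from hc y x ▸ hx, fun x => hL.cover _, fun i j e x _ _ _ => k i j e x,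
      fun i j x => hL.ne_zero i j _, fun i j l x => hL.cocycle i j l _⟩
  have h2 := deg_zero h1 (s := fun i x => L.g i i₀ (v (c.ι x))) ⟨fun i e x _ _ => k i i₀ e x,
    fun i j x hi hj => (hL.cocycle i j i₀ _ hi hj (hc x p ▸ h0)).symm⟩
    fun x i hi => hL.ne_zero i i₀ _ hi (hc x p ▸ h0)
  rw [← dg_cast c h1] at h2
  exact ⟨h1, by exact_mod_cast h2⟩

theorem dg_mul {L M : Bd W} (hL : IsLB 1 (pull c.ι L)) (hM : IsLB 1 (pull c.ι M)) :
    dg dZ c (L.mul M) = dg dZ c L + dg dZ c M := by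
  have := deg_mul hL hM
  rw [← dg_cast c hL, ← dg_cast c hM, ← degZ_cast (isLB_mul hL hM)] at this
  exact_mod_cast this

theorem dg_pow {L : Bd W} (hL : IsLB 1 (pull c.ι L)) (k : ℕ) :
    dg dZ c (L.pow k) = k * dg dZ c L := by
  have := deg_pow hL k
  rw [← dg_cast c hL, ← degZ_cast (isLB_pow hL k)] at this
  exact_mod_cast this

theorem dg_inv {L : Bd W} (hL : IsLB 1 (pull c.ι L)) : dg dZ c (P277.Bd.inv L) = -dg dZ c L := by
  have := deg_inv hL
  rw [← dg_cast c hL, ← degZ_cast (isLB_inv hL)] at this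
  exact_mod_cast this

theorem dg_lin {α : Type} [Fintype α] {L : α → Bd W} (hL : ∀ a, IsLB 1 (pull c.ι (L a)))
    (m : α → ℤ) : dg dZ c (lin L m) = ∑ a, m a * dg dZ c (L a) := by
  have := deg_lin hL m
  simp only [← dg_cast c (hL _), ← degZ_cast (isLB_lin hL m)] at this
  exact_mod_cast this

end Vale.Agent.P277Z.Slc
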