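import Vale.Agent.P277Z.Slc.Defs
import Vale.Agent.P272.K.Inv.Chart

/-!
# P277, block SLICE: adjunction for a curve which is cut out by sections of line bundles
-/

open scoped Manifold ContDiff Topology Matrix
open Set Filter
open Vale.Agent.P272.K Vale.Agent.P285.H281.FD
open Vale.Agent.P277.HD (pull)

noncomputable section

namespace Vale.Agent.P277Z.Slc

namespace Adj

section lin

variable {n : ℕ} {α : Type}

theorem clm_apply {F : Type} [NormedAddCommGroup F] [NormedSpace ℂ F] (l : Cm n →L[ℂ] F)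
    (v : Cm n) : l v = ∑ q, v q • l (Pi.single q 1) := by
  have hv : v = ∑ q, v q • (Pi.single q (1 : ℂ) : Cm n) := by
    funext j
    simp [Finset.sum_apply, Pi.single_apply]
  conv_lhs => rw [hv]
  simp only [map_sum, map_smul]

/-- the matrix with the rows `ρ p` -/
def mat (ρ : Fin n → Cm n →L[ℂ] ℂ) : Matrix (Fin n) (Fin n) ℂ :=
  Matrix.of fun p q => ρ p (Pi.single q 1)

theorem mat_mulVec (ρ : Fin n → Cm n →L[ℂ] ℂ) (v : Cm n) : mat ρ *ᵥ v = fun p => ρ p v := by
  funext p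
  rw [clm_apply (ρ p) v]
  simp only [Matrix.mulVec, dotProduct, mat, Matrix.of_apply, smul_eq_mul]
  exact Finset.sum_congr rfl fun q _ => mul_comm _ _

theorem mat_comp (ρ : Fin n → Cm n →L[ℂ] ℂ) (A : Cm n →L[ℂ] Cm n) :
    mat (fun p => (ρ p).comp A) = mat ρ * Matrix.of fun p q => A (Pi.single q 1) p := by
  ext p q
  rw [Matrix.mul_apply]
  simp only [mat, Matrix.of_apply, ContinuousLinearMap.comp_apply]
  rw [clm_apply (ρ p)]
  exact Finset.sum_congr rfl fun s _ => by rw [smul_eq_mul, mul_comm]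

theorem det_mat_ne {ρ : Fin n → Cm n →L[ℂ] ℂ} (h : LinearIndependent ℂ ρ) : (mat ρ).det ≠ 0 := by
  intro h0
  obtain ⟨c, hc, h1⟩ := Matrix.exists_vecMul_eq_zero_iff.2 h0
  refine hc (funext (Fintype.linearIndependent_iff.1 h c ?_))
  ext v
  have h2 := congrArg (fun w => w ⬝ᵥ v) h1
  simp only [← Matrix.dotProduct_mulVec, mat_mulVec, zero_dotProduct] at h2
  simpa [dotProduct] using h2

/-- the determinant of the matrix with the rows `r a` and `l` -/
def DD (ε : Option α ≃ Fin n) (r : α → Cm n →L[ℂ] ℂ) (l : Cm n →L[ℂ] ℂ) : ℂ :=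
  (mat fun p => (ε.symm p).elim l r).det

theorem mat_upd (ε : Option α ≃ Fin n) (r : α → Cm n →L[ℂ] ℂ) (l : Cm n →L[ℂ] ℂ) :
    (mat fun p => (ε.symm p).elim l r) =
      (mat fun p => (ε.symm p).elim 0 r).updateRow (ε none) fun q => l (Pi.single q 1) := by
  ext p q
  obtain ⟨o, rfl⟩ := ε.surjective p
  cases o with
  | none => simp [mat]
  | some a =>
    rw [Matrix.updateRow_ne (by simp)]
    simp [mat]

theorem DD_add (ε : Option α ≃ Fin n) (r : α → Cm n →L[ℂ] ℂ) (l l' : Cm n →L[ℂ] ℂ) (c : ℂ) :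
    DD ε r (l + c • l') = DD ε r l + c * DD ε r l' := by
  unfold DD
  rw [mat_upd ε r l, mat_upd ε r l', mat_upd ε r (l + c • l'), ← Matrix.det_updateRow_smul,
    ← Matrix.det_updateRow_add]
  rfl

theorem DD_zero (ε : Option α ≃ Fin n) {r : α → Cm n →L[ℂ] ℂ} {l : Cm n →L[ℂ] ℂ} {v : Cm n}
    (hv : v ≠ 0) (hr : ∀ a, r a v = 0) (hl : l v = 0) : DD ε r l = 0 := by
  refine Matrix.exists_mulVec_eq_zero_iff.1 ⟨v, hv, ?_⟩
  rw [mat_mulVec]
  funext p
  cases h : ε.symm p with
  | none => simpa using hl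
  | some a => simpa using hr a

theorem DD_comp (ε : Option α ≃ Fin n) (r : α → Cm n →L[ℂ] ℂ) (l : Cm n →L[ℂ] ℂ)
    (A : Cm n →L[ℂ] Cm n) : DD ε (fun a => (r a).comp A) (l.comp A) =
      DD ε r l * (Matrix.of fun p q => A (Pi.single q 1) p).det := by
  unfold DD
  rw [← Matrix.det_mul, ← mat_comp]
  congr 2
  funext p
  cases ε.symm p <;> rfl

theorem DD_smul [Fintype α] (ε : Option α ≃ Fin n) (r : α → Cm n →L[ℂ] ℂ) (l : Cm n →L[ℂ] ℂ)
    (g : α → ℂ) : DD ε (fun a => g a • r a) l = (∏ a, g a) * DD ε r l := by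
  unfold DD
  have h1 : ∏ a, g a = ∏ p : Fin n, (ε.symm p).elim 1 g := by
    rw [← ε.prod_comp]
    simp [Fintype.prod_option]
  rw [h1, ← Matrix.det_mul_column]
  congr 1
  ext p q
  simp only [mat, Matrix.of_apply]
  cases ε.symm p <;> simp

/-- `θ` is the quotient of the linear forms `DD ε r` and `l ↦ l v` -/
def Rel (ε : Option α ≃ Fin n) (r : α → Cm n →L[ℂ] ℂ) (v : Cm n) (θ : ℂ) : Prop :=
  ∀ l : Cm n →L[ℂ] ℂ, DD ε r l = θ * l v

theorem exists_cov {v : Cm n} (hv : v ≠ 0) : ∃ l : Cm n →L[ℂ] ℂ, l v = 1 := by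
  obtain ⟨q, hq⟩ := Function.ne_iff.1 hv
  refine ⟨(v q)⁻¹ • ContinuousLinearMap.proj q, ?_⟩
  have hq' : v q ≠ 0 := hq
  simp [hq']

theorem exists_rel (ε : Option α ≃ Fin n) {r : α → Cm n →L[ℂ] ℂ} {v : Cm n} (hv : v ≠ 0)
    (hr : ∀ a, r a v = 0) : ∃ θ, Rel ε r v θ := by
  obtain ⟨l₀, h0⟩ := exists_cov hv
  refine ⟨DD ε r l₀, fun l => ?_⟩
  have h1 : l = (l - l v • l₀) + l v • l₀ := by abel
  rw [h1, DD_add, DD_zero ε hv hr (by simp [h0]), ← h1, zero_add, mul_comm]

theorem Rel.ne {ε : Option α ≃ Fin n} {r : α → Cm n →L[ℂ] ℂ} {v : Cm n} {θ : ℂ} (h : Rel ε r v θ)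
    (hv : v ≠ 0) (hr : ∀ a, r a v = 0) (hi : LinearIndependent ℂ r) : θ ≠ 0 := by
  obtain ⟨l₀, h0⟩ := exists_cov hv
  have h1 : LinearIndependent ℂ fun o : Option α => o.elim l₀ r := by
    refine linearIndependent_option.2 ⟨hi, fun hm => ?_⟩
    have h2 : ∀ l ∈ Submodule.span ℂ (range r), l v = 0 := fun l hl => by
      induction hl using Submodule.span_induction with
      | mem x hx => obtain ⟨a, rfl⟩ := hx; exact hr a
      | zero => rfl
      | add x y _ _ hx hy => simp [hx, hy]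
      | smul c x _ hx => simp [hx]
    exact one_ne_zero (h0.symm.trans (h2 l₀ hm))
  have h2 := det_mat_ne (h1.comp ε.symm ε.symm.injective)
  intro h3
  exact h2 ((h l₀).trans (by rw [h3, zero_mul]))

end lin

section geo

variable {n : ℕ} {W : Type} [TopologicalSpace W] [ChartedSpace (Cm n) W]

theorem an_det {m k : ℕ} {M : Cm m → Matrix (Fin k) (Fin k) ℂ} {w : Cm m}
    (h : ∀ i j, AnalyticAt ℂ (fun w => M w i j) w) : AnalyticAt ℂ (fun w => (M w).det) w := by
  simp only [Matrix.det_apply']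
  exact Finset.analyticAt_fun_sum _ fun σ _ =>
    analyticAt_const.mul (Finset.analyticAt_fun_prod _ fun k _ => h _ _)

theorem an_fd {m k : ℕ} {F : Type} [NormedAddCommGroup F] [NormedSpace ℂ F] [CompleteSpace F]
    {f : Cm k → F} {γ : Cm m → Cm k} {w : Cm m} (hf : AnalyticAt ℂ f (γ w))
    (hγ : AnalyticAt ℂ γ w) (v : Cm k) : AnalyticAt ℂ (fun z => fderiv ℂ f (γ z) v) w :=
  ((ContinuousLinearMap.apply ℂ F v).analyticAt _).comp (hf.fderiv.comp hγ)

theorem isOpen_at (e : Chart n W) : IsOpen {x | At e x} := by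
  by_cases h : e ∈ atlas (Cm n) W
  · have h1 : {x | At e x} = e.source := by
      ext x
      exact ⟨fun hx => hx.2, fun hx => ⟨h, hx⟩⟩
    rw [h1]
    exact e.open_source
  · have h1 : {x | At e x} = ∅ := by
      ext x
      exact ⟨fun hx => h hx.1, fun hx => hx.elim⟩
    rw [h1]
    exact isOpen_empty

theorem ev_symm {e : Chart n W} {x : W} (he : At e x) {P : W → Prop} (h : ∀ᶠ y in 𝓝 x, P y) :
    ∀ᶠ z in 𝓝 (e x), P (e.symm z) :=
  (e.continuousAt_symm he.mem_target).eventually (by rw [he.left_inv]; exact h)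

theorem ev_at {e : Chart n W} {x : W} (he : At e x) : ∀ᶠ y in 𝓝 x, At e y :=
  (isOpen_at e).mem_nhds he

/-- the pull back of a line bundle to a curve -/
theorem isLB_pull (c : Crv n W) {L : Bd W} (hL : IsLB n L) : IsLB 1 (pull c.ι L) where
  isOpen i := (hL.isOpen i).preimage c.cont
  cover p := hL.cover (c.ι p)
  holo i j k p hk hi hj := by
    have he : At (chartAt (Cm n) (c.ι p)) (c.ι p) := ⟨chart_mem_atlas _ _, mem_chart_source _ _⟩
    have h1 := (hL.holo i j _ _ he hi hj).analyticAt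
    have h2 := (c.holo p k _ hk he).1
    refine ((AnalyticAt.comp_of_eq h1 h2 (by rw [hk.left_inv])).congr ?_).contDiffAt
    filter_upwards [ev_symm hk (c.cont.continuousAt.eventually (ev_at he))] with z hz
    simp only [Function.comp_apply, hz.left_inv]
    rfl
  ne_zero i j p hi hj := hL.ne_zero i j _ hi hj
  cocycle i j k p hi hj hk := hL.cocycle i j k _ hi hj hk

/-- the tangent vector of the curve -/
def vv (c : Crv n W) (k : Chart 1 c.C) (e : Chart n W) (p : c.C) : Cm n :=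
  fderiv ℂ (fun z => e (c.ι (k.symm z))) (k p) (Pi.single 0 1)

theorem vv_ne (c : Crv n W) {k : Chart 1 c.C} {e : Chart n W} {p : c.C} (hk : At k p)
    (he : At e (c.ι p)) : vv c k e p ≠ 0 := fun h => by
  have h1 := (c.holo p k e hk he).2 (h.trans (map_zero _).symm)
  simpa using congrFun h1 0

theorem dd_vv (c : Crv n W) {k : Chart 1 c.C} {e : Chart n W} {p : c.C} (hk : At k p)
    (he : At e (c.ι p)) {b : W → ℂ} (hb : Hol n b (c.ι p)) (h0 : ∀ᶠ p' in 𝓝 p, b (c.ι p') = 0) :
    dd b e (c.ι p) (vv c k e p) = 0 := by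
  have h1 := (c.holo p k e hk he).1.differentiableAt
  have h2 : DifferentiableAt ℂ (fun z => b (e.symm z)) (e (c.ι (k.symm (k p)))) := by
    rw [hk.left_inv]
    exact (hb e he).differentiableAt
  have h3 := fderiv_comp (k p) h2 h1
  have h4 : ((fun z => b (e.symm z)) ∘ fun z => e (c.ι (k.symm z))) =ᶠ[𝓝 (k p)] fun _ => 0 := by
    filter_upwards [ev_symm hk (h0.and (c.cont.continuousAt.eventually (ev_at he)))] with z hz
    simp only [Function.comp_apply, hz.2.left_inv, hz.1]
  rw [h4.fderiv_eq, hk.left_inv, fderiv_fun_const] at h3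
  exact (congrArg (fun A : Cm 1 →L[ℂ] ℂ => A (Pi.single 0 1)) h3).symm

theorem dd_mul {e : Chart n W} {x : W} (he : At e x) {b b' g : W → ℂ} (hb : Hol n b' x)
    (hg : AnalyticAt ℂ (fun z => g (e.symm z)) (e x)) (h0 : b' x = 0)
    (h : ∀ᶠ y in 𝓝 x, b y = g y * b' y) : dd b e x = g x • dd b' e x := by
  have h1 : (fun z => b (e.symm z)) =ᶠ[𝓝 (e x)] fun z => g (e.symm z) * b' (e.symm z) :=
    ev_symm he h
  unfold dd
  rw [h1.fderiv_eq, fderiv_fun_mul hg.differentiableAt (hb e he).differentiableAt, he.left_inv, h0]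
  ext v
  simp

variable [IsManifold 𝓘(ℂ, Cm n) ω W]

theorem jacM_of {e e' : Chart n W} {x : W} (he : At e x) (he' : At e' x) : jacM e e' x =
    Matrix.of fun p q => fderiv ℂ (fun z => e' (e.symm z)) (e x) (Pi.single q 1) p := by
  ext p q
  rw [jacM_eq, jmat_apply (transition_differentiableAt he he')]
  rfl

theorem an_jac {i j e : Chart n W} {x : W} (he : At e x) (hi : At i x) (hj : At j x) :
    AnalyticAt ℂ (fun z => (jacM i j (e.symm z)).det) (e x) := by
  have h1 : AnalyticAt ℂ (fun z => j (i.symm z)) (i (e.symm (e x))) := by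
    rw [he.left_inv]
    exact (transition hi hj).analyticAt
  have h2 : AnalyticAt ℂ (fun z => (Matrix.of fun p q =>
      fderiv ℂ (fun z => j (i.symm z)) (i (e.symm z)) (Pi.single q 1) p).det) (e x) :=
    an_det fun p q =>
      analyticAt_pi_iff.1 (an_fd h1 (transition he hi).analyticAt (Pi.single q 1)) p
  refine h2.congr ?_
  filter_upwards [ev_symm he ((ev_at hi).and (ev_at hj))] with z hz
  rw [← jacM_of hz.1 hz.2]

/-- the canonical bundle is a line bundle -/
theorem isLB_can : IsLB n (Bd.can n W) where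
  isOpen e := isOpen_at e
  cover x := ⟨chartAt (Cm n) x, chart_mem_atlas _ _, mem_chart_source _ _⟩
  holo _ _ _ _ he hi hj := (an_jac he hi hj).contDiffAt
  ne_zero i j x hi hj := jacM_det_ne_zero hi hj
  cocycle i j k x hi hj hk := by
    show (jacM i j x).det * (jacM j k x).det = (jacM i k x).det
    rw [jacM_comp hi hj hk, Matrix.det_mul, mul_comm]

theorem dd_chart {e e' : Chart n W} {x : W} (he : At e x) (he' : At e' x) {b : W → ℂ}
    (hb : Hol n b x) :
    dd b e x = (dd b e' x).comp (fderiv ℂ (fun z => e' (e.symm z)) (e x)) := by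
  have h2 : DifferentiableAt ℂ (fun z => b (e'.symm z)) (e' (e.symm (e x))) := by
    rw [he.left_inv]
    exact (hb e' he').differentiableAt
  have h3 := fderiv_comp (e x) h2 (transition_differentiableAt he he')
  have h4 : ((fun z => b (e'.symm z)) ∘ fun z => e' (e.symm z)) =ᶠ[𝓝 (e x)]
      fun z => b (e.symm z) := by
    filter_upwards [ev_symm he (ev_at he')] with z hz
    simp only [Function.comp_apply, hz.left_inv]
  rw [h4.fderiv_eq, he.left_inv] at h3
  exact h3

theorem vv_chart (c : Crv n W) {k : Chart 1 c.C} {e e' : Chart n W} {p : c.C} (hk : At k p)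
    (he : At e (c.ι p)) (he' : At e' (c.ι p)) :
    vv c k e' p = fderiv ℂ (fun z => e' (e.symm z)) (e (c.ι p)) (vv c k e p) := by
  have h1 := (c.holo p k e hk he).1.differentiableAt
  have h2 : DifferentiableAt ℂ (fun z => e' (e.symm z)) (e (c.ι (k.symm (k p)))) := by
    rw [hk.left_inv]
    exact transition_differentiableAt he he'
  have h3 := fderiv_comp (k p) h2 h1
  have h4 : ((fun z => e' (e.symm z)) ∘ fun z => e (c.ι (k.symm z))) =ᶠ[𝓝 (k p)]
      fun z => e' (c.ι (k.symm z)) := by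
    filter_upwards [ev_symm hk (c.cont.continuousAt.eventually (ev_at he))] with z hz
    simp only [Function.comp_apply, hz.left_inv]
  rw [h4.fderiv_eq, hk.left_inv] at h3
  exact congrArg (fun A : Cm 1 →L[ℂ] Cm n => A (Pi.single 0 1)) h3

omit [IsManifold 𝓘(ℂ, Cm n) ω W] in
theorem vv_par (c : Crv n W) {k k' : Chart 1 c.C} {e : Chart n W} {p : c.C} (hk : At k p)
    (hk' : At k' p) (he : At e (c.ι p)) : vv c k e p = (jacM k k' p).det • vv c k' e p := by
  have h2 : DifferentiableAt ℂ (fun z => e (c.ι (k'.symm z))) (k' (k.symm (k p))) := by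
    rw [hk.left_inv]
    exact (c.holo p k' e hk' he).1.differentiableAt
  have h3 := fderiv_comp (k p) h2 (transition_differentiableAt hk hk')
  have h4 : ((fun z => e (c.ι (k'.symm z))) ∘ fun z => k' (k.symm z)) =ᶠ[𝓝 (k p)]
      fun z => e (c.ι (k.symm z)) := by
    filter_upwards [ev_symm hk (ev_at hk')] with z hz
    simp only [Function.comp_apply, hz.left_inv]
  rw [h4.fderiv_eq, hk.left_inv] at h3
  unfold vv
  rw [h3, ContinuousLinearMap.comp_apply, clm_apply (fderiv ℂ (fun z => e (c.ι (k'.symm z))) (k' p)),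
    jacM_of hk hk', Matrix.det_fin_one, Fin.sum_univ_one]
  rfl

end geo

section main

variable {n : ℕ} {W : Type} [TopologicalSpace W] [ChartedSpace (Cm n) W] {α : Type}

/-- the bundles `K_C`, `K_W`, `B a` on the curve -/
def LL (c : Crv n W) (B : α → Bd W) : Option (Option α) → Bd c.C
  | none => Bd.can 1 c.C
  | some none => pull c.ι (Bd.can n W)
  | some (some a) => pull c.ι (B a)

/-- the exponents -/
def ex (α : Type) : Option (Option α) → ℤ
  | none => -1
  | some _ => 1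

/-- the section -/
def th (ε : Option α ≃ Fin n) (c : Crv n W) {B : α → Bd W} (β : ∀ a, (B a).ι → W → ℂ)
    (k : Chart 1 c.C) (e : Chart n W) (i : ∀ a, (B a).ι) (p : c.C) : ℂ :=
  Classical.epsilon (Rel ε (fun a => dd (β a (i a)) e (c.ι p)) (vv c k e p))

variable {ε : Option α ≃ Fin n} {c : Crv n W} {B : α → Bd W} {β : ∀ a, (B a).ι → W → ℂ}

theorem dd_vv' (hB : ∀ a, IsLB n (B a)) (h0 : ∀ a i p, c.ι p ∈ (B a).U i → β a i (c.ι p) = 0)
    {k : Chart 1 c.C} {e : Chart n W} {i : ∀ a, (B a).ι} {p : c.C} (hk : At k p)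
    (he : At e (c.ι p)) (hi : ∀ a, c.ι p ∈ (B a).U (i a))
    (hI : Ind n (fun a => β a (i a)) (c.ι p)) (a : α) :
    dd (β a (i a)) e (c.ι p) (vv c k e p) = 0 := by
  refine dd_vv c hk he (hI.1 a) ?_
  filter_upwards [c.cont.continuousAt.eventually (((hB a).isOpen (i a)).mem_nhds (hi a))] with p' hp'
  exact h0 a _ p' hp'

theorem th_rel (hB : ∀ a, IsLB n (B a)) (h0 : ∀ a i p, c.ι p ∈ (B a).U i → β a i (c.ι p) = 0)
    {k : Chart 1 c.C} {e : Chart n W} {i : ∀ a, (B a).ι} {p : c.C} (hk : At k p)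
    (he : At e (c.ι p)) (hi : ∀ a, c.ι p ∈ (B a).U (i a))
    (hI : Ind n (fun a => β a (i a)) (c.ι p)) :
    Rel ε (fun a => dd (β a (i a)) e (c.ι p)) (vv c k e p) (th ε c β k e i p) :=
  Classical.epsilon_spec (exists_rel ε (vv_ne c hk he) (dd_vv' hB h0 hk he hi hI))

theorem th_holo [Fintype α] (hB : ∀ a, IsLB n (B a))
    (h0 : ∀ a i p, c.ι p ∈ (B a).U i → β a i (c.ι p) = 0)
    (hI : ∀ (i : ∀ a, (B a).ι) p, (∀ a, c.ι p ∈ (B a).U (i a)) →
      Ind n (fun a => β a (i a)) (c.ι p))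
    {k k₀ : Chart 1 c.C} {e : Chart n W} {i : ∀ a, (B a).ι} {p : c.C} (hk₀ : At k₀ p) (hk : At k p)
    (he : At e (c.ι p)) (hi : ∀ a, c.ι p ∈ (B a).U (i a)) :
    AnalyticAt ℂ (fun z => th ε c β k e i (k₀.symm z)) (k₀ p) := by
  obtain ⟨l, hl⟩ := exists_cov (vv_ne c hk he)
  have hγ := (c.holo p k₀ e hk₀ he).1
  have h1 : AnalyticAt ℂ (fun z => DD ε (fun a => dd (β a (i a)) e (c.ι (k₀.symm z))) l) (k₀ p) := by
    refine an_det fun s q => ?_
    simp only [mat, Matrix.of_apply]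
    cases ε.symm s with
    | none => exact analyticAt_const (v := l (Pi.single q 1))
    | some a =>
      exact an_fd (f := fun z => β a (i a) (e.symm z))
        (by rw [hk₀.left_inv]; exact (hI i p hi).1 a e he) hγ _
  have h2 : AnalyticAt ℂ (fun z => l (vv c k e (k₀.symm z))) (k₀ p) :=
    (l.analyticAt _).comp (f := fun z => vv c k e (k₀.symm z))
      (an_fd (f := fun z => e (c.ι (k.symm z))) (γ := fun z => k (k₀.symm z))
        (by rw [hk₀.left_inv]; exact (c.holo p k e hk he).1) (transition hk₀ hk).analyticAt _)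
  have h3 : l (vv c k e (k₀.symm (k₀ p))) ≠ 0 := by
    rw [hk₀.left_inv, hl]
    exact one_ne_zero
  refine (h1.div h2 h3).congr ?_
  have h4 : ∀ᶠ p' in 𝓝 p, ∀ a, c.ι p' ∈ (B a).U (i a) := eventually_all.2 fun a =>
    c.cont.continuousAt.eventually (((hB a).isOpen (i a)).mem_nhds (hi a))
  filter_upwards [ev_symm hk₀ (((ev_at hk).and (c.cont.continuousAt.eventually (ev_at he))).and h4),
    h2.continuousAt.eventually_ne h3] with z hz hz'
  rw [Pi.div_apply, th_rel hB h0 hz.1.1 hz.1.2 hz.2 (hI i _ hz.2) l, mul_div_cancel_right₀ _ hz']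

theorem th_change [Fintype α] [IsManifold 𝓘(ℂ, Cm n) ω W] (hB : ∀ a, IsLB n (B a))
    (hβ : ∀ a i j x, x ∈ (B a).U i → x ∈ (B a).U j → β a i x = (B a).g i j x * β a j x)
    (h0 : ∀ a i p, c.ι p ∈ (B a).U i → β a i (c.ι p) = 0)
    (hI : ∀ (i : ∀ a, (B a).ι) p, (∀ a, c.ι p ∈ (B a).U (i a)) →
      Ind n (fun a => β a (i a)) (c.ι p))
    {k k' : Chart 1 c.C} {e e' : Chart n W} {i i' : ∀ a, (B a).ι} {p : c.C} (hk : At k p)
    (hk' : At k' p) (he : At e (c.ι p)) (he' : At e' (c.ι p)) (hi : ∀ a, c.ι p ∈ (B a).U (i a))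
    (hi' : ∀ a, c.ι p ∈ (B a).U (i' a)) :
    th ε c β k e i p * (jacM k k' p).det = (jacM e e' (c.ι p)).det *
      (∏ a, (B a).g (i a) (i' a) (c.ι p)) * th ε c β k' e' i' p := by
  obtain ⟨l, hl⟩ := exists_cov (vv_ne c hk' he')
  have h1 := th_rel (ε := ε) hB h0 hk he hi (hI i p hi)
    (l.comp (fderiv ℂ (fun z => e' (e.symm z)) (e (c.ι p))))
  have h2 := th_rel (ε := ε) hB h0 hk' he' hi' (hI i' p hi') l
  have h3 : (fun a => dd (β a (i a)) e (c.ι p)) = fun a =>
      ((B a).g (i a) (i' a) (c.ι p) • dd (β a (i' a)) e' (c.ι p)).comp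
        (fderiv ℂ (fun z => e' (e.symm z)) (e (c.ι p))) := by
    funext a
    rw [dd_chart he he' ((hI i p hi).1 a), dd_mul he' ((hI i' p hi').1 a)
      ((hB a).holo _ _ e' _ he' (hi a) (hi' a)).analyticAt (h0 a _ p (hi' a))]
    filter_upwards [((hB a).isOpen (i a)).mem_nhds (hi a), ((hB a).isOpen (i' a)).mem_nhds (hi' a)]
      with y hy hy'
    exact hβ a _ _ y hy hy'
  rw [h3, DD_comp, DD_smul, h2, ← jacM_of he he', ContinuousLinearMap.comp_apply,
    ← vv_chart c hk he he', vv_par c hk hk' he', map_smul, hl] at h1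
  simp only [smul_eq_mul, mul_one] at h1
  rw [← h1]
  ring

end main

end Adj

open Adj in
/-- (ADJ) adjunction -/
theorem stAdj : StAdj := by
  intro deg hdeg n W _ _ _ _ _ α _ B β c hn hB hβ h0 hI
  have ε : Option α ≃ Fin n := Fintype.equivFinOfCardEq (by rw [Fintype.card_option, hn])
  have hL : ∀ o, IsLB 1 (LL c B o) := fun o =>
    match o with
    | none => isLB_can
    | some none => isLB_pull c isLB_can
    | some (some a) => isLB_pull c (hB a)
  have h := hdeg.rel c.toRS (Option (Option α)) (LL c B) (ex α)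
    (fun i p => th ε c β (i none) (i (some none)) (fun a => i (some (some a))) p) hL ⟨?_, ?_⟩ ?_
  · rw [Fintype.sum_option, Fintype.sum_option] at h
    simp only [ex, LL, one_mul] at h
    unfold dg
    linarith
  · intro i k p hk hi
    exact (th_holo hB h0 hI hk (hi none) (hi (some none)) fun a => hi (some (some a))).contDiffAt
  · intro i j p hi hj
    have h1 := th_change (ε := ε) hB hβ h0 hI (hi none) (hj none) (hi (some none)) (hj (some none))
      (fun a => hi (some (some a))) fun a => hj (some (some a))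
    have h2 : (lin (LL c B) (ex α)).g i j p = ((jacM (i none) (j none) p).det)⁻¹ *
        ((jacM (i (some none)) (j (some none)) (c.ι p)).det *
          ∏ a, (B a).g (i (some (some a))) (j (some (some a))) (c.ι p)) := by
      show ∏ o, (LL c B o).g (i o) (j o) p ^ ex α o = _
      rw [Fintype.prod_option, Fintype.prod_option]
      simp only [ex, zpow_one, zpow_neg]
      rfl
    have h3 : ∀ t J : ℂ, J ≠ 0 → t = J⁻¹ * (t * J) := fun t J hJ => by field_simp
    rw [h2, mul_assoc, ← h1]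
    exact h3 _ _ (jacM_det_ne_zero (hi none) (hj none))
  · intro p i hi
    have h1 : ∀ a, c.ι p ∈ (B a).U (i (some (some a))) := fun a => hi (some (some a))
    have h2 := hI _ p h1
    exact (th_rel hB h0 (hi none) (hi (some none)) h1 h2).ne (vv_ne c (hi none) (hi (some none)))
      (dd_vv' hB h0 (hi none) (hi (some none)) h1 h2) (h2.2 _ (hi (some none)))

end Vale.Agent.P277Z.Slc
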