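import Vale.Agent.P277Z.Slc.Flat
import Vale.Agent.P277Z.Slc.Crv
import Vale.Agent.P277Z.Slc.Adj

/-!
# P277, block SLICE: the slice
-/

open scoped Manifold ContDiff Topology
open Set Filter
open Vale.Agent.P272.K Vale.Agent.P285.H281.FD
open Vale.Agent.P277.HD (pull)

set_option linter.unusedSectionVars false

noncomputable section

namespace Vale.Agent.P277Z.Slc

theorem ncard_split {X J : Type} {T : Set X} (hT : T.Finite) (R : J → Set X) (s : Finset J)
    (hd : ∀ a ∈ s, ∀ b ∈ s, a ≠ b → Disjoint (R a) (R b)) :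
    T.ncard = ∑ b ∈ s, (T ∩ R b).ncard + {x ∈ T | ∀ b ∈ s, x ∉ R b}.ncard := by
  classical
  induction s using Finset.induction_on with
  | empty => simp
  | insert a s ha ih =>
    rw [ih fun a h b h' => hd a (by simp [h]) b (by simp [h']), Finset.sum_insert ha,
      add_comm (T ∩ R a).ncard, add_assoc, ← ncard_union_eq (disjoint_left.2 fun x h1 h2 =>
        h2.2 a (by simp) h1.2) (hT.inter_of_left _) (hT.subset fun _ h => h.1)]
    congr 2
    ext x
    simp only [mem_ofPred_eq, mem_union, mem_inter_iff, Finset.forall_mem_insert]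
    refine ⟨fun h => ?_, fun h => h.elim (fun h => ⟨h.1, fun b hb hx => ?_⟩) fun h => ⟨h.1, h.2.2⟩⟩
    · by_cases hx : x ∈ R a
      · exact Or.inl ⟨h.1, hx⟩
      · exact Or.inr ⟨h.1, hx, h.2⟩
    · exact disjoint_left.1 (hd a (by simp) b (by simp [hb]) fun e => ha (e ▸ hb)) h.2 hx

variable {n : ℕ} {W : Type} [TopologicalSpace W] [ChartedSpace (Cm n) W]

/-- a function which completes the equations of a curve to a coordinate system has a simple zero -/
theorem Crv.dd_ne (c : Crv n W) {α : Type} [Fintype α] (hα : Fintype.card α + 1 = n)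
    {h : Option α → W → ℂ} {p : c.C} (hi : Ind n h (c.ι p))
    (h0 : ∀ a, ∀ᶠ p' in 𝓝 p, h (some a) (c.ι p') = 0) {k : Chart 1 c.C} (hk : At k p) :
    dd (fun p => h none (c.ι p)) k p ≠ 0 := fun h1 => by
  have he := at_chartAt (n := n) (c.ι p)
  have h2 : ∀ a, dd (fun p => h a (c.ι p)) k p = 0 := by
    rintro (_ | a)
    · exact h1
    · rw [dd_congr (h0 a) hk]
      exact fderiv_const_apply 0
  have h3 := (LinearMap.injective_iff_surjective_of_finrank_eq_finrank
    (f := (ContinuousLinearMap.pi fun a => dd (h a) (chartAt (Cm n) (c.ι p)) (c.ι p)).toLinearMap)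
    (by simp [hα])).2 ((ind_iff_surj _).1 (hi.2 _ he))
  have h4 : (fun _ => 1 : Cm 1) = 0 := by
    refine (c.holo p k _ hk he).2 (h3 (funext fun a => ?_))
    have := congrArg (fun L : Cm 1 →L[ℂ] ℂ => L fun _ => 1) ((c.dd_comp (hi.1 a) hk he).symm.trans
      (h2 a))
    simpa using this
  exact one_ne_zero (congrFun h4 0)

theorem isolated {C : Type} [TopologicalSpace C] [ChartedSpace (Cm 1) C] {f : C → ℂ} {p : C}
    (hf : Hol 1 f p) {k : Chart 1 C} (hk : At k p) (h : dd f k p ≠ 0) :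
    ∀ᶠ p' in 𝓝[≠] p, f p' ≠ f p := by
  have h1 : (dd f k p).toLinearMap.ker = ⊥ := by
    refine LinearMap.ker_eq_bot.2 ((LinearMap.injective_iff_surjective_of_finrank_eq_finrank
      (by simp)).2 (LinearMap.surjective_of_ne_zero fun h0 => h ?_))
    exact ContinuousLinearMap.coe_injective h0
  obtain ⟨K, -, hK⟩ := (dd f k p).toLinearMap.exists_antilipschitzWith h1
  have h2 := (hf k hk).differentiableAt.hasFDerivAt.eventually_ne (c := f p)
    ⟨K, hK⟩
  rw [eventually_nhdsWithin_iff] at h2 ⊢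
  filter_upwards [(k.continuousAt hk.2).eventually h2, At.near hk] with p' a1 a2 a3
  rw [k.left_inv a2.2] at a1
  exact a1 fun a4 => a3 (k.injOn a2.2 hk.2 a4)

/-- the degree of `𝒪(G)` on a curve which meets `G` transversally -/
theorem dg_count {deg : ∀ R : RS, Bd R.C → ℤ} (hd : IsDeg deg) (c : Crv n W) {G : Set W}
    {O : Bd W} {σ : O.ι → W → ℂ} (h : IsDiv n G O σ)
    (ht : ∀ p i, c.ι p ∈ G → c.ι p ∈ O.U i → ∀ k : Chart 1 c.C, At k p →
      dd (fun p => σ i (c.ι p)) k p ≠ 0) :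
    (range c.ι ∩ G).Finite ∧ dg deg c O = (range c.ι ∩ G).ncard := by
  have h1 : ∀ p, ∀ᶠ p' in 𝓝 p, c.ι p' ∈ G → p' = p := fun p => by
    obtain ⟨i, hi⟩ := h.lb.cover (c.ι p)
    have hl := h.leq i _ hi
    by_cases hp : c.ι p ∈ G
    · have := isolated (c.hol hl.hol) (at_chartAt p) (ht p i hp hi _ (at_chartAt p))
      rw [eventually_nhdsWithin_iff] at this
      filter_upwards [this, (c.cont.tendsto p).eventually hl.1] with p' a1 a2 a3
      by_contra a4
      exact a1 a4 (by rw [a2.2 a3, hl.mem.2 hp])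
    · exact ((c.cont.tendsto p).eventually (hl.not_mem_near hp)).mono fun _ a b => absurd b a
  obtain ⟨s, -, hs⟩ := isCompact_univ.elim_nhds_subcover _ fun p _ => h1 p
  have h2 : (c.ι ⁻¹' G).Finite := s.finite_toSet.subset fun p hp => by
    obtain ⟨q, hq, hp'⟩ := mem_iUnion₂.1 (hs (mem_univ p))
    rwa [hp' hp]
  rw [← image_preimage_eq_range_inter, ncard_image_of_injective _ c.inj,
    ncard_eq_toFinset_card _ h2]
  refine ⟨h2.image _, hd.sec c.toRS (pull c.ι O) (fun (i : O.ι) p => σ i (c.ι p)) _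
    (isLB_pull c h.lb)
    ⟨fun i k p hk hi => (c.hol (h.leq i _ hi).hol k hk).contDiffAt,
      fun i j p => h.sec.change i j (c.ι p)⟩ (fun i p hi => ?_)
    fun i p hi h0 k hk => ht p i ((h.leq i _ hi).mem.1 h0) hi k hk⟩
  rw [(h.leq i _ hi).mem, Finite.mem_toFinset, mem_preimage]

theorem Reg.ind {κ : Type} {m : ℕ} {G : κ → Set W} {V : Set W} {F : W → Cm m} {s : Cm m}
    (hR : Reg n G V F s) {x : W} (hx : x ∈ V) (hF : F x = s) {ζ : κ → W → ℂ}
    (hζ : ∀ l, LEq n (G l) x (ζ l)) {α : Type} {f : α → κ} (hf : Function.Injective f)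
    (hG : ∀ a, x ∈ G (f a)) :
    Ind n (Sum.elim (fun a => ζ (f a)) fun (i : Fin m) y => F y i - s i) x := by
  have := (hR x hx hF ζ hζ).comp (Sum.map (fun a => ⟨f a, hG a⟩) id)
    (Function.Injective.sumMap (fun a b h => hf (congrArg Subtype.val h)) Function.injective_id)
  refine (congrArg (Ind n · x) (funext fun a => ?_)).mp this
  cases a <;> rfl

section

variable [T2Space W] [SecondCountableTopology W] [IsManifold 𝓘(ℂ, Cm n) ω W] {κ : Type} [Fintype κ]
  {G : κ → Set W} {O : κ → Bd W} {σ : ∀ l, (O l).ι → W → ℂ} {A : Finset κ} {m : ℕ} {V : Set W}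
  {deg : ∀ R : RS, Bd R.C → ℤ}

theorem ex_idx (hO : ∀ l, IsDiv n (G l) (O l) (σ l)) (x : W) :
    ∃ i : ∀ l, (O l).ι, ∀ l, x ∈ (O l).U (i l) :=
  ⟨fun l => ((hO l).lb.cover x).choose, fun l => ((hO l).lb.cover x).choose_spec⟩

theorem card_sum (hn : A.card + m + 1 = n) : Fintype.card (A ⊕ Fin m) + 1 = n := by
  rw [Fintype.card_sum, Fintype.card_coe, Fintype.card_fin, hn]

theorem crv_fin (hd : IsDeg deg) (hO : ∀ l, IsDiv n (G l) (O l) (σ l)) (hn : A.card + m + 1 = n)
    {F : W → Cm m} {s : Cm m} (hR : Reg n G V F s) (c : Crv n W)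
    (hc : ∀ p, c.ι p ∈ V ∧ F (c.ι p) = s ∧ c.ι p ∈ St G A) {l : κ} (hl : l ∉ A) :
    (range c.ι ∩ G l).Finite ∧ dg deg c (O l) = (range c.ι ∩ G l).ncard := by
  classical
  refine dg_count hd _ (hO l) fun p j hp hj k hk => ?_
  obtain ⟨i, hi⟩ := ex_idx hO (c.ι p)
  have hi' : ∀ l', c.ι p ∈ (O l').U (Function.update i l j l') := fun l' => by
    by_cases h : l' = l
    · subst h
      rwa [Function.update_self]
    · rw [Function.update_of_ne h]
      exact hi l'
  have hζ := fun l' => (hO l').leq _ _ (hi' l')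
  have f1 : Function.Injective fun o : Option A => (o.elim l Subtype.val : κ) := by
    rintro (_ | u) (_ | v) h
    · rfl
    · exact absurd v.2 ((show l = v from h) ▸ hl)
    · exact absurd u.2 ((show (u : κ) = l from h).symm ▸ hl)
    · exact congrArg some (Subtype.ext h)
  have f2 : Function.Injective fun o : Option (A ⊕ Fin m) =>
      (o.elim (Sum.inl none) (Sum.map some id) : Option A ⊕ Fin m) := by
    rintro (_ | u | u) (_ | v | v) h <;> cases h <;> rfl
  have h1 := (hR.ind (hc p).1 (hc p).2.1 hζ f1 (by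
    rintro (_ | u)
    exacts [hp, (hc p).2.2 u u.2])).comp _ f2
  have h2 := c.dd_ne (card_sum hn) h1 (by
    rintro (u | u)
    · filter_upwards [(c.cont.tendsto p).eventually (hζ u).1] with p' hp'
        using hp'.2 ((hc p').2.2 u u.2)
    · exact Eventually.of_forall fun p' => sub_eq_zero.2 (congrFun (hc p').2.1 u)) hk
  simpa using h2

theorem crv_adj (hA : StAdj) (hd : IsDeg deg) (hO : ∀ l, IsDiv n (G l) (O l) (σ l))
    (hn : A.card + m + 1 = n) {F : W → Cm m} {s : Cm m} (hR : Reg n G V F s) (c : Crv n W)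
    (hc : ∀ p, c.ι p ∈ V ∧ F (c.ι p) = s ∧ c.ι p ∈ St G A) :
    -2 ≤ dg deg c (Bd.can n W) + ∑ l ∈ A, dg deg c (O l) := by
  classical
  have h1 := hA deg hd n W (A ⊕ Fin m) (Sum.elim (fun l => O l) fun _ => triv W)
    (fun u => match u with
      | Sum.inl l => σ l
      | Sum.inr i => fun _ z => F z i - s i) c (card_sum hn)
    (by rintro (u | u); exacts [(hO u).lb, isLB_triv])
    (by rintro (u | u); exacts [(hO u).sec.change, fun _ _ _ _ _ => (one_mul _).symm])
    (by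
      rintro (u | u) i p hi
      · exact ((hO u).leq i _ hi).mem.2 ((hc p).2.2 u u.2)
      · exact sub_eq_zero.2 (congrFun (hc p).2.1 u))
    (by
      intro i p hi
      obtain ⟨i', hi'⟩ := ex_idx hO (c.ι p)
      have := hR.ind (hc p).1 (hc p).2.1 (ζ := fun l => if h : l ∈ A then
        σ l (i (Sum.inl ⟨l, h⟩)) else σ l (i' l)) (fun l => by
          by_cases h : l ∈ A
          · rw [dif_pos h]
            exact (hO l).leq _ _ (hi (Sum.inl ⟨l, h⟩))
          · rw [dif_neg h]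
            exact (hO l).leq _ _ (hi' l)) (f := fun l : A => l) Subtype.val_injective
          fun l => (hc p).2.2 l l.2
      refine (congrArg (Ind n · (c.ι p)) (funext fun u => ?_)).mpr this
      rcases u with u | u
      · simp only [Sum.elim_inl, dif_pos u.2]
      · rfl)
  have h2 := hd.can c.toRS
  rw [h1, Fintype.sum_sum_type] at h2
  simp only [Sum.elim_inl, Sum.elim_inr, dg_triv hd, Finset.sum_const_zero, add_zero] at h2
  rwa [Finset.sum_coe_sort A fun l => dg deg c (O l)] at h2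

theorem fib (hO : ∀ l, IsDiv n (G l) (O l) (σ l)) (hn : A.card + m + 1 = n) {N : ℕ} {t : W → Cm N}
    {φ : Cm N → Cm m} {y : Cm N} (hV : IsOpen V) (ht : ∀ x ∈ V, ∀ i, Hol n (fun z => t z i) x)
    (hφ : ∀ x ∈ V, AnalyticAt ℂ φ (t x)) (hK : IsCompact (V ∩ t ⁻¹' {y}))
    (hR : Reg n G V (fun x => φ (t x)) (φ y)) :
    ∃ (J : Type) (_ : Fintype J) (c : J → Crv n W),
      (∀ a p, (c a).ι p ∈ V ∧ t ((c a).ι p) = y ∧ (c a).ι p ∈ St G A) ∧
      (∀ a b, a ≠ b → Disjoint (range (c a).ι) (range (c b).ι)) ∧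
      ∀ x ∈ V, t x = y → x ∈ St G A → (∃ a, x ∈ range (c a).ι) ∨
        (∀ U ∈ 𝓝 x, Big (m + 1) (t '' (U ∩ St G A))) ∧ ∀ᶠ z in 𝓝[≠] x, z ∈ St G A → t z ≠ y := by
  let Z : Set W := {x | x ∈ V ∧ x ∈ St G A ∧ t x = y ∧
    ∀ᶠ z in 𝓝 x, z ∈ St G A → φ (t z) = φ y → t z = y}
  have hSc : IsClosed (St G A) := by
    have : St G A = ⋂ l ∈ A, G l := by ext; simp [St]
    rw [this]
    exact isClosed_biInter fun l _ => (hO l).closed
  have hS : ∀ x (ζ : κ → W → ℂ), (∀ l, LEq n (G l) x (ζ l)) →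
      ∀ᶠ z in 𝓝 x, z ∈ St G A ↔ ∀ l : A, ζ l z = 0 := fun x ζ hζ => by
    filter_upwards [eventually_all.2 fun l => (hζ l).1] with z hz
    simp [St, hz]
  have halt : ∀ x ∈ V, t x = y → x ∈ St G A → x ∈ Z ∨
      (∀ U ∈ 𝓝 x, Big (m + 1) (t '' (U ∩ St G A))) ∧ ∀ᶠ z in 𝓝[≠] x, z ∈ St G A → t z ≠ y := by
    intro x hx hy hxS
    obtain ⟨i, hi⟩ := ex_idx hO x
    have hζ := fun l => (hO l).leq _ x (hi l)
    have h1 := hR.ind hx (by rw [hy]) hζ (f := fun l : A => l) Subtype.val_injective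
      fun l => hxS l l.2
    subst hy
    exact (alt (by rw [Fintype.card_coe, ← hn, add_assoc]) (ht x hx) (hφ x hx) h1 hxS
      (hS x _ hζ)).imp_left fun h => ⟨hx, hxS, rfl, h⟩
  have hZc : IsCompact Z := by
    have h1 : IsCompact (V ∩ t ⁻¹' {y} ∩ St G A) := hK.inter_right hSc
    have h2 : Z ⊆ V ∩ t ⁻¹' {y} ∩ St G A := fun x hx => ⟨⟨hx.1, hx.2.2.1⟩, hx.2.1⟩
    refine h1.of_isClosed_subset (isClosed_of_closure_subset fun x hx => ?_) h2
    have h3 := closure_minimal h2 h1.isClosed hx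
    refine (halt x h3.1.1 h3.1.2 h3.2).elim id fun h => ?_
    obtain ⟨z, a1, a2⟩ := ((mem_closure_iff_frequently.1 hx).and_eventually
      (eventually_nhdsWithin_iff.1 h.2)).exists
    by_cases a3 : z = x
    · exact a3 ▸ a1
    · exact absurd a1.2.2.1 (a2 a3 a1.2.1)
  obtain ⟨J, hJ, c, hc, hdj⟩ := stCrv n W _ _ (card_sum hn) hZc fun x hx => by
    obtain ⟨i, hi⟩ := ex_idx hO x
    have hζ := fun l => (hO l).leq _ x (hi l)
    refine ⟨_, hR.ind hx.1 (by rw [hx.2.2.1]) hζ (f := fun l : A => l) Subtype.val_injective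
      fun l => hx.2.1 l l.2, ?_⟩
    filter_upwards [hS x _ hζ, hx.2.2.2.eventually_nhds, hV.mem_nhds hx.1] with z a1 a2 a3
    rw [Sum.forall]
    refine ⟨fun h => ⟨a1.1 h.2.1, fun i => sub_eq_zero.2 (by rw [h.2.2.1])⟩, fun h => ?_⟩
    exact ⟨a3, a1.2 h.1, a2.self_of_nhds (a1.2 h.1) (funext fun i => sub_eq_zero.1 (h.2 i)), a2⟩
  refine ⟨J, hJ, c, fun a p => ?_, hdj, fun x hx hy h => (halt x hx hy h).imp_left fun h => ?_⟩
  · have : (c a).ι p ∈ Z := hc ▸ mem_iUnion.2 ⟨a, p, rfl⟩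
    exact ⟨this.1, this.2.2.1, this.2.1⟩
  · exact mem_iUnion.1 (hc.symm ▸ h : x ∈ ⋃ a, range (c a).ι)

end

theorem st_insert {κ : Type} [DecidableEq κ] (G : κ → Set W) (I : Finset κ) (k : κ) :
    St G (insert k I) = St G I ∩ G k := by
  ext x
  simp [St, and_comm]

theorem stSl_of (hA : StAdj) : StSl := by
  intro deg hd n W _ _ _ _ _ κ _ _ G O σ I m N V t φ y hO hn hV ht hφ hK hR
  classical
  have hcard : ∀ k : {k // k ∉ I}, (insert (k : κ) I).card + m + 1 = n := fun k => by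
    rw [Finset.card_insert_of_notMem k.2]; omega
  choose J hJ c hc hdj hcov using fun k : {k // k ∉ I} => fib hO (hcard k) hV ht hφ hK hR
  let C : (Σ k, J k) → Crv n W := fun a => c a.1 a.2
  have hC : ∀ a : Σ k, J k, ∀ p, (C a).ι p ∈ V ∧ φ (t ((C a).ι p)) = φ y ∧
      (C a).ι p ∈ St G (insert (a.1 : κ) I) := fun a p =>
    ⟨(hc _ _ p).1, congrArg φ (hc _ _ p).2.1, (hc _ _ p).2.2⟩
  have hdisj : ∀ a b : Σ k, J k, a ≠ b → (a.1 : κ) = b.1 →
      Disjoint (range (C a).ι) (range (C b).ι) := by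
    rintro ⟨k, a⟩ ⟨k', b⟩ h1 h2
    obtain rfl : k = k' := Subtype.ext h2
    exact hdj k a b fun h => h1 (h ▸ rfl)
  have hfin : ∀ a : Σ k, J k, ∀ l ∉ I, l ≠ a.1 → (range (C a).ι ∩ G l).Finite ∧
      dg deg (C a) (O l) = (range (C a).ι ∩ G l).ncard := fun a l hl hla =>
    crv_fin hd hO (hcard a.1) hR _ (hC a) (by simp [hl, hla])
  let q : (Σ k, J k) → (Σ k, J k) → ℤ := fun a b =>
    if a = b then dg deg (C a) (O a.1) else (range (C a).ι ∩ range (C b).ι).ncard
  have hoff : ∀ a b, a ≠ b → q a b = (range (C a).ι ∩ range (C b).ι).ncard := fun a b h => if_neg h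
  have hself : ∀ a, q a a = dg deg (C a) (O a.1) := fun a => if_pos rfl
  refine ⟨Σ k, J k, inferInstance, C, fun a => a.1, q, fun l a =>
    {x ∈ range (C a).ι ∩ G l | ∀ b : Σ k, J k, (b.1 : κ) = l → x ∉ range (C b).ι}.ncard,
    fun a => a.1.2, fun a p => ⟨(hC a p).1, (hc _ _ p).2.1, (st_insert G I _).subset (hC a p).2.2⟩, hfin,
    hdisj, fun a b => ?_, hoff, hself, fun _ _ _ => rfl, fun a l hl => ?_, fun a => ?_,
    fun k hk x hx hy h1 h2 => ?_⟩
  · by_cases h : a = b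
    · rw [h]
    · rw [hoff a b h, hoff b a (Ne.symm h), inter_comm]
  · by_cases h : l = a.1
    · subst h
      rw [Finset.sum_eq_single a (fun b hb hba => by
        rw [hoff b a hba, (hdisj b a hba (Finset.mem_filter.1 hb).2).inter_eq]; simp) (by simp),
        hself, left_eq_add, Nat.cast_eq_zero]
      exact (congrArg ncard (eq_empty_of_forall_notMem fun x hx => hx.2 a rfl hx.1.1)).trans
        (ncard_empty _)
    · rw [(hfin a l hl h).2, ncard_split (hfin a l hl h).1 (fun b => range (C b).ι)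
        (Finset.univ.filter fun b : Σ k, J k => (b.1 : κ) = l) fun b hb b' hb' hne => hdisj b b' hne
          ((Finset.mem_filter.1 hb).2.trans (Finset.mem_filter.1 hb').2.symm)]
      push_cast
      congr 1
      · refine Finset.sum_congr rfl fun b hb => ?_
        have hb' := (Finset.mem_filter.1 hb).2
        rw [hoff b a fun e => h (by rw [← hb', e])]
        congr 2
        ext x
        refine ⟨fun h => ⟨h.2, h.1.1⟩, fun h => ⟨⟨h.2, ?_⟩, h.1⟩⟩
        obtain ⟨p, rfl⟩ := h.1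
        exact hb' ▸ (hC b p).2.2 _ (Finset.mem_insert_self _ _)
      · simp
  · have h2 := crv_adj hA hd hO (hcard a.1) hR _ (hC a)
    rw [Finset.sum_insert a.1.2] at h2
    rw [hself]
    linarith
  · have := hcov ⟨k, hk⟩ x hx hy (by rw [st_insert]; exact ⟨h1, h2⟩)
    rw [st_insert] at this
    refine this.imp (fun ⟨a, ha⟩ => ⟨⟨⟨k, hk⟩, a⟩, rfl, ha⟩) fun h => ⟨fun U hU => ?_, ?_⟩
    · rw [inter_assoc]
      exact h.1 U hU
    · exact h.2.mono fun z a b c => a ⟨b, c⟩

theorem stSl : StSl := stSl_of stAdj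

end Vale.Agent.P277Z.Slc
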