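import Vale.Agent.P277Z.Slc.Main
import Vale.Agent.P277Z.Slc.Sard
import Vale.Agent.P277Z.Slc.Unit

/-!
# P277, block SLICE: the coefficients of the components which are not contracted
-/

open scoped Manifold ContDiff Topology
open Set Filter MeasureTheory
open Vale.Agent.P272.K Vale.Agent.P285.H281.FD
open P277Z.Glc (Disc step lat_step mem_step_of_mem)

set_option linter.unusedSectionVars false

noncomputable section

namespace Vale.Agent.P277Z.Slc

theorem stSard : StSard := stSard_of stUnit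

theorem Big.mono {d N : ℕ} {T T' : Set (Cm N)} (h : Big d T) (hT : T ⊆ T') : Big d T' :=
  let ⟨g, w, h1, h2⟩ := h
  ⟨g, w, h1.mono fun _ h => hT h, h2⟩

/-- a linear projection of `T` is not a null set -/
theorem Big.proj {d N : ℕ} {T : Set (Cm N)} (h : Big d T) : ∃ φ : Cm N →L[ℂ] Cm d,
    ∀ p : Cm d → Prop, (∀ᵐ s, p s) → ∃ y ∈ T, p (φ y) := by
  obtain ⟨g, w, h1, h2, h3⟩ := h
  obtain ⟨L, hL⟩ := (fderiv ℂ g w).toLinearMap.exists_leftInverse_of_injective
    (LinearMap.ker_eq_bot.2 h3)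
  refine ⟨LinearMap.toContinuousLinearMap L, fun p hp => ?_⟩
  have h4 : HasStrictFDerivAt (fun z => LinearMap.toContinuousLinearMap L (g z))
      ((ContinuousLinearEquiv.refl ℂ (Cm d) : Cm d ≃L[ℂ] Cm d) : Cm d →L[ℂ] Cm d) w := by
    have h5 := (LinearMap.toContinuousLinearMap L).hasStrictFDerivAt.comp w h2.hasStrictFDerivAt
    have h6 : (LinearMap.toContinuousLinearMap L).comp (fderiv ℂ g w) =
        ((ContinuousLinearEquiv.refl ℂ (Cm d) : Cm d ≃L[ℂ] Cm d) : Cm d →L[ℂ] Cm d) :=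
      ContinuousLinearMap.ext fun v => LinearMap.congr_fun hL v
    rwa [h6] at h5
  have h5 : (fun z => LinearMap.toContinuousLinearMap L (g z)) '' {z | g z ∈ T} ∈
      𝓝 (LinearMap.toContinuousLinearMap L (g w)) := by
    rw [← h4.map_nhds_eq_of_equiv]
    exact image_mem_map h1
  obtain ⟨s, hs, z, hz, rfl⟩ := mem_closure_iff_nhds.1 (Measure.dense_of_ae hp _) _ h5 |>.imp
    fun _ h => And.intro h.2 h.1
  exact ⟨g z, hz, hs⟩

theorem RS.infinite (R : RS) : Infinite R.C := by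
  by_contra h
  rw [not_infinite_iff_finite] at h
  obtain ⟨p⟩ : Nonempty R.C := inferInstance
  have he := at_chartAt (n := 1) p
  have h1 : (chartAt (Cm 1) p).target.Finite := by
    rw [← (chartAt (Cm 1) p).image_source_eq_target]
    exact (toFinite _).image _
  exact infinite_of_mem_nhds _ ((chartAt (Cm 1) p).open_target.mem_nhds he.mem_target) h1

theorem disc_Sig {B : Set ℝ} (h : Disc B) : ∀ j, Disc (Sig B j)
  | 0 => h
  | j + 1 => ((disc_Sig h j).union h).step

section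

variable {n : ℕ} {W : Type} [TopologicalSpace W] [ChartedSpace (Cm n) W]
  {deg : ∀ R : RS, Bd R.C → ℤ} {κ : Type} [Fintype κ] [DecidableEq κ] {G : κ → Set W}
  {O : κ → Bd W} {I : Finset κ} {m N : ℕ} {V : Set W} {t : W → Cm N} {y : Cm N} {J : Type}
  [Fintype J] {c : J → Crv n W} {o : J → κ} {q : J → J → ℤ} {nn : κ → J → ℕ}

/-- the degree of a combination of the components -/
theorem Sl.comb (h : Sl deg G O I m V t y c o q nn) (b : κ → ℝ) (a : J) :
    ∑ l, b l * dg deg (c a) (O l) = ∑ l ∈ I, b l * dg deg (c a) (O l) + ∑ e, b (o e) * q e a +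
      ∑ l ∈ Iᶜ, b l * nn l a := by
  rw [← Finset.sum_add_sum_compl I, add_assoc, ← Finset.sum_fiberwise_of_maps_to
    (s := Finset.univ) (t := Iᶜ) (g := o) fun e _ => Finset.mem_compl.2 (h.own e),
    ← Finset.sum_add_distrib]
  congr 1
  refine Finset.sum_congr rfl fun l hl => ?_
  rw [h.sum a l (Finset.mem_compl.1 hl)]
  push_cast
  rw [mul_add, Finset.mul_sum]
  congr 1
  exact Finset.sum_congr rfl fun e he => by rw [(Finset.mem_filter.1 he).2]

theorem Sl.nonneg (h : Sl deg G O I m V t y c o q nn) {a b : J} (hab : a ≠ b) : 0 ≤ q a b := by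
  rw [h.off a b hab]
  exact Nat.cast_nonneg _

/-- the other branches are not contracted -/
theorem Sl.big (h : Sl deg G O I m V t y c o q nn) (hV : IsOpen V) {a : J} {l : κ} (hl : l ∉ I)
    (h0 : nn l a ≠ 0) : Big (m + 1) (t '' (V ∩ St G I ∩ G l)) := by
  rw [h.nn_eq a l hl] at h0
  obtain ⟨_, ⟨⟨p, rfl⟩, h1⟩, h2⟩ := nonempty_of_ncard_ne_zero h0
  obtain ⟨k1, k2, k3, -⟩ := h.sub a p
  rcases h.cover l hl _ k1 k2 k3 h1 with ⟨b, hb, hb'⟩ | h3
  · exact absurd hb' (h2 b hb)
  · exact h3.1 V (hV.mem_nhds k1)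

/-- the curves lie in the exceptional components -/
theorem Sl.own_mem (h : Sl deg G O I m V t y c o q nn) {ex : Set κ} (hI : ∀ l ∈ I, l ∉ ex)
    (hi : ∀ x ∈ V, ∀ x' ∈ V, (∀ l ∈ ex, x ∉ G l) → (∀ l ∈ ex, x' ∉ G l) → t x = t x' → x = x')
    (a : J) : o a ∈ ex := by
  by_contra ho
  have h1 : (⋃ l ∈ ex, range (c a).ι ∩ G l).Finite := (toFinite ex).biUnion fun l hl =>
    (h.fin a l (fun k => hI l k hl) fun k => ho (k ▸ hl)).1
  have := (c a).toRS.infinite
  obtain ⟨x, hx, x', hx', hne⟩ := ((infinite_range_of_injective (c a).inj).sdiff h1).nontrivial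
  simp only [Set.mem_sdiff, mem_iUnion, mem_inter_iff, not_exists, not_and] at hx hx'
  obtain ⟨p, rfl⟩ := hx.1
  obtain ⟨p', rfl⟩ := hx'.1
  exact hne (hi _ (h.sub a p).1 _ (h.sub a p').1 (fun l hl => hx.2 l hl ⟨p, rfl⟩)
    (fun l hl => hx'.2 l hl ⟨p', rfl⟩) ((h.sub a p).2.1.trans (h.sub a p').2.1.symm))

theorem Sl.neg (h : Sl deg G O I m V t y c o q nn) {w : κ → ℝ} (h0 : ∀ l, 0 ≤ w l)
    (hI : ∀ l ∈ I, w l = 0) {a : J} (ha : ∑ l, w l * dg deg (c a) (O l) < 0) :
    ∑ e, w (o e) * q e a < 0 := by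
  rw [h.comb, Finset.sum_eq_zero fun l hl => by rw [hI l hl, zero_mul]] at ha
  have : 0 ≤ ∑ l ∈ Iᶜ, w l * nn l a :=
    Finset.sum_nonneg fun l _ => mul_nonneg (h0 l) (Nat.cast_nonneg _)
  linarith

end

theorem stDisc : StDisc := by
  intro deg hd n W _ _ _ _ _ κ _ G O σ N V t b c ex B hsnc hO hV ht hK hB hb hc0 hc hex hbig hinj
    hdeg I
  classical
  induction I using Finset.induction_on with
  | empty =>
    intro k d _ _ hn h
    exact hex k fun hk => hbig k hk d (by simpa using hn)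
      (h.mono (image_mono fun x hx => ⟨hx.1.1, hx.2⟩))
  | insert j I hj ih =>
    intro k d hI hk hn h
    rw [Finset.card_insert_of_notMem hj] at hn ⊢
    have hI' : ∀ l ∈ I, b l = 1 ∧ l ∉ ex := fun l hl => hI l (Finset.mem_insert_of_mem hl)
    have hkI : k ∉ I := fun h => hk (Finset.mem_insert_of_mem h)
    have hj1 := hI j (Finset.mem_insert_self _ _)
    obtain ⟨φ, hφ⟩ := h.proj
    obtain ⟨_, ⟨x, hx, rfl⟩, hR⟩ := hφ _ (stSard n W κ G V d (fun x => φ (t x)) hsnc hV
      fun x hx i => Hol.comp_an (φ := fun z => φ z i) (ht x hx)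
        (analyticAt_pi_iff.1 (φ.analyticAt _) i))
    obtain ⟨J, _, C, o, q, nn, hS⟩ := stSl deg hd n W κ G O σ I d N V t φ (t x) hO (by omega) hV ht
      (fun x _ => φ.analyticAt _) (hK _) hR
    have hxI : x ∈ St G I := fun l hl => hx.1.2 l (Finset.mem_insert_of_mem hl)
    rcases hS.cover k hkI x hx.1.1 rfl hxI hx.2 with ⟨a₀, ha₀, hxa⟩ | h1
    swap
    · exact mem_step_of_mem (Or.inl (ih k (d + 1) hI' hkI (by omega)
        (h1.1 V (hV.mem_nhds hx.1.1)))) (hb k)
    have hown := hS.own_mem (fun l hl => (hI' l hl).2) hinj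
    have hD := fun a => hdeg (C a) (t x) fun p => ⟨(hS.sub a p).1, (hS.sub a p).2.1⟩
    choose μ hμ hμ' using fun a => (hD a).1
    have hnn : 1 ≤ nn j a₀ := by
      rw [hS.nn_eq a₀ j hj]
      refine (ncard_pos ((hS.fin a₀ j hj fun e => hj1.2 (e ▸ hown a₀)).1.subset fun _ h => h.1)).2
        ⟨x, ⟨hxa, hx.1.2 j (Finset.mem_insert_self _ _)⟩, fun e he => absurd (he ▸ hown e) hj1.2⟩
    rw [← ha₀]
    refine lat_step (B := Sig B I.card ∪ B) ((disc_Sig hB _).union hB).1 Finset.univ q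
      (fun a => dg deg (C a) (Bd.can n W) + ∑ l ∈ I, dg deg (C a) (O l))
      (fun a => ((nn j a - if a = a₀ then 1 else 0 : ℕ) : ℝ) + ∑ l ∈ Iᶜ.erase j, b l * nn l a + μ a)
      (fun a => c (o a)) (fun a => b (o a)) (fun a _ e _ => hS.symm a e)
      (fun a _ e _ h => hS.nonneg h) (fun a _ => (hc _).2 (hown a))
      (fun a _ => hS.neg hc0 (fun l hl => le_antisymm (not_lt.1 (mt (hc l).1 (hI' l hl).2)) (hc0 l))
        (hD a).2) (fun a _ => hS.adj a) (fun a _ => ?_) a₀ (Finset.mem_univ _) (fun a _ => ?_) (hb _)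
    · refine add_mem (add_mem ?_ (sum_mem fun l hl => ?_)) (AddSubmonoid.closure_mono
        (subset_union_right.trans (subset_insert _ _)) (hμ a))
      · rw [← nsmul_one]
        exact nsmul_mem (AddSubmonoid.subset_closure (mem_insert _ _)) _
      · by_cases h0 : nn l a = 0
        · simp [h0]
        · have hl' := Finset.mem_compl.1 (Finset.mem_of_mem_erase hl)
          rw [mul_comm, ← nsmul_eq_mul]
          have h1 : b l ∈ insert (1 : ℝ) (Sig B I.card ∪ B) := mem_insert_of_mem _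
            (Or.inl (ih l (d + 1) hI' hl' (by omega) (hS.big hV hl' h0)))
          exact nsmul_mem (AddSubmonoid.subset_closure h1) _
    · have h1 := hμ' a
      rw [hS.comb, ← Finset.add_sum_erase _ _ (Finset.mem_compl.2 hj), hj1.1,
        Finset.sum_congr rfl fun l hl => by rw [(hI' l hl).1, one_mul]] at h1
      have h2 : ((nn j a - if a = a₀ then 1 else 0 : ℕ) : ℝ) = nn j a - if a = a₀ then 1 else 0 := by
        split_ifs with h
        · rw [h, Nat.cast_sub hnn, Nat.cast_one]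
        · simp
      rw [h2]
      push_cast
      linarith

end Vale.Agent.P277Z.Slc
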