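import Vale.Agent.P285Z.Bridge
import Vale.Agent.P285Z.Gg1A
import Vale.Agent.P299.H954.Zero
import Vale.Agent.P277.Defs

/-!
# P277Z: the degree of a line bundle on a compact Riemann surface
-/

set_option linter.all false

open scoped Manifold ContDiff ComplexOrder Topology
open MeasureTheory Filter Set

noncomputable section

namespace Vale.Agent.P277Z.Slc

open Vale.Agent.P272.K Vale.Agent.P301.H599 Vale.Agent.P285Z Vale.Agent.P285Z.Br
open Vale.Agent.P272.K.INT (intX IsDensity IsClosedForm)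
open Vale.Agent.P301.H98 (IsSection rform_curvature ev_mem)
open Vale.Agent.P285.H281.FD (Bd IsLB IsSec IsMet NZ Nef)
open Vale.Agent.P285Z.G1 (ns)

/-! ### the radial weight -/

/-- the cut off -/
def ta (s : ℝ) : ℝ := Real.smoothTransition (2 * s - 1)

/-- the derivative of the weight -/
def ka (s : ℝ) : ℝ := 1 - ta s + ta s / s

/-- the weight: `log t` for `1 ≤ t` -/
def ph (t : ℝ) : ℝ := ∫ s in (1 : ℝ)..t, ka s

/-- the curvature of the weight -/
def et (s : ℝ) : ℝ := ka s + deriv ka s * s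

theorem ta_smooth : ContDiff ℝ ∞ ta :=
  Real.smoothTransition.contDiff.comp ((contDiff_const.mul contDiff_id).sub contDiff_const)

theorem ta_zero {s : ℝ} (h : s ≤ 1 / 2) : ta s = 0 :=
  Real.smoothTransition.zero_of_nonpos (by linarith)

theorem ta_one {s : ℝ} (h : 1 ≤ s) : ta s = 1 :=
  Real.smoothTransition.one_of_one_le (by linarith)

theorem ka_low {s : ℝ} (h : s < 1 / 2) : ka =ᶠ[𝓝 s] fun _ => 1 := by
  filter_upwards [gt_mem_nhds h] with t ht
  simp [ka, ta_zero (le_of_lt ht)]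

theorem ka_high {s : ℝ} (h : 1 ≤ s) : ka s = s⁻¹ := by simp [ka, ta_one h]

theorem ka_smooth : ContDiff ℝ ∞ ka := by
  refine contDiff_iff_contDiffAt.2 fun s => ?_
  by_cases h : s < 1 / 2
  · exact contDiffAt_const.congr_of_eventuallyEq (ka_low h)
  · exact (contDiffAt_const.sub ta_smooth.contDiffAt).add
      (ta_smooth.contDiffAt.div contDiffAt_id (by intro k; exact h (by linarith)))

theorem ph_deriv (t : ℝ) : HasDerivAt ph (ka t) t :=
  (ka_smooth.continuous.integral_hasStrictDerivAt 1 t).hasDerivAt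

theorem ph_smooth : ContDiff ℝ ∞ ph := by
  refine contDiff_infty_iff_deriv.2 ⟨fun t => (ph_deriv t).differentiableAt, ?_⟩
  rw [show deriv ph = ka from funext fun t => (ph_deriv t).deriv]
  exact ka_smooth

theorem ph_high {t : ℝ} (h : 1 ≤ t) : ph t = Real.log t := by
  have h1 : ph t = ∫ s in (1 : ℝ)..t, s⁻¹ := intervalIntegral.integral_congr fun s hs =>
    ka_high (by rw [uIcc_of_le h] at hs; exact hs.1)
  rw [h1, integral_inv_of_pos one_pos (by linarith), div_one]

theorem ka_deriv (s : ℝ) : HasDerivAt ka (deriv ka s) s :=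
  (ka_smooth.differentiable (by simp) s).hasDerivAt

theorem et_cont : Continuous et :=
  ka_smooth.continuous.add ((ka_smooth.continuous_deriv (by simp)).mul continuous_id)

theorem et_low {s : ℝ} (h : s < 1 / 2) : et s = 1 := by
  rw [et, (ka_low h).deriv_eq, (ka_low h).self_of_nhds]
  simp

theorem et_high {s : ℝ} (h : 1 < s) : et s = 0 := by
  have h1 : ka =ᶠ[𝓝 s] fun t => t⁻¹ := by
    filter_upwards [lt_mem_nhds h] with t ht using ka_high ht.le
  rw [et, h1.deriv_eq, ka_high h.le, deriv_inv]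
  field_simp
  ring

theorem et_nonneg (s : ℝ) : 0 ≤ et s := by
  have h1 : (fun t => ka t * t) = fun t => 1 - max (1 - t) 0 * (1 - ta t) := by
    funext t
    by_cases h0 : t = 0
    · simp [h0, ta_zero]
    rcases le_total t 1 with h | h
    · rw [max_eq_left (by linarith), ka]
      field_simp
      ring
    · rw [ka_high h, ta_one h]
      field_simp
      ring
  have h2 : Monotone fun t => ka t * t := by
    rw [h1]
    intro a b hab
    have k1 : ta a ≤ ta b := Real.smoothTransition.monotone (by linarith)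
    have k2 : ta b ≤ 1 := Real.smoothTransition.le_one _
    have k3 : max (1 - b) 0 ≤ max (1 - a) 0 := max_le_max_right _ (by linarith)
    have := mul_le_mul k3 (sub_le_sub_left k1 1) (sub_nonneg.2 k2) (le_max_right _ _)
    simp only []
    linarith
  have h3 := ((ka_deriv s).mul (hasDerivAt_id s)).deriv
  have h4 := h2.deriv_nonneg (x := s)
  change 0 ≤ deriv (ka * id) s at h4
  rw [h3] at h4
  simp only [id, mul_one] at h4
  rw [et]
  linarith

theorem ns_one (a z : Cm 1) : ns a z = ‖z - a‖ ^ 2 := by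
  simp [ns, Pi.norm_def]

theorem et_supp : HasCompactSupport fun z : Cm 1 => et (ns 0 z) := by
  refine HasCompactSupport.intro (isCompact_closedBall 0 1) fun z hz => et_high ?_
  rw [ns_one, sub_zero]
  rw [mem_closedBall_zero_iff, not_le] at hz
  nlinarith

/-- the normalisation (the number is `π`) -/
def c₀ : ℝ := ∫ z : Cm 1, et (ns 0 z)

theorem c₀_pos : 0 < c₀ :=
  (et_cont.comp (G1.ns_contDiff 0).continuous).integral_pos_of_hasCompactSupport_nonneg_nonzero
    et_supp (fun _ => et_nonneg _) (x := 0) (by simp [G1.ns_self, et_low])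

/-- the weight at scale `r` -/
def wt (a : Cm 1) (r : ℝ) (z : Cm 1) : ℝ := ph ((r ^ 2)⁻¹ * ns a z) + Real.log (r ^ 2)

theorem wt_smooth (a : Cm 1) (r : ℝ) : ContDiff ℝ ∞ (wt a r) :=
  (ph_smooth.comp (contDiff_const.mul (G1.ns_contDiff a))).add contDiff_const

theorem wt_high {a z : Cm 1} {r : ℝ} (hr : 0 < r) (h : r ≤ ‖z - a‖) :
    wt a r z = Real.log (‖z 0 - a 0‖ ^ 2) := by
  have h1 : ns a z = ‖z 0 - a 0‖ ^ 2 := by simp [ns]
  have h2 : r ^ 2 ≤ ns a z := by rw [ns_one]; gcongr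
  have h3 : 0 < r ^ 2 := by positivity
  rw [wt, ph_high (by rw [← div_eq_inv_mul, le_div_iff₀ h3]; linarith), ← h1,
    Real.log_mul (by positivity) (by linarith), Real.log_inv]
  ring

theorem cHess_wt (a z : Cm 1) (r : ℝ) :
    cHess (wt a r) z 0 0 = (((r ^ 2)⁻¹ * et ((r ^ 2)⁻¹ * ns a z) : ℝ) : ℂ) := by
  set c : ℝ := (r ^ 2)⁻¹
  have h0 : ∀ s, HasDerivAt (fun s => ph (c * s) + Real.log (r ^ 2)) (ka (c * s) * c) s := fun s =>
    by simpa [Function.comp_def] using
      ((ph_deriv (c * s)).comp s ((hasDerivAt_id s).const_mul c)).add_const (Real.log (r ^ 2))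
  have h1 : HasDerivAt (fun s => ka (c * s) * c) (deriv ka (c * ns a z) * c * c) (ns a z) := by
    simpa using ((ka_deriv (c * ns a z)).comp (ns a z)
      ((hasDerivAt_id (ns a z)).const_mul c)).mul_const c
  have h2 : ContDiffAt ℝ 2 (ns a) z := (G1.ns_contDiff a).contDiffAt.of_le (by norm_cast)
  have h3 := Ch.cHess_chain' (u := ns a) (Eventually.of_forall h0) h1 h2
  have h4 : Ch.gm (ns a) z 0 0 = (ns a z : ℝ) := by
    rw [Ch.gm_eq (h2.differentiableAt (by norm_num)), Matrix.of_apply, G1.dzb_ns,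
      Complex.conj_mul']
    simp [ns]
  change cHess (fun y => ph (c * ns a y) + Real.log (r ^ 2)) z 0 0 = _
  rw [h3, G1.cHess_ns, Matrix.add_apply, Matrix.smul_apply, Matrix.smul_apply, h4, et]
  simp only [Matrix.one_apply_eq, smul_eq_mul]
  push_cast
  ring

theorem integral_wt (a : Cm 1) {r : ℝ} (hr : 0 < r) :
    ∫ z : Cm 1, (r ^ 2)⁻¹ * et ((r ^ 2)⁻¹ * ns a z) = c₀ := by
  have h1 : ∀ z : Cm 1, (r ^ 2)⁻¹ * ns a z = ns 0 (r⁻¹ • (z - a)) := fun z => by
    rw [ns_one, ns_one, sub_zero, norm_smul, Real.norm_of_nonneg (by positivity), mul_pow, inv_pow]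
  simp only [h1]
  rw [integral_const_mul, integral_sub_right_eq_self (fun z : Cm 1 => et (ns 0 (r⁻¹ • z))) a,
    Measure.integral_comp_inv_smul_of_nonneg volume (fun z : Cm 1 => et (ns 0 z)) hr.le]
  have h2 : Module.finrank ℝ (Cm 1) = 2 := by simp [Module.finrank_pi_fintype]
  rw [h2, smul_eq_mul, ← mul_assoc, inv_mul_cancel₀ (by positivity), one_mul, c₀]

/-! ### the degree -/

variable {C : Type} [TopologicalSpace C] [T2Space C] [CompactSpace C] [ChartedSpace (Cm 1) C]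
  [IsManifold 𝓘(ℂ, Cm 1) ω C]

/-- the density of a form -/
def dn (a : Fm 1 C) : Chart 1 C → Cm 1 → ℝ := fun e z => (a e z 0 0).re

theorem dn_det (a : Fm 1 C) : dn a = fun e z => (a e z).det.re := by
  funext e z
  rw [Matrix.det_fin_one, dn]

theorem dens_of {a : Fm 1 C} (h : IsClosedForm a) : IsDensity (dn a) := by
  rw [dn_det]
  exact h.isDensity

theorem dens_cv {ι : Type} {B : LineBundle 1 C ι} {ρ : ι → C → ℝ} (h : IsMetric B ρ) :
    IsDensity (dn (curvature B ρ)) := dens_of (rform_curvature h).closed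

theorem dens_ddc {u : C → ℝ} (hu : Smooth (d := 1) u) : IsDensity (dn (ddc (d := 1) u)) :=
  dens_of (INT.isClosedForm_cHess hu)

theorem int_ddc {u : C → ℝ} (hu : Smooth (d := 1) u) : intX (dn (ddc (d := 1) u)) = 0 := by
  have h0 := INT.isClosedForm_cHess (n := 1) hu
  have h1 := INT.intX_det_add_cHess (h0.smul 0) hu
  simp only [zero_smul, zero_add] at h1
  rw [dn_det]
  refine h1.trans ?_
  simp [INT.intX_zero]

theorem int_indep {ι : Type} {B : LineBundle 1 C ι} {ρ ψ : ι → C → ℝ} (hρ : IsMetric B ρ)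
    (hψ : IsMetric B ψ) : intX (dn (curvature B ψ)) = intX (dn (curvature B ρ)) := by
  obtain ⟨u, hu, h⟩ := exists_diff hρ hψ
  rw [← add_zero (intX (dn (curvature B ρ))), ← int_ddc hu,
    ← INT.intX_add (dens_cv hρ) (dens_ddc hu)]
  exact INT.intX_congr fun e x hx => by simp only [dn, h e x hx, Matrix.add_apply, Complex.add_re]

open Classical in
/-- the degree -/
def deg (L : Bd C) : ℝ :=
  if h : IsLB 1 L then
    c₀⁻¹ * intX (dn (curvature (toLB L h) (P301.H450.exists_metric (toLB L h)).choose))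
  else 0

theorem deg_eq {L : Bd C} {B : LineBundle 1 C L.ι} (h : Same L B) {ρ : L.ι → C → ℝ}
    (hρ : IsMetric B ρ) : c₀ * deg L = intX (dn (curvature B ρ)) := by
  have hL := h.isLB
  have e : B = toLB L hL := by
    obtain ⟨h1, h2⟩ := h
    cases B
    cases h1
    cases h2
    rfl
  subst e
  rw [deg, dif_pos hL, mul_inv_cancel_left₀ c₀_pos.ne']
  exact int_indep hρ (P301.H450.exists_metric _).choose_spec

theorem ex_met {L : Bd C} (h : IsLB 1 L) : ∃ ψ, IsMet 1 L ψ :=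
  (P301.H450.exists_metric (toLB L h)).imp fun _ => (same_toLB L h).met.1

/-- the degree is the integral of the curvature -/
theorem deg_dens {L : Bd C} (h : IsLB 1 L) {ψ : L.ι → C → ℝ} (hψ : IsMet 1 L ψ) :
    ∃ D, IsDensity D ∧ intX D = c₀ * deg L ∧ ∀ i (e : Chart 1 C) x, At e x → x ∈ L.U i →
      D e (e x) = (cHess (fun z => ψ i (e.symm z)) (e x) 0 0).re :=
  have k := (same_toLB L h).met.2 hψ
  ⟨_, dens_cv k, (deg_eq (same_toLB L h) k).symm, fun i e x hx hi => by
    rw [dn, curv_cv k hx (i := i) hi]⟩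

theorem cHess_sum {κ : Type} (s : Finset κ) (c : κ → ℝ) {f : κ → Cm 1 → ℝ} {z : Cm 1}
    (h : ∀ a, ContDiffAt ℝ ∞ (f a) z) : (cHess (fun y => ∑ a ∈ s, c a * f a y) z 0 0).re =
      ∑ a ∈ s, c a * (cHess (f a) z 0 0).re := by
  classical
  induction s using Finset.induction_on with
  | empty =>
    have := cHess_const_mul 0 (hf := contDiffAt_const (c := (0 : ℝ)) (x := z))
    simp only [zero_mul, Complex.ofReal_zero, zero_smul] at this
    simp [this]
  | insert a s ha ih =>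
    have k : ∀ a, ContDiffAt ℝ 2 (f a) z := fun a => (h a).of_le INT.two_le_inf
    simp only [Finset.sum_insert ha]
    rw [cHess_add (contDiffAt_const.mul (k a)) (ContDiffAt.sum fun a _ =>
      contDiffAt_const.mul (k a)), cHess_const_mul _ (k a), Matrix.add_apply, Complex.add_re, ih]
    simp

theorem ev_U {L : Bd C} (h : IsLB 1 L) {i : L.ι} {e : Chart 1 C} {x : C} (hx : At e x)
    (hi : x ∈ L.U i) : ∀ᶠ z in 𝓝 (e x), e.symm z ∈ L.U i :=
  (ev_mem (L := toLB L h) hx hi).mono fun _ hz => hz.2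

/-- real combinations -/
theorem deg_comb {κ : Type} [Fintype κ] (L : κ → Bd C) (c : κ → ℝ) (hL : ∀ a, IsLB 1 (L a))
    (P : (∀ a, (L a).ι) → C → ℝ)
    (hs : ∀ i (e : Chart 1 C) x, At e x → (∀ a, x ∈ (L a).U (i a)) →
      ContDiffAt ℝ ∞ (fun z => P i (e.symm z)) (e x))
    (hc : ∀ i j x, (∀ a, x ∈ (L a).U (i a)) → (∀ a, x ∈ (L a).U (j a)) →
      P i x = P j x + ∑ a, c a * Real.log (‖(L a).g (i a) (j a) x‖ ^ 2)) :
    ∃ D, IsDensity D ∧ intX D = c₀ * ∑ a, c a * deg (L a) ∧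
      ∀ i (e : Chart 1 C) x, At e x → (∀ a, x ∈ (L a).U (i a)) →
        D e (e x) = (cHess (fun z => P i (e.symm z)) (e x) 0 0).re := by
  choose ρ hρ using fun a => ex_met (hL a)
  choose D hD hI hE using fun a => deg_dens (hL a) (hρ a)
  choose j hj using fun x a => (hL a).cover x
  set u : C → ℝ := fun x => P (j x) x - ∑ a, c a * ρ a (j x a) x with hu
  have hue : ∀ i x, (∀ a, x ∈ (L a).U (i a)) → P i x = ∑ a, c a * ρ a (i a) x + u x := by
    intro i x hi
    simp only [hu]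
    have k : ∑ a, c a * ρ a (i a) x = ∑ a, c a * ρ a (j x a) x +
        ∑ a, c a * Real.log (‖(L a).g (i a) (j x a) x‖ ^ 2) := by
      rw [← Finset.sum_add_distrib]
      exact Finset.sum_congr rfl fun a _ => by
        rw [(hρ a).change (i a) _ x (hi a) (hj x a), mul_add]
    rw [hc i _ x hi (hj x), k]
    ring
  have hev : ∀ i (e : Chart 1 C) x, At e x → (∀ a, x ∈ (L a).U (i a)) → ∀ᶠ z in 𝓝 (e x),
      P i (e.symm z) = ∑ a, c a * ρ a (i a) (e.symm z) + u (e.symm z) := fun i e x hx hi =>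
    (eventually_all.2 fun a => ev_U (hL a) hx (hi a)).mono fun z hz => hue i _ hz
  have hsm : ∀ (i : ∀ a, (L a).ι) (e : Chart 1 C) x, At e x → (∀ a, x ∈ (L a).U (i a)) →
      ContDiffAt ℝ ∞ (fun z => ∑ a, c a * ρ a (i a) (e.symm z)) (e x) := fun i e x hx hi =>
    ContDiffAt.sum fun a _ => contDiffAt_const.mul ((hρ a).smooth _ e x hx (hi a))
  have hus : Smooth (d := 1) u := fun e x hx =>
    ((hs _ e x hx (hj x)).sub (hsm _ e x hx (hj x))).congr_of_eventuallyEq
      ((hev _ e x hx (hj x)).mono fun z hz => by simp only [hz]; ring)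
  have hd : IsDensity fun e z => ∑ a, c a * D a e z :=
    IsDensity.sum _ fun a _ => (hD a).const_mul _
  refine ⟨_, hd.add (dens_ddc hus), ?_, fun i e x hx hi => ?_⟩
  · rw [INT.intX_add hd (dens_ddc hus), int_ddc hus, add_zero,
      INT.intX_sum _ fun a _ => (hD a).const_mul _, Finset.mul_sum]
    exact Finset.sum_congr rfl fun a _ => by rw [INT.intX_const_mul, hI]; ring
  · rw [cHess_congr (hev i e x hx hi), cHess_add ((hsm i e x hx hi).of_le INT.two_le_inf)
      ((hus e x hx).of_le INT.two_le_inf), Matrix.add_apply, Complex.add_re,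
      cHess_sum _ c fun a => (hρ a).smooth _ e x hx (hi a)]
    exact congrArg₂ _ (Finset.sum_congr rfl fun a _ => by rw [hE a _ e x hx (hi a)]) rfl

theorem re_nonneg {M : Matrix (Fin 1) (Fin 1) ℂ} (h : M.PosSemidef) : 0 ≤ (M 0 0).re :=
  (Complex.le_def.1 (h.diag_nonneg (i := 0))).1

theorem re_pos {M : Matrix (Fin 1) (Fin 1) ℂ} (h : M.PosDef) : 0 < (M 0 0).re :=
  (Complex.lt_def.1 (h.diag_pos (i := 0))).1

theorem pos_of_pos {D : Chart 1 C → Cm 1 → ℝ} (hD : IsDensity D)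
    (h : ∀ e x, At e x → 0 ≤ D e (e x)) {e : Chart 1 C} {x : C} (hx : At e x)
    (h0 : 0 < D e (e x)) : 0 < intX D := by
  refine P299.H954.intX_pos_of_pos hD h (x := x) fun e' hx' => (h e' x hx').lt_of_ne fun k => ?_
  rw [hD.change e e' x hx hx', ← k, zero_mul] at h0
  exact lt_irrefl _ h0

/-- real combinations with a semipositive metric -/
theorem deg_real {κ : Type} [Fintype κ] (L : κ → Bd C) (c : κ → ℝ) (hL : ∀ a, IsLB 1 (L a))
    (P : (∀ a, (L a).ι) → C → ℝ)
    (hs : ∀ i (e : Chart 1 C) x, At e x → (∀ a, x ∈ (L a).U (i a)) →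
      ContDiffAt ℝ ∞ (fun z => P i (e.symm z)) (e x))
    (hc : ∀ i j x, (∀ a, x ∈ (L a).U (i a)) → (∀ a, x ∈ (L a).U (j a)) →
      P i x = P j x + ∑ a, c a * Real.log (‖(L a).g (i a) (j a) x‖ ^ 2))
    (hp : ∀ i (e : Chart 1 C) x, At e x → (∀ a, x ∈ (L a).U (i a)) →
      (cHess (fun z => P i (e.symm z)) (e x)).PosSemidef) :
    0 ≤ ∑ a, c a * deg (L a) ∧ ((∃ i, ∃ e : Chart 1 C, ∃ x, At e x ∧ (∀ a, x ∈ (L a).U (i a)) ∧
      (cHess (fun z => P i (e.symm z)) (e x)).PosDef) → 0 < ∑ a, c a * deg (L a)) := by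
  obtain ⟨D, hD, hI, hE⟩ := deg_comb L c hL P hs hc
  have h : ∀ e x, At e x → 0 ≤ D e (e x) := fun e x hx => by
    choose j hj using fun a => (hL a).cover x
    rw [hE j e x hx hj]
    exact re_nonneg (hp j e x hx hj)
  refine ⟨(mul_nonneg_iff_of_pos_left c₀_pos).1 (hI ▸ INT.intX_nonneg h),
    fun ⟨i, e, x, hx, hi, k⟩ => (mul_pos_iff_of_pos_left c₀_pos).1 (hI ▸ pos_of_pos hD h hx ?_)⟩
  rw [hE i e x hx hi]
  exact re_pos k

theorem isLB_mul {L M : Bd C} (hL : IsLB 1 L) (hM : IsLB 1 M) : IsLB 1 (L.mul M) :=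
  ((same_toLB L hL).mul (same_toLB M hM)).isLB

theorem isLB_pow {L : Bd C} (hL : IsLB 1 L) (k : ℕ) : IsLB 1 (L.pow k) :=
  ((same_toLB L hL).pow k).isLB

theorem isLB_inv {L : Bd C} (hL : IsLB 1 L) : IsLB 1 (P277.Bd.inv L) :=
  Same.isLB (L := P277.Bd.inv L) (B := invB (toLB L hL)) ⟨rfl, rfl⟩

theorem isLB_can1 : IsLB 1 (Bd.can 1 C) := same_can.isLB

theorem deg_mul {L M : Bd C} (hL : IsLB 1 L) (hM : IsLB 1 M) : deg (L.mul M) = deg L + deg M := by
  obtain ⟨ρ, hρ⟩ := P301.H450.exists_metric (toLB L hL)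
  obtain ⟨σ, hσ⟩ := P301.H450.exists_metric (toLB M hM)
  refine mul_left_cancel₀ c₀_pos.ne' ?_
  rw [mul_add, deg_eq ((same_toLB L hL).mul (same_toLB M hM)) (isMetric_mulB hρ hσ),
    deg_eq (same_toLB L hL) hρ, deg_eq (same_toLB M hM) hσ,
    ← INT.intX_add (dens_cv hρ) (dens_cv hσ)]
  exact INT.intX_congr fun e x hx =>
    congrArg (fun M : Matrix (Fin 1) (Fin 1) ℂ => (M 0 0).re) (curvature_mulB hρ hσ e x hx)

theorem deg_pow {L : Bd C} (hL : IsLB 1 L) (k : ℕ) : deg (L.pow k) = k * deg L := by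
  obtain ⟨ρ, hρ⟩ := P301.H450.exists_metric (toLB L hL)
  refine mul_left_cancel₀ c₀_pos.ne' ?_
  rw [mul_left_comm, deg_eq ((same_toLB L hL).pow k) (isMetric_pow hρ k),
    deg_eq (same_toLB L hL) hρ, ← INT.intX_const_mul]
  exact INT.intX_congr fun e x hx =>
    (congrArg (fun M : Matrix (Fin 1) (Fin 1) ℂ => (M 0 0).re) (curvature_pow hρ k e x hx)).trans
      (Complex.re_ofReal_mul _ _)

/-- a section without zeros -/
theorem deg_zero {L : Bd C} (hL : IsLB 1 L) {s : L.ι → C → ℂ} (hs : IsSec 1 L s)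
    (h0 : ∀ x, NZ L s x) : deg L = 0 := by
  have hm : IsMet 1 L fun i x => Real.log (‖s i x‖ ^ 2) := by
    refine ⟨fun i e x hx hi => ?_, fun i j x hi hj => ?_⟩
    · refine ContDiffAt.log ((((hs.holo i e x hx hi).of_le le_top).restrict_scalars ℝ).norm_sq ℝ) ?_
      rw [hx.left_inv]
      simpa using h0 x i hi
    · rw [hs.change i j x hi hj, norm_mul, mul_pow, Real.log_mul (by simpa using hL.ne_zero i j x hi hj)
        (by simpa using h0 x j hj), add_comm]
  obtain ⟨D, -, hI, hE⟩ := deg_dens hL hm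
  refine mul_left_cancel₀ c₀_pos.ne' ?_
  rw [← hI, mul_zero, ← INT.intX_zero (n := 1) (X := C)]
  refine INT.intX_congr fun e x hx => ?_
  obtain ⟨i, hi⟩ := hL.cover x
  rw [hE i e x hx hi, cHess_log_norm_sq (hs.holo i e x hx hi) (by rw [hx.left_inv]; exact h0 x i hi)]
  simp

theorem g_self {L : Bd C} (hL : IsLB 1 L) {i : L.ι} {x : C} (hi : x ∈ L.U i) : L.g i i x = 1 :=
  mul_left_cancel₀ (hL.ne_zero i i x hi hi) (by rw [hL.cocycle i i i x hi hi hi, mul_one])

theorem deg_inv {L : Bd C} (hL : IsLB 1 L) : deg (P277.Bd.inv L) = -deg L := by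
  rw [eq_neg_iff_add_eq_zero, add_comm, ← deg_mul hL (isLB_inv hL)]
  refine deg_zero (isLB_mul hL (isLB_inv hL)) (s := fun p x => L.g p.1 p.2 x)
    ⟨fun p e x hx hp => hL.holo _ _ e x hx hp.1 hp.2, fun p q x hp hq => ?_⟩
    fun x p hp => hL.ne_zero _ _ x hp.1 hp.2
  change L.g p.1 p.2 x = L.g p.1 q.1 x * (L.g p.2 q.2 x)⁻¹ * L.g q.1 q.2 x
  have := hL.ne_zero _ _ x hp.2 hq.2
  field_simp
  rw [hL.cocycle _ _ _ x hp.1 hp.2 hq.2, hL.cocycle _ _ _ x hp.1 hq.1 hq.2]

/-- isomorphic line bundles -/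
theorem deg_iso {L M : Bd C} (hL : IsLB 1 L) (hM : IsLB 1 M) {t : L.ι × M.ι → C → ℂ}
    (ht : IsSec 1 (L.mul (P277.Bd.inv M)) t) (h0 : ∀ x, NZ (L.mul (P277.Bd.inv M)) t x) :
    deg L = deg M := by
  have := deg_zero (isLB_mul hL (isLB_inv hM)) ht h0
  rwa [deg_mul hL (isLB_inv hM), deg_inv hM, ← sub_eq_add_neg, sub_eq_zero] at this

end Vale.Agent.P277Z.Slc
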