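import Vale.Agent.P277Z.Slc.DegA
import Vale.Agent.P285Z.Dvd
import Vale.Agent.P277Z.Defs

/-!
# P277Z: the line bundle of a point, and the zeros of sections
-/

set_option linter.all false

open scoped Manifold ContDiff ComplexOrder Topology
open MeasureTheory Filter Set

noncomputable section

namespace Vale.Agent.P277Z.Slc

open Vale.Agent.P272.K Vale.Agent.P301.H599 Vale.Agent.P285Z Vale.Agent.P285Z.Br
open Vale.Agent.P272.K.INT (intX IsDensity IsClosedForm)
open Vale.Agent.P301.H98 (IsSection rform_curvature ev_mem)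
open Vale.Agent.P301.H862 (powL)
open Vale.Agent.P285.H281.FD (Bd IsLB IsSec IsMet NZ Nef)
open Vale.Agent.P285Z.G1 (ns)

variable {C : Type} [TopologicalSpace C] [T2Space C] [CompactSpace C] [ChartedSpace (Cm 1) C]
  [IsManifold 𝓘(ℂ, Cm 1) ω C]

theorem at_ch (p : C) : At (chartAt (Cm 1) p) p := ⟨chart_mem_atlas _ _, mem_chart_source _ _⟩

/-- the coordinate at `p` -/
def zc (p x : C) : ℂ := chartAt (Cm 1) p x 0 - chartAt (Cm 1) p p 0

theorem zc_self (p : C) : zc p p = 0 := sub_self _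

theorem zc_ne {p x : C} (hx : x ∈ (chartAt (Cm 1) p).source) (h : x ≠ p) : zc p x ≠ 0 := fun k =>
  h ((chartAt (Cm 1) p).injOn hx (mem_chart_source _ _)
    (funext fun i => by rw [Subsingleton.elim i 0]; exact sub_eq_zero.1 k))

theorem zc_hol {p x : C} (hx : x ∈ (chartAt (Cm 1) p).source) : Hol 1 (zc p) x := fun _ he =>
  ((analyticAt_pi_iff.1 (trans_an ⟨chart_mem_atlas _ _, hx⟩ he)) 0).sub analyticAt_const

/-- the canonical section -/
def sP (p : C) : Bool → C → ℂ
  | true => zc p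
  | false => fun _ => 1

/-- the line bundle of the point `p` -/
def OP (p : C) : Bd C where
  ι := Bool
  U
    | true => (chartAt (Cm 1) p).source
    | false => {p}ᶜ
  g
    | true, false => zc p
    | false, true => fun x => (zc p x)⁻¹
    | _, _ => fun _ => 1

theorem isLB_OP (p : C) : IsLB 1 (OP p) where
  isOpen
    | true => (chartAt (Cm 1) p).open_source
    | false => isOpen_compl_singleton
  cover x := by
    by_cases h : x = p
    · exact ⟨true, h ▸ mem_chart_source _ _⟩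
    · exact ⟨false, h⟩
  holo
    | true, true, _, _, _, _, _ => contDiffAt_const
    | false, false, _, _, _, _, _ => contDiffAt_const
    | true, false, e, _, he, hi, _ => (zc_hol hi e he).contDiffAt
    | false, true, e, _, he, hi, hj => ((zc_hol hj e he).inv (by
        rw [he.left_inv]; exact zc_ne hj hi)).contDiffAt
  ne_zero
    | true, true, _, _, _ => one_ne_zero
    | false, false, _, _, _ => one_ne_zero
    | true, false, _, hi, hj => zc_ne hi hj
    | false, true, _, hi, hj => inv_ne_zero (zc_ne hj hi)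
  cocycle
    | true, true, _, _, _, _, _ => one_mul _
    | false, false, _, _, _, _, _ => one_mul _
    | true, false, false, _, _, _, _ => mul_one _
    | false, true, true, _, _, _, _ => mul_one _
    | true, false, true, _, hi, hj, _ => mul_inv_cancel₀ (zc_ne hi hj)
    | false, true, false, _, hi, hj, _ => inv_mul_cancel₀ (zc_ne hj hi)

theorem isSec_sP (p : C) : IsSec 1 (OP p) (sP p) where
  holo
    | true, e, _, he, hi => (zc_hol hi e he).contDiffAt
    | false, _, _, _, _ => contDiffAt_const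
  change
    | true, true, _, _, _ => (one_mul _).symm
    | false, false, _, _, _ => (one_mul _).symm
    | true, false, _, _, _ => (mul_one _).symm
    | false, true, _, hi, hj => (inv_mul_cancel₀ (zc_ne hj hi)).symm

theorem sP_ne {p x : C} (h : x ≠ p) : NZ (OP p) (sP p) x
  | true, hi => zc_ne hi h
  | false, _ => one_ne_zero

theorem ex_ne (p : C) : ∃ x, x ≠ p := by
  obtain ⟨z, h1, h2⟩ := (((at_ch p).nhds_target.filter_mono nhdsWithin_le_nhds).and
    (self_mem_nhdsWithin (s := {chartAt (Cm 1) p p}ᶜ))).exists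
  exact ⟨(chartAt (Cm 1) p).symm z, fun h => h2 (by
    rw [← h, mem_singleton_iff, h, ← (chartAt (Cm 1) p).right_inv h1, h])⟩

theorem diag_one (M : Matrix (Fin 1) (Fin 1) ℂ) (h : M.IsHermitian) :
    M = Matrix.diagonal fun _ => ((M 0 0).re : ℂ) := by
  ext i j
  rw [Subsingleton.elim i 0, Subsingleton.elim j 0, Matrix.diagonal_apply_eq]
  exact (h.coe_re_apply_self 0).symm

theorem psd_one {M : Matrix (Fin 1) (Fin 1) ℂ} (h : M.IsHermitian) (k : 0 ≤ (M 0 0).re) :
    M.PosSemidef := by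
  rw [diag_one M h]
  exact Matrix.posSemidef_diagonal_iff.2 fun _ => Complex.zero_le_real.2 k

theorem pd_one {M : Matrix (Fin 1) (Fin 1) ℂ} (h : M.IsHermitian) (k : 0 < (M 0 0).re) :
    M.PosDef := by
  rw [diag_one M h]
  exact Matrix.posDef_diagonal_iff.2 fun _ => Complex.zero_lt_real.2 k

/-- the metric of the line bundle of a point -/
theorem met_OP (p : C) : ∃ ψ, IsMetric (toLB _ (isLB_OP p)) ψ ∧
    (∀ e x, At e x → 0 ≤ dn (curvature (toLB _ (isLB_OP p)) ψ) e (e x)) ∧
    0 < dn (curvature (toLB _ (isLB_OP p)) ψ) (chartAt (Cm 1) p) (chartAt (Cm 1) p p) ∧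
    deg (OP p) = 1 := by
  set c := chartAt (Cm 1) p with hc
  obtain ⟨r, hr, hb⟩ := Metric.nhds_basis_closedBall.mem_iff.1 (at_ch p).nhds_target
  set K := c.symm '' Metric.closedBall (c p) r with hK
  have hKc : IsClosed K :=
    ((isCompact_closedBall _ _).image_of_continuousOn (c.continuousOn_symm.mono hb)).isClosed
  have hKs : K ⊆ c.source := by
    rintro _ ⟨z, hz, rfl⟩
    exact c.map_target (hb hz)
  have hpK : p ∈ K := ⟨c p, Metric.mem_closedBall_self hr.le, (at_ch p).left_inv⟩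
  set v : C → ℝ := c.source.indicator fun x => wt (c p) r (c x) - Real.log (‖zc p x‖ ^ 2) with hv
  have hv0 : ∀ x ∉ K, ∀ e : Chart 1 C, At e x → ∀ᶠ z in 𝓝 (e x), v (e.symm z) = 0 := by
    intro x hx e he
    refine ev_chart he (P := fun y => v y = 0) ?_
    filter_upwards [hKc.isOpen_compl.mem_nhds hx] with y hy
    refine indicator_apply_eq_zero.2 fun hs => sub_eq_zero.2 (wt_high hr ?_)
    by_contra k
    exact hy ⟨c y, mem_closedBall_iff_norm.2 (not_le.1 k).le, c.left_inv hs⟩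
  have hw : ∀ (e : Chart 1 C) x, At e x → x ∈ c.source →
      ContDiffAt ℝ ∞ (fun z => wt (c p) r (c (e.symm z))) (e x) := fun e x he hx =>
    (wt_smooth _ _).contDiffAt.comp (e x)
      (((transition he ⟨chart_mem_atlas _ _, hx⟩).restrict_scalars ℝ).of_le le_top)
  let ψ : Bool → C → ℝ
    | true => fun x => wt (c p) r (c x)
    | false => v
  have hψ : IsMetric (toLB _ (isLB_OP p)) ψ := by
    refine ⟨?_, ?_⟩
    · rintro (_ | _) e x he hi
      · by_cases hx : x ∈ K
        · refine ((hw e x he (hKs hx)).sub (ContDiffAt.log ((((zc_hol (hKs hx) e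
            he).contDiffAt (n := ∞)).restrict_scalars ℝ).norm_sq ℝ) ?_)).congr_of_eventuallyEq ?_
          · rw [he.left_inv]
            simpa using zc_ne (hKs hx) hi
          · filter_upwards [he.nhds_at ⟨chart_mem_atlas (Cm 1) p, hKs hx⟩] with z hz
            exact indicator_of_mem hz.2.2.2 _
        · exact contDiffAt_const.congr_of_eventuallyEq (hv0 x hx e he)
      · exact hw e x he hi
    · rintro (_ | _) (_ | _) x hi hj
      · simp [toLB, OP]
      · change v x = wt (c p) r (c x) + Real.log (‖(zc p x)⁻¹‖ ^ 2)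
        rw [hv, indicator_of_mem (show x ∈ c.source from hj), norm_inv, inv_pow, Real.log_inv, sub_eq_add_neg]
      · change wt (c p) r (c x) = v x + Real.log (‖zc p x‖ ^ 2)
        rw [hv, indicator_of_mem (show x ∈ c.source from hi), sub_add_cancel]
      · simp [toLB, OP]
  have hD := dens_cv hψ
  have h1 : ∀ x ∈ c.source, dn (curvature (toLB _ (isLB_OP p)) ψ) c (c x) =
      (r ^ 2)⁻¹ * et ((r ^ 2)⁻¹ * ns (c p) (c x)) := fun x hx => by
    have he : At c x := ⟨chart_mem_atlas _ _, hx⟩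
    rw [dn, curv_cv hψ he (i := true) hx, cHess_congr (g := wt (c p) r)
      (he.nhds_target.mono fun z hz => by simp only [ψ, c.right_inv hz]), cHess_wt,
      Complex.ofReal_re]
  have h2 : ∀ e x, At e x → x ∉ K → dn (curvature (toLB _ (isLB_OP p)) ψ) e (e x) = 0 :=
    fun e x he hx => by
      rw [dn, curv_cv hψ he (i := false) (fun k => hx (k ▸ hpK)), cHess_congr (hv0 x hx e he)]
      simpa using cHess_sum (∅ : Finset Unit) 0 (f := 0) (z := e x) fun _ => contDiffAt_const
  refine ⟨ψ, hψ, fun e x he => ?_, ?_, mul_left_cancel₀ c₀_pos.ne' ?_⟩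
  · by_cases hx : x ∈ K
    · rw [hD.change e c x he ⟨chart_mem_atlas _ _, hKs hx⟩, h1 x (hKs hx)]
      have := et_nonneg ((r ^ 2)⁻¹ * ns (c p) (c x))
      positivity
    · exact (h2 e x he hx).ge
  · rw [h1 p (hKs hpK), G1.ns_self, mul_zero, et_low (by norm_num)]
    positivity
  · rw [deg_eq (same_toLB _ (isLB_OP p)) hψ, INT.intX_of_support hD (chart_mem_atlas _ p) hKc hKs h2,
      mul_one, ← integral_wt (c p) hr]
    refine Eq.trans ?_ (setIntegral_eq_integral_of_forall_compl_eq_zero (s := c.target)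
      fun z hz => ?_)
    · refine setIntegral_congr_fun c.open_target.measurableSet fun z hz => ?_
      have := h1 _ (c.map_target hz)
      rwa [c.right_inv hz] at this
    · have k : r < ‖z - c p‖ := not_le.1 fun k => hz (hb (mem_closedBall_iff_norm.2 k))
      rw [et_high, mul_zero]
      rw [ns_one, ← div_eq_inv_mul, one_lt_div (by positivity)]
      gcongr

theorem deg_OP (p : C) : deg (OP p) = 1 := (met_OP p).choose_spec.2.2.2

theorem psd_cv {ι : Type} {B : LineBundle 1 C ι} {ρ : ι → C → ℝ} (h : IsMetric B ρ)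
    (k : ∀ e x, At e x → 0 ≤ dn (curvature B ρ) e (e x)) : PSD (curvature B ρ) :=
  fun e x hx => psd_one ((rform_curvature h).herm e x hx) (k e x hx)

/-- a positive line bundle -/
theorem exists_pos [Nonempty C] : ∃ (H : Bd C) (hH : IsLB 1 H) (ρ : H.ι → C → ℝ) (n : ℕ),
    IsMetric (toLB H hH) ρ ∧ PD (curvature (toLB H hH) ρ) ∧ deg H = n := by
  have key : ∃ (H : Bd C) (hH : IsLB 1 H) (ρ : H.ι → C → ℝ) (n : ℕ), IsMetric (toLB H hH) ρ ∧
      deg H = n ∧ (∀ e x, At e x → 0 ≤ dn (curvature (toLB H hH) ρ) e (e x)) ∧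
      ∀ x ∈ (univ : Set C), ∀ e, At e x → 0 < dn (curvature (toLB H hH) ρ) e (e x) := by
    refine isCompact_univ.induction_on (p := fun K => ∃ (H : Bd C) (hH : IsLB 1 H)
      (ρ : H.ι → C → ℝ) (n : ℕ), IsMetric (toLB H hH) ρ ∧ deg H = n ∧
      (∀ e x, At e x → 0 ≤ dn (curvature (toLB H hH) ρ) e (e x)) ∧
      ∀ x ∈ K, ∀ e, At e x → 0 < dn (curvature (toLB H hH) ρ) e (e x)) ?_ ?_ ?_ ?_
    · obtain ⟨ψ, h1, h2, -, h3⟩ := met_OP (Classical.arbitrary C)
      exact ⟨_, _, ψ, 1, h1, by simpa using h3, h2, fun _ h => h.elim⟩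
    · rintro s t hst ⟨H, hH, ρ, n, h1, h2, h3, h4⟩
      exact ⟨H, hH, ρ, n, h1, h2, h3, fun x hx => h4 x (hst hx)⟩
    · rintro s t ⟨H, hH, ρ, n, h1, h2, h3, h4⟩ ⟨H', hH', ρ', n', k1, k2, k3, k4⟩
      have e0 : ∀ e x, At e x → dn (curvature (toLB _ (isLB_mul hH hH')) (mulM ρ ρ')) e (e x) =
          dn (curvature (toLB H hH) ρ) e (e x) + dn (curvature (toLB H' hH') ρ') e (e x) :=
        fun e x hx =>
          congrArg (fun M : Matrix (Fin 1) (Fin 1) ℂ => (M 0 0).re) (curvature_mulB h1 k1 e x hx)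
      refine ⟨_, isLB_mul hH hH', mulM ρ ρ', n + n', isMetric_mulB h1 k1,
        by rw [deg_mul hH hH', h2, k2, Nat.cast_add], fun e x hx => ?_, fun x hx e he => ?_⟩
      · rw [e0 e x hx]
        exact add_nonneg (h3 e x hx) (k3 e x hx)
      · rw [e0 e x he]
        exact hx.elim (fun h => add_pos_of_pos_of_nonneg (h4 x h e he) (k3 e x he))
          fun h => add_pos_of_nonneg_of_pos (h3 e x he) (k4 x h e he)
    · intro p _
      obtain ⟨ψ, h1, h2, h3, h4⟩ := met_OP p
      have hD := dens_cv h1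
      have k := ((chartAt (Cm 1) p).continuousAt (at_ch p).2).eventually
        ((hD.cont _ p (at_ch p)).eventually (lt_mem_nhds h3))
      refine ⟨_, mem_nhdsWithin_of_mem_nhds (k.and ((chartAt (Cm 1) p).open_source.mem_nhds
        (at_ch p).2)), _, _, ψ, 1, h1, by simpa using h4, h2, fun x hx e he =>
        (h2 e x he).lt_of_ne fun k => ?_⟩
      have h5 := hx.1
      rw [hD.change _ e x ⟨chart_mem_atlas _ _, hx.2⟩ he, ← k, zero_mul] at h5
      exact lt_irrefl _ h5
  obtain ⟨H, hH, ρ, n, h1, h2, -, h3⟩ := key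
  exact ⟨H, hH, ρ, n, h1, fun e x hx =>
    pd_one ((rform_curvature h1).herm e x hx) (h3 x trivial e hx), h2⟩

/-! ### zeros of sections -/

/-- the section `s` has the order `m` at `p` -/
def Ord (L : Bd C) (s : L.ι → C → ℂ) (p : C) (m : ℕ) : Prop :=
  ∃ i, p ∈ L.U i ∧ ∃ u, Hol 1 u p ∧ u p ≠ 0 ∧ ∀ᶠ y in 𝓝 p, s i y = u y * zc p y ^ m

variable {L : Bd C} {s : L.ι → C → ℂ}

theorem nz_of (hL : IsLB 1 L) (hs : IsSec 1 L s) {i : L.ι} {x : C} (hi : x ∈ L.U i)
    (h : s i x ≠ 0) : NZ L s x := fun j hj => by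
  rw [hs.change j i x hj hi]
  exact mul_ne_zero (hL.ne_zero j i x hj hi) h

theorem ord_of_freq (hs : IsSec 1 L s) {i : L.ι} {p : C} (hi : p ∈ L.U i)
    (h : ∃ᶠ z in 𝓝 (chartAt (Cm 1) p p), s i ((chartAt (Cm 1) p).symm z) ≠ 0) :
    ∃ m, Ord L s p m := by
  set c := chartAt (Cm 1) p with hc
  have e0 : ∀ z : Cm 1, (fun _ => z 0) = z := fun z => funext fun j => by
    rw [Subsingleton.elim j 0]
  have h1 : AnalyticAt ℂ (fun w : ℂ => s i (c.symm fun _ => w)) (c p 0) :=
    AnalyticAt.comp (g := fun z => s i (c.symm z)) (f := fun w : ℂ => fun _ : Fin 1 => w)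
      (by rw [e0]; exact (hs.holo i c p (at_ch p) hi).analyticAt)
      (analyticAt_pi_iff.2 fun _ => analyticAt_id)
  have h2 : ContinuousAt (fun z : Cm 1 => z 0) (c p) := (continuous_apply 0).continuousAt
  obtain ⟨m, g, g1, g2, g3⟩ := h1.exists_eventuallyEq_pow_smul_nonzero_iff.2 fun k =>
    h ((h2.eventually k).mono fun z hz => by simpa only [e0, not_not] using hz)
  refine ⟨m, i, hi, fun y => g (c y 0), fun e he => ?_, g2, ?_⟩
  · exact AnalyticAt.comp (g := g) (by rw [he.left_inv]; exact g1)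
      (analyticAt_pi_iff.1 (trans_an (at_ch p) he) 0)
  · filter_upwards [(c.continuousAt (at_ch p).2).eventually (h2.eventually g3),
      c.open_source.mem_nhds (at_ch p).2] with y hy hy'
    rw [e0, c.left_inv hy', smul_eq_mul, mul_comm] at hy
    exact hy

variable [ConnectedSpace C]

/-- the degree is the number of the zeros -/
theorem deg_ord (m : C → ℕ) (F : Finset C) : ∀ {L : Bd C} {s : L.ι → C → ℂ}, IsLB 1 L →
    IsSec 1 L s → (∀ p ∈ F, Ord L s p (m p)) → (∀ x ∉ F, NZ L s x) → deg L = ∑ p ∈ F, (m p : ℝ) := by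
  classical
  induction F using Finset.induction_on with
  | empty => exact fun hL hs _ h => by simpa using deg_zero hL hs fun x => h x (by simp)
  | insert p F hp ih =>
    intro L s hL hs h1 h2
    obtain ⟨ψ, hψ, -⟩ := met_OP p
    have hS := isMetric_pow hψ (m p)
    have hσ := isSection_pow ((same_toLB _ (isLB_OP p)).sec.2 (isSec_sP p)) (m p)
    have h0 : NZS (powL (toLB _ (isLB_OP p)) (m p)) fun i x => sP p i x ^ m p :=
      (ex_ne p).elim fun x hx => ⟨false, x, hx, pow_ne_zero _ one_ne_zero⟩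
    obtain ⟨i₀, hi₀, u, u1, u2, u3⟩ := h1 p (Finset.mem_insert_self _ _)
    have k : ∀ i (e : Chart 1 C), At e p → p ∈ L.U i →
        AnalyticAt ℂ (fun z => L.g i i₀ (e.symm z) * u (e.symm z)) (e p) ∧ ∀ᶠ z in 𝓝 (e p),
          s i (e.symm z) = L.g i i₀ (e.symm z) * u (e.symm z) * sP p true (e.symm z) ^ m p :=
      fun i e he hi => ⟨(hL.holo i i₀ e p he hi hi₀).analyticAt.mul (u1 e he), by
        filter_upwards [ev_chart he u3, ev_U hL he hi, ev_U hL he hi₀] with z z1 z2 z3
        rw [hs.change i i₀ _ z2 z3, z1, mul_assoc]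
        rfl⟩
    have hd : Dvd (powL (toLB _ (isLB_OP p)) (m p)) (fun i x => sP p i x ^ m p) (toLB L hL) s := by
      intro x i j e he hi hj
      simp only [sub_zero]
      by_cases hx : x = p
      · subst hx
        cases j
        · exact (hj rfl).elim
        · exact ⟨_, k i e he hi⟩
      · have a1 := ((isSec_sP p).holo j e x he hj).analyticAt.fun_pow (m p)
        have a2 : sP p j (e.symm (e x)) ^ m p ≠ 0 := by
          rw [he.left_inv]; exact pow_ne_zero _ (sP_ne hx j hj)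
        refine ⟨_, (hs.holo i e x he hi).analyticAt.fun_div a1 a2, ?_⟩
        filter_upwards [a1.continuousAt.eventually_ne a2] with z hz
        exact (div_mul_cancel₀ _ hz).symm
    have hP := isLB_pow (isLB_OP p) (m p)
    have hq := (same_toLB _ (isLB_mul hL (isLB_inv hP))).sec.1
      (isSection_quotS hS hσ h0 ((same_toLB L hL).sec.2 hs) hd)
    have hv := fun i j x hi hj => (quotS_spec hS hσ h0 hd (at_ch x) (i := i) (k := j) hi hj).2
    have h3 := ih (isLB_mul hL (isLB_inv hP)) hq (fun q hq => ?_) fun x hx j hj => ?_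
    · rw [deg_mul hL (isLB_inv hP), deg_inv hP, deg_pow (isLB_OP p), deg_OP] at h3
      rw [Finset.sum_insert hp]
      linarith
    · obtain ⟨i, hi, w, w1, w2, w3⟩ := h1 q (Finset.mem_insert_of_mem hq)
      have hqp : q ≠ p := fun h => hp (h ▸ hq)
      refine ⟨(i, false), ⟨hi, hqp⟩, w, w1, w2, ?_⟩
      filter_upwards [w3, (hL.isOpen i).mem_nhds hi, isOpen_compl_singleton.mem_nhds hqp]
        with y y1 y2 y3
      rw [← y1, hv i false y y2 y3]
      exact ((congrArg _ (one_pow _)).trans (mul_one _)).symm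
    · obtain ⟨i, j⟩ := j
      by_cases hxp : x = p
      · subst hxp
        cases j
        · exact (hj.2 rfl).elim
        · have h4 := (quotS_chart hS hσ h0 (at_ch x) (s := s) (i := i) (k := true) hj.2
            (k i _ (at_ch x) hj.1).1 (k i _ (at_ch x) hj.1).2).self_of_nhds
          rw [(at_ch x).left_inv] at h4
          exact h4.trans_ne (mul_ne_zero (hL.ne_zero _ _ _ hj.1 hi₀) u2)
      · exact left_ne_zero_of_mul (hv i j x hj.1 hj.2 ▸ h2 x (by simp [hxp, hx]) i hj.1)

/-- a section which is not zero -/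
theorem deg_nat (hL : IsLB 1 L) (hs : IsSec 1 L s) (h0 : ∃ i x, x ∈ L.U i ∧ s i x ≠ 0) :
    ∃ n : ℕ, deg L = n ∧ ∀ F : Finset C, (∀ x ∈ F, ∃ i, x ∈ L.U i ∧ s i x = 0) → F.card ≤ n := by
  obtain ⟨ρ, hρ⟩ := P301.H450.exists_metric (toLB L hL)
  choose m hm using fun p : C => (hL.cover p).elim fun i hi => ord_of_freq hs hi
    (freq_chart_ne hρ ((same_toLB L hL).sec.2 hs) h0 (at_ch p) hi)
  have k : ∀ p, {y | y ≠ p → NZ L s y} ∈ 𝓝 p := fun p => by
    obtain ⟨i, hi, u, u1, u2, u3⟩ := hm p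
    have h1 : ∀ᶠ y in 𝓝 p, u y ≠ 0 := ev_of_chart (at_ch p) (P := fun y => u y ≠ 0)
      ((u1 _ (at_ch p)).continuousAt.eventually_ne (by rw [(at_ch p).left_inv]; exact u2))
    filter_upwards [u3, h1, (hL.isOpen i).mem_nhds hi,
      (chartAt (Cm 1) p).open_source.mem_nhds (at_ch p).2] with y y1 y2 y3 y4 y5
    exact nz_of hL hs y3 (y1 ▸ mul_ne_zero y2 (pow_ne_zero _ (zc_ne y4 y5)))
  obtain ⟨F, -, hF⟩ := isCompact_univ.elim_nhds_subcover _ fun p _ => k p
  have h1 : ∀ x ∉ F, NZ L s x := fun x hx => by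
    obtain ⟨p, hp, h⟩ := mem_iUnion₂.1 (hF (mem_univ x))
    exact h fun e => hx (e ▸ hp)
  refine ⟨∑ p ∈ F, m p, by rw [deg_ord m F hL hs (fun p _ => hm p) h1, Nat.cast_sum],
    fun G hG => ?_⟩
  refine le_trans ?_ (Finset.sum_le_sum_of_subset (s := G) fun x hx => by_contra fun k =>
    (hG x hx).elim fun i hi => h1 x k i hi.1 hi.2)
  rw [Finset.card_eq_sum_ones]
  refine Finset.sum_le_sum fun x hx => Nat.one_le_iff_ne_zero.2 fun k => ?_
  obtain ⟨i, hi, u, -, u2, u3⟩ := hm x
  obtain ⟨j, hj, h⟩ := hG x hx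
  exact nz_of hL hs hi (by rw [u3.self_of_nhds, k, pow_zero, mul_one]; exact u2) j hj h

theorem deg_nonneg (hL : IsLB 1 L) (hs : IsSec 1 L s) (h0 : ∃ i x, x ∈ L.U i ∧ s i x ≠ 0) :
    0 ≤ deg L := by
  obtain ⟨n, h, -⟩ := deg_nat hL hs h0
  exact h ▸ n.cast_nonneg

/-- sections which separate two points -/
theorem deg_sep (hL : IsLB 1 L) (hs : IsSec 1 L s) {t : L.ι → C → ℂ} (ht : IsSec 1 L t)
    {i j : L.ι} {x y : C} (hi : x ∈ L.U i) (hj : y ∈ L.U j) (h : s i x * t j y ≠ t i x * s j y) :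
    1 ≤ deg L := by
  obtain ⟨n, h1, h2⟩ := deg_nat hL (s := fun k z => s i x * t k z - t i x * s k z)
    ⟨fun k e z he hk => (contDiffAt_const.mul (ht.holo k e z he hk)).sub
      (contDiffAt_const.mul (hs.holo k e z he hk)), fun k l z hk hl => by
      rw [hs.change k l z hk hl, ht.change k l z hk hl]; ring⟩ ⟨j, y, hj, sub_ne_zero.2 h⟩
  rw [h1]
  exact_mod_cast h2 {x} fun z hz => ⟨i, by
    rw [Finset.mem_singleton.1 hz]; exact ⟨hi, by ring⟩⟩

/-- simple zeros -/
theorem deg_simple (hL : IsLB 1 L) (hs : IsSec 1 L s) (F : Finset C)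
    (h0 : ∀ i, ∀ x ∈ L.U i, s i x = 0 ↔ x ∈ F)
    (h1 : ∀ i, ∀ x ∈ L.U i, s i x = 0 → ∀ e : Chart 1 C, At e x →
      fderiv ℂ (fun z => s i (e.symm z)) (e x) ≠ 0) : deg L = F.card := by
  rw [deg_ord (fun _ => 1) F hL hs (fun p hp => ?_) fun x hx i hi k => hx ((h0 i x hi).1 k)]
  · simp
  obtain ⟨i, hi⟩ := hL.cover p
  obtain ⟨m, hm⟩ := ord_of_freq hs hi fun k => h1 i p hi ((h0 i p hi).2 hp) _ (at_ch p) (by
    rw [EventuallyEq.fderiv_eq (f := fun _ => (0 : ℂ)) (k.mono fun z hz => not_not.1 hz)]; simp)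
  obtain ⟨j, hj, u, u1, u2, u3⟩ := id hm
  have h2 := (h0 j p hj).2 hp
  match m with
  | 0 => exact (u2 (by rwa [u3.self_of_nhds, pow_zero, mul_one] at h2)).elim
  | 1 => exact hm
  | m + 2 =>
    refine (h1 j p hj h2 _ (at_ch p) ?_).elim
    have a := (zc_hol (at_ch p).2 _ (at_ch p)).differentiableAt
    have b : (fun z => s j ((chartAt (Cm 1) p).symm z)) =ᶠ[𝓝 (chartAt (Cm 1) p p)] fun z =>
      u ((chartAt (Cm 1) p).symm z) * zc p ((chartAt (Cm 1) p).symm z) ^ (m + 2) :=
      ev_chart (at_ch p) u3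
    rw [b.fderiv_eq,
      fderiv_fun_mul (u1 _ (at_ch p)).differentiableAt (a.fun_pow _), fderiv_fun_pow _ a,
      (at_ch p).left_inv, zc_self]
    ext
    simp

end Vale.Agent.P277Z.Slc
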